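import Mathlib

/-! The algebraic core: Bochner type identities in a commutative ring with derivations. -/

namespace Vale.Agent.P227

open Matrix

/-- A ring of smooth functions with coordinates `x`, a moment potential `ψ` with inverse
Hessian `H`, the potential `U`, point evaluations and the integral against `exp (-U)`. -/
structure Setup (n : ℕ) (R : Type) [CommRing R] [Algebra ℝ R] (X : Type) where
  d : Fin n → Derivation ℝ R R
  comm : ∀ i j f, d i (d j f) = d j (d i f)
  x : Fin n → R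
  dx : ∀ i j, d i (x j) = if i = j then 1 else 0
  ψ : R
  U : R
  H : Matrix (Fin n) (Fin n) R
  HG : H * (Matrix.of fun i j => d i (d j ψ)) = 1
  dU : ∀ a, d a U = ∑ c, x c * d c (d a ψ) - ∑ i, ∑ j, H i j * d a (d i (d j ψ))
  ev : X → R →ₐ[ℝ] ℝ
  Hpos : ∀ p, (H.map (ev p)).PosDef
  Ex : R →ₗ[ℝ] ℝ
  ibp : ∀ i f, Ex (d i f) = Ex (d i U * f)
  pos : ∀ f, (∀ p, 0 ≤ ev p f) → 0 ≤ Ex f

/-- the quadratic form induced by `H` on two-tensors -/
def q2 {n : ℕ} {R : Type} [CommRing R] (H : Matrix (Fin n) (Fin n) R)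
    (A B : Fin n → Fin n → R) : R :=
  ∑ i, ∑ j, ∑ a, ∑ b, H i a * H j b * A i j * B a b

/-- the quadratic form induced by `H` on three-tensors -/
def q3 {n : ℕ} {R : Type} [CommRing R] (H : Matrix (Fin n) (Fin n) R)
    (A B : Fin n → Fin n → Fin n → R) : R :=
  ∑ i, ∑ j, ∑ k, ∑ a, ∑ b, ∑ c, H i a * H j b * H k c * A i j k * B a b c

namespace Setup

variable {n : ℕ} {R : Type} [CommRing R] [Algebra ℝ R] {X : Type} (S : Setup n R X)

/-- Hessian -/
def D2 (f : R) (i j : Fin n) : R := S.d i (S.d j f)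
/-- third derivatives -/
def D3 (f : R) (i j k : Fin n) : R := S.d i (S.d j (S.d k f))
/-- Euler operator -/
def eul (f : R) : R := ∑ i, S.x i * S.d i f
/-- the symmetric operator `H : D² - x · ∇` -/
def L (f : R) : R := ∑ i, ∑ j, S.H i j * S.D2 f i j - S.eul f

end Setup

end Vale.Agent.P227
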