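import Vale.Agent.P227.Step

/-! Solvability for the Ornstein-Uhlenbeck operator. -/

namespace Vale.Agent.P227

open Matrix MeasureTheory ProbabilityTheory Filter Topology Set
open scoped MatrixOrder

variable {n : ℕ}

/-- solvability for even data, up to constants -/
def Solv (A : E n → Mat n) (κ : ℝ) : Prop :=
  ∀ (g : E n → ℝ) (N : ℝ), Yn g N → Ev g → ∃ w M b, Xn w M ∧ ∀ x, Lop A κ w x = g x + b

/-- a priori estimate for even functions -/
def AP (A : E n → Mat n) (κ C : ℝ) : Prop :=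
  ∀ (w : E n → ℝ) (M N : ℝ), Xn w M → Yn (Lop A κ w) N → HM (hs w) (C * N)

lemma bs_psd {c : ℝ} (hc : 0 ≤ c) : (c • (1 : Mat n)).PosSemidef := PosSemidef.one.smul hc

lemma bs_sq {c : ℝ} (hc : 0 ≤ c) (z : E n) : sq (c • (1 : Mat n)) z = √c • z := by
  have h : CFC.sqrt (c • (1 : Mat n)) = √c • (1 : Mat n) := by
    refine CFC.sqrt_unique ?_ (bs_psd (Real.sqrt_nonneg c)).nonneg
    rw [smul_mul_smul_comm, Real.mul_self_sqrt hc, one_mul]
  rw [sq, h, map_smul, map_one]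
  rfl

lemma bs_zero (F : E n → ℝ) (x : E n) : Ps F ((0 : ℝ) • (1 : Mat n)) 1 x = F x := by
  simp only [Ps, bs_sq le_rfl]
  simp

lemma bs_even {F : E n → ℝ} (hF : Continuous F) (h : Ev F) (S : Mat n) (s : ℝ) :
    Ev (Ps F S s) := by
  intro x
  have e := stdGaussian_map (LinearIsometryEquiv.neg ℝ (E := E n))
  unfold Ps
  conv_lhs => rw [γ, ← e]
  rw [integral_map (by fun_prop) (Continuous.aestronglyMeasurable (by fun_prop))]
  refine integral_congr_ae (Eventually.of_forall fun z => ?_)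
  show F (s⁻¹ • (-x + sq S (-z))) = F (s⁻¹ • (x + sq S z))
  rw [map_neg, ← neg_add, smul_neg, h]

lemma bs_bound {F : E n → ℝ} (h : PG F) : ∃ (C : ℝ) (k : ℕ), 0 ≤ C ∧
    ∀ (c s : ℝ) (x : E n), 0 ≤ c → 1 ≤ s → c ≤ s ^ 2 →
      |Ps F (c • 1) s x| ≤ C * (1 + ‖x‖) ^ k := by
  obtain ⟨C, k, hC, h⟩ := h.bound
  have hI : 0 ≤ ∫ z, Xi z ^ k ∂γ n := integral_nonneg fun z => by
    have := one_le_Xi z
    positivity
  refine ⟨C * 2 ^ k * ∫ z, Xi z ^ k ∂γ n, k, by positivity, fun c s x hc hs hcs => ?_⟩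
  have hs0 : 0 < s := by linarith
  have hi : s⁻¹ ≤ 1 := inv_le_one_of_one_le₀ hs
  have h1 : ‖Ps F (c • 1) s x‖ ≤ ∫ z : E n, C * (1 + ‖x‖ + 1) ^ k * Xi z ^ k ∂γ n := by
    refine norm_integral_le_of_norm_le ((int_Xi k).const_mul _) (Eventually.of_forall fun z => ?_)
    rw [smul_add, Real.norm_eq_abs]
    refine h _ _ z 1 ‖x‖ zero_le_one ?_ ?_
    · rw [norm_smul, Real.norm_eq_abs, abs_of_pos (inv_pos.2 hs0)]
      exact mul_le_of_le_one_left (norm_nonneg _) hi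
    · rw [bs_sq hc, smul_smul, norm_smul, Real.norm_eq_abs, abs_of_nonneg (by positivity)]
      refine mul_le_mul_of_nonneg_right ?_ (norm_nonneg _)
      rw [inv_mul_le_iff₀ hs0, mul_one]
      exact Real.sqrt_le_iff.2 ⟨hs0.le, hcs⟩
  rw [integral_const_mul, Real.norm_eq_abs] at h1
  refine h1.trans ?_
  have h2 : (1 + ‖x‖ + 1) ^ k ≤ 2 ^ k * (1 + ‖x‖) ^ k := by
    rw [← mul_pow]
    exact pow_le_pow_left₀ (by positivity) (by linarith [norm_nonneg x]) k
  calc _ ≤ C * (2 ^ k * (1 + ‖x‖) ^ k) * ∫ z, Xi z ^ k ∂γ n := by gcongr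
    _ = _ := by ring

/-- variance at time `t` -/
noncomputable def bsv (t : ℝ) : ℝ := Real.exp (2 * |t|) - 1

lemma bsv_nonneg (t : ℝ) : 0 ≤ bsv t := sub_nonneg.2 (Real.one_le_exp (by positivity))

lemma bs_one_le (t : ℝ) : 1 ≤ Real.exp |t| := Real.one_le_exp (abs_nonneg t)

/-- the Ornstein-Uhlenbeck semigroup -/
noncomputable def bsP (g : E n → ℝ) (t : ℝ) : E n → ℝ := Ps g (bsv t • 1) (Real.exp |t|)

lemma bsP_zero (g : E n → ℝ) (x : E n) : bsP g 0 x = g x := by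
  have := bs_zero g x
  simpa [bsP, bsv] using this

lemma bsP_bound {g : E n → ℝ} (h : PG g) : ∃ (C : ℝ) (k : ℕ), 0 ≤ C ∧
    ∀ t x, |bsP g t x| ≤ C * (1 + ‖x‖) ^ k := by
  obtain ⟨C, k, hC, h⟩ := bs_bound h
  refine ⟨C, k, hC, fun t x => h _ _ x (bsv_nonneg t) (bs_one_le t) ?_⟩
  rw [← Real.exp_nat_mul, bsv]
  push_cast
  linarith

lemma bsP_cont {X : Type} [TopologicalSpace X] [FirstCountableTopology X] {g : E n → ℝ}
    (hg : Continuous g) (h : PG g) {t : X → ℝ} {x : X → E n} (ht : Continuous t)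
    (hx : Continuous x) : Continuous fun p => bsP g (t p) (x p) :=
  continuous_Ps hg h (fun p => bs_psd (bsv_nonneg _)) (by unfold bsv; fun_prop)
    (fun p => bs_one_le _) (by fun_prop) hx

lemma bsP_semi {g : E n → ℝ} (hg : Continuous g) (h : PG g) {t r : ℝ} (ht : 0 ≤ t) (hr : 0 ≤ r)
    (x : E n) : bsP (bsP g t) r x = bsP g (t + r) x := by
  have hD : 0 ≤ Real.exp r ^ 2 * bsv t := mul_nonneg (by positivity) (bsv_nonneg t)
  have e : (bsv (t + r) • 1 : Mat n) = bsv r • 1 + (Real.exp r ^ 2 * bsv t) • 1 := by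
    rw [← add_smul]
    congr 1
    unfold bsv
    rw [abs_of_nonneg ht, abs_of_nonneg hr, abs_of_nonneg (add_nonneg ht hr), ← Real.exp_nat_mul,
      mul_sub, ← Real.exp_add]
    push_cast
    rw [show 2 * r + 2 * t = 2 * (t + r) by ring]
    ring
  have hi := int_Ps' hg h (bsv (t + r) • 1) (Real.exp |t + r|) x
  unfold bsP
  conv_rhs => rw [Ps]
  rw [e] at hi ⊢
  rw [conv (G := fun ξ => g ((Real.exp |t + r|)⁻¹ • (x + ξ))) (bs_psd (bsv_nonneg r)) (bs_psd hD)
    (by fun_prop) hi, Ps]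
  refine integral_congr_ae (Eventually.of_forall fun z => ?_)
  refine integral_congr_ae (Eventually.of_forall fun z' => ?_)
  show g _ = g _
  congr 1
  rw [bs_sq hD, bs_sq (bsv_nonneg t), Real.sqrt_mul (by positivity),
    Real.sqrt_sq (Real.exp_pos r).le, abs_of_nonneg ht, abs_of_nonneg hr,
    abs_of_nonneg (add_nonneg ht hr), Real.exp_add]
  have := (Real.exp_pos r).ne'
  have := (Real.exp_pos t).ne'
  match_scalars <;> field_simp

section resolvent

variable {lam : ℝ}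

lemma bs_int (hl : 0 < lam) {φ : ℝ → ℝ} (hφ : Continuous φ) {B : ℝ} (h : ∀ t, |φ t| ≤ B) :
    IntegrableOn (fun t => Real.exp (-lam * t) * φ t) (Ioi 0) := by
  refine ((exp_neg_integrableOn_Ioi 0 hl).mul_const B).mono'
    (Continuous.aestronglyMeasurable (by fun_prop)) (Eventually.of_forall fun t => ?_)
  rw [Real.norm_eq_abs, abs_mul, abs_of_pos (Real.exp_pos _)]
  exact mul_le_mul_of_nonneg_left (h t) (Real.exp_pos _).le

lemma bs_le (hl : 0 < lam) {φ : ℝ → ℝ} {B : ℝ} (h : ∀ t, |φ t| ≤ B) :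
    |∫ t in Ioi 0, Real.exp (-lam * t) * φ t| ≤ lam⁻¹ * B := by
  have h1 := norm_integral_le_of_norm_le (μ := volume.restrict (Ioi 0))
    (f := fun t => Real.exp (-lam * t) * φ t)
    ((exp_neg_integrableOn_Ioi 0 hl).mul_const B) (Eventually.of_forall fun t => by
      rw [Real.norm_eq_abs, abs_mul, abs_of_pos (Real.exp_pos _)]
      exact mul_le_mul_of_nonneg_left (h t) (Real.exp_pos _).le)
  rw [integral_mul_const, integral_exp_mul_Ioi (neg_lt_zero.2 hl), Real.norm_eq_abs] at h1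
  refine h1.trans (le_of_eq ?_)
  simp

/-- the resolvent -/
noncomputable def bsW (lam : ℝ) (g : E n → ℝ) (x : E n) : ℝ :=
  ∫ t in Ioi 0, Real.exp (-lam * t) * bsP g t x

variable {g : E n → ℝ}

lemma bsW_int (hl : 0 < lam) (hg : Continuous g) (h : PG g) (x : E n) :
    IntegrableOn (fun t => Real.exp (-lam * t) * bsP g t x) (Ioi 0) := by
  obtain ⟨C, k, -, hb⟩ := bsP_bound h
  exact bs_int hl (bsP_cont hg h continuous_id continuous_const) fun t => hb t x

lemma bsW_cont (hl : 0 < lam) (hg : Continuous g) (h : PG g) : Continuous (bsW lam g) := by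
  obtain ⟨C, k, hC, hb⟩ := bsP_bound h
  rw [continuous_iff_continuousAt]
  intro x
  refine continuousAt_of_dominated
    (bound := fun t => Real.exp (-lam * t) * (C * (1 + (‖x‖ + 1)) ^ k))
    (Eventually.of_forall fun y => (bsW_int hl hg h y).aestronglyMeasurable) ?_
    ((exp_neg_integrableOn_Ioi 0 hl).mul_const _) (Eventually.of_forall fun t =>
      (continuous_const.mul (bsP_cont hg h continuous_const continuous_id)).continuousAt)
  filter_upwards [continuous_norm.continuousAt.eventually (ge_mem_nhds (lt_add_one ‖x‖))] with y hy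
  refine Eventually.of_forall fun t => ?_
  rw [Real.norm_eq_abs, abs_mul, abs_of_pos (Real.exp_pos _)]
  refine mul_le_mul_of_nonneg_left ((hb t y).trans ?_) (Real.exp_pos _).le
  gcongr

lemma bsW_even (hg : Continuous g) (he : Ev g) : Ev (bsW lam g) := by
  intro x
  unfold bsW bsP
  simp only [bs_even hg he _ _ x]

lemma bsW_d2 (hl : 0 < lam) (hg : Continuous g) (h : PG g) (x y z : E n) :
    d2 (bsW lam g) x y z = ∫ t in Ioi 0, Real.exp (-lam * t) * d2 (bsP g t) x y z := by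
  have I := bsW_int hl hg h
  simp only [d2, bsW, mul_add, mul_sub]
  rw [integral_add, integral_sub, integral_sub]
  exacts [I _, I _, (I _).sub (I _), I _, ((I _).sub (I _)).sub (I _), I _]

lemma bs_d2_cont (hg : Continuous g) (y z : E n) : Continuous fun x => d2 g x y z := by
  unfold d2; fun_prop

lemma bs_shift_pg (h : PG g) (y : E n) : PG fun x => g (x + y) := by
  obtain ⟨C, k, hb⟩ := h
  refine ⟨C * (1 + ‖y‖) ^ k, k, fun x => (hb _).trans ?_⟩
  rw [mul_assoc, ← mul_pow]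
  have := pg_nonneg hb
  have := norm_add_le x y
  have := norm_nonneg x
  have := norm_nonneg y
  gcongr
  nlinarith

lemma bs_sub_pg {f : E n → ℝ} (hf : PG f) (h : PG g) : PG fun x => f x - g x := by
  have := hf.add ((PG.const (-1)).mul h)
  simpa [sub_eq_add_neg] using this

lemma bs_d2_pg (h : PG g) (y z : E n) : PG fun x => d2 g x y z := by
  unfold d2
  simp only [add_assoc]
  exact (bs_sub_pg (bs_sub_pg (bs_shift_pg h _) (bs_shift_pg h _)) (bs_shift_pg h _)).add h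

lemma bs_Ps_diff {F : E n → ℝ} (hF : Continuous F) (h : PG F) (S : Mat n) (s : ℝ) (x d : E n) :
    Ps F S s (x + d) - Ps F S s x = Ps (fun ξ => F (ξ + s⁻¹ • d) - F ξ) S s x := by
  have e : ∀ z, s⁻¹ • (x + sq S z) + s⁻¹ • d = s⁻¹ • (x + d + sq S z) := fun z => by module
  simp only [Ps, e]
  rw [integral_sub (int_Ps' hF h S s _) (int_Ps' hF h S s _)]

lemma bs_smul_le {s : ℝ} (hs : 1 ≤ s) (y : E n) : ‖s⁻¹ • y‖ ≤ ‖y‖ :=
  norm_smul_le01 y (inv_nonneg.2 (by linarith)) (inv_le_one_of_one_le₀ hs)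

lemma bsW_C2 (hl : 0 < lam) (hg : Continuous g) (h : PG g) {r B : ℝ} (hr : 0 < r) (hB : 0 ≤ B)
    (h2 : ∀ x y z, ‖y‖ ≤ r → ‖z‖ ≤ r → |d2 g x y z| ≤ B * ‖y‖ * ‖z‖)
    (h3 : ∀ x y z d, ‖y‖ ≤ r → ‖z‖ ≤ r → ‖d‖ ≤ r →
      |d2 g (x + d) y z - d2 g x y z| ≤ B * ‖y‖ * ‖z‖ * √‖d‖) :
    C2 (bsW lam g) ∧ ∃ M, HM (hs (bsW lam g)) M := by
  have b2 : ∀ t x y z, ‖y‖ ≤ r → ‖z‖ ≤ r → |d2 (bsP g t) x y z| ≤ B * ‖y‖ * ‖z‖ := by
    intro t x y z hy hz
    have hy' := bs_smul_le (bs_one_le t) y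
    have hz' := bs_smul_le (bs_one_le t) z
    rw [bsP, Ps_d2 hg h]
    refine Ps_abs_le (fun ξ => (h2 _ _ _ (hy'.trans hy) (hz'.trans hz)).trans ?_) _ _ _
    gcongr
  have c2 : ∀ x y z, Continuous fun t => d2 (bsP g t) x y z := fun x y z => by
    have c := fun p : E n => bsP_cont hg h continuous_id (continuous_const (y := p))
    exact (((c _).sub (c _)).sub (c _)).add (c _)
  refine dc2 (N := lam⁻¹ * B) (bsW_cont hl hg h) hr (fun x y z hy hz => ?_)
    fun x y z d hy hz hd => ?_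
  · rw [bsW_d2 hl hg h]
    exact (bs_le hl fun t => b2 t x y z hy hz).trans (le_of_eq (by ring))
  · rw [bsW_d2 hl hg h, bsW_d2 hl hg h, ← integral_sub (bs_int hl (c2 _ _ _)
      fun t => b2 t _ y z hy hz) (bs_int hl (c2 _ _ _) fun t => b2 t _ y z hy hz)]
    simp only [← mul_sub]
    refine (bs_le (B := B * ‖y‖ * ‖z‖ * √‖d‖) hl fun t => ?_).trans (le_of_eq (by ring))
    have hy' := bs_smul_le (bs_one_le t) y
    have hz' := bs_smul_le (bs_one_le t) z
    have hd' := bs_smul_le (bs_one_le t) d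
    rw [bsP, Ps_d2 hg h, Ps_d2 hg h, bs_Ps_diff (bs_d2_cont hg _ _) (bs_d2_pg h _ _)]
    refine Ps_abs_le (fun ξ =>
      (h3 _ _ _ _ (hy'.trans hy) (hz'.trans hz) (hd'.trans hd)).trans ?_) _ _ _
    gcongr

lemma bsW_semi (hl : 0 < lam) (hg : Continuous g) (h : PG g) {r : ℝ} (hr : 0 ≤ r) (x : E n) :
    Real.exp (-lam * r) * bsP (bsW lam g) r x
      = bsW lam g x - ∫ t in (0 : ℝ)..r, Real.exp (-lam * t) * bsP g t x := by
  obtain ⟨C, k, hC, hb⟩ := bsP_bound h
  have cG : Continuous fun y : E n => C * (1 + ‖y‖) ^ k := by fun_prop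
  have pG : PG fun y : E n => C * (1 + ‖y‖) ^ k := ⟨C, k, fun y => by
    rw [abs_of_nonneg (by positivity)]⟩
  have hi : Integrable (Function.uncurry fun (z : E n) (t : ℝ) => Real.exp (-lam * t) *
      bsP g t ((Real.exp |r|)⁻¹ • (x + sq (bsv r • 1) z)))
      ((γ n).prod (volume.restrict (Ioi 0))) := by
    refine ((int_Ps' cG pG (bsv r • 1) (Real.exp |r|) x).mul_prod
      (exp_neg_integrableOn_Ioi 0 hl)).mono' (Continuous.aestronglyMeasurable ?_)
      (Eventually.of_forall fun p => ?_)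
    · exact Continuous.mul (by fun_prop) (bsP_cont hg h continuous_snd (by fun_prop))
    · show ‖Real.exp (-lam * p.2) * _‖ ≤ _
      rw [Real.norm_eq_abs, abs_mul, abs_of_pos (Real.exp_pos _), mul_comm]
      exact mul_le_mul_of_nonneg_right (hb _ _) (Real.exp_pos _).le
  have e1 : bsP (bsW lam g) r x = ∫ t in Ioi 0, Real.exp (-lam * t) * bsP g (t + r) x := by
    rw [bsP, Ps]
    unfold bsW
    rw [integral_integral_swap hi]
    refine setIntegral_congr_fun measurableSet_Ioi fun t ht => ?_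
    show ∫ z, Real.exp (-lam * t) * _ ∂γ n = _
    rw [integral_const_mul, ← bsP_semi hg h (le_of_lt ht) hr]
    rfl
  have e2 := (measurePreserving_add_right (volume : Measure ℝ) r).setIntegral_preimage_emb
    (measurableEmbedding_addRight r) (fun t => Real.exp (-lam * t) * bsP g t x) (Ioi r)
  rw [preimage_add_const_Ioi, sub_self] at e2
  rw [e1, ← integral_const_mul, ← intervalIntegral.integral_Ioi_sub_Ioi (bsW_int hl hg h x) hr,
    bsW, sub_sub_cancel, ← e2]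
  refine integral_congr_ae (Eventually.of_forall fun t => ?_)
  show _ = Real.exp (-lam * (t + r)) * _
  rw [mul_add, Real.exp_add]
  ring

lemma bsW_eq (hl : 0 < lam) (hg : Continuous g) (h : PG g) {M : ℝ} (hW : C2 (bsW lam g))
    (hM : HM (hs (bsW lam g)) M) (x : E n) : Lop (fun _ => 1) (-lam) (bsW lam g) x = -g x := by
  have ds : HasDerivWithinAt (fun r : ℝ => Real.exp |r|) (1 / Real.exp |0|) (Ici 0) 0 := by
    refine ((Real.hasDerivAt_exp 0).hasDerivWithinAt.congr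
      (fun r hr => by rw [abs_of_nonneg hr]) (by simp)).congr_deriv (by simp)
  have dv : HasDerivWithinAt bsv 2 (Ici 0) 0 := by
    have := (((hasDerivAt_id (0 : ℝ)).const_mul 2).exp.sub_const 1).hasDerivWithinAt (s := Ici 0)
    refine (this.congr (fun r hr => by rw [bsv, abs_of_nonneg hr]; rfl)
      (by simp [bsv])).congr_deriv (by simp)
  have d1 := hasDeriv_eta (S := fun r => bsv r • (1 : Mat n)) (A := 1) (ω := 1) (ρ := 0) hW
    (hM.mono (le_abs_self M)) (abs_nonneg M) (-lam) x (bs_psd (bsv_nonneg 0))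
    (fun r _ => by simpa [bsv] using bs_psd (n := n) (bsv_nonneg r)) (fun r _ => bs_one_le r) ds
    fun i j => by simpa using dv.mul_const ((1 : Mat n) i j)
  have c : Continuous fun t => Real.exp (-lam * t) * bsP g t x :=
    Continuous.mul (by fun_prop) (bsP_cont hg h continuous_id continuous_const)
  have d2' := (((intervalIntegral.integral_hasStrictDerivAt_right (c.intervalIntegrable 0 0)
    (c.stronglyMeasurableAtFilter _ _) c.continuousAt).hasDerivAt.const_sub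
      (bsW lam g x)).hasDerivWithinAt (s := Ici 0))
  have d3 := d2'.congr (f₁ := fun r => Real.exp |r| ^ (-lam) *
      Ps (bsW lam g) (bsv r • 1) (Real.exp |r|) x) (fun r hr => by
    rw [← bsW_semi hl hg h hr, ← Real.exp_mul, bsP, abs_of_nonneg hr, mul_comm r]) (by
    rw [← bsW_semi hl hg h le_rfl, ← Real.exp_mul, bsP, abs_zero, mul_comm 0])
  have e := (uniqueDiffWithinAt_Ici (0 : ℝ)).eq_deriv _ d1 d3
  have e0 := bsP_zero (Lop (fun _ => 1) (-lam) (bsW lam g)) x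
  rw [bsP] at e0
  rw [e0, bsP_zero] at e
  simpa using e

lemma bs_nice (hl : 0 < lam) (hg : Continuous g) (h : PG g) (he : Ev g) {r B : ℝ} (hr : 0 < r)
    (hB : 0 ≤ B) (h2 : ∀ x y z, ‖y‖ ≤ r → ‖z‖ ≤ r → |d2 g x y z| ≤ B * ‖y‖ * ‖z‖)
    (h3 : ∀ x y z d, ‖y‖ ≤ r → ‖z‖ ≤ r → ‖d‖ ≤ r →
      |d2 g (x + d) y z - d2 g x y z| ≤ B * ‖y‖ * ‖z‖ * √‖d‖) :
    ∃ w M b, Xn w M ∧ ∀ x, Lop (fun _ => 1) (-lam) w x = g x + b := by
  obtain ⟨hW, M, hM⟩ := bsW_C2 hl hg h hr hB h2 h3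
  have hX : Xn (fun x => bsW lam g x - bsW lam g 0) M := by
    refine ⟨hW.sub (C2.const _), fun x => ?_, sub_self _, ?_⟩
    · show bsW lam g (-x) - _ = bsW lam g x - _
      rw [bsW_even hg he]
    · rw [hs_sub hW (C2.const _), hs_const]
      simpa using hM
  refine ⟨_, _, -lam * bsW lam g 0, hX.const_mul (-1), fun x => ?_⟩
  rw [Lop_const_mul, Lop_sub _ _ hW (C2.const _), Lop_const, bsW_eq hl hg h hW hM]
  ring

end resolvent

lemma bs_quad (e : ℝ) (v : Fin n → ℝ) : v ⬝ᵥ (e ^ 2 • (1 : Mat n)) *ᵥ v = e ^ 2 * (v ⬝ᵥ v) := by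
  rw [smul_mulVec, one_mulVec, dotProduct_smul, smul_eq_mul]

lemma bs_moll {lam : ℝ} (hl : 0 < lam) {g : E n → ℝ} {N e : ℝ} (hg : Yn g N) (he : Ev g)
    (e0 : 0 < e) (e1 : e ≤ 1) : Yn (Ps g (e ^ 2 • 1) 1) N ∧
      ∃ w M b, Xn w M ∧ ∀ x, Lop (fun _ => 1) (-lam) w x = Ps g (e ^ 2 • 1) 1 x + b := by
  have hc := hg.continuous
  obtain ⟨hN, g1, g2, rfl, h1, c2, p2, h2⟩ := hg
  have c1 := h1.continuous
  have p1 := h1.pg
  have hS : (e ^ 2 • (1 : Mat n)).PosSemidef := bs_psd (by positivity)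
  have es : Ps (g1 + g2) (e ^ 2 • (1 : Mat n)) 1
      = Ps g1 (e ^ 2 • 1) 1 + Ps g2 (e ^ 2 • 1) 1 := funext fun x => Ps_add c1 p1 c2 p2 _ _ x
  have b2 : ∀ x y z, |d2 (Ps g2 (e ^ 2 • (1 : Mat n)) 1) x y z| ≤ N * ‖y‖ * ‖z‖ := fun x y z => by
    rw [Ps_d2 c2 p2, inv_one, one_smul, one_smul]
    exact Ps_abs_le (fun ξ => h2 ξ y z) _ _ _
  have hY : Yn (Ps (g1 + g2) (e ^ 2 • 1) 1) N := by
    refine ⟨hN, _, _, es, fun x y => ?_, continuous_Ps c2 p2 (fun _ => hS) continuous_const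
      (fun _ => le_rfl) continuous_const continuous_id, ?_, b2⟩
    · have := bs_Ps_diff c1 p1 (e ^ 2 • (1 : Mat n)) 1 y (x - y)
      rw [add_sub_cancel] at this
      rw [this]
      refine Ps_abs_le (fun ξ => ?_) _ _ _
      have := h1 (ξ + (1 : ℝ)⁻¹ • (x - y)) ξ
      simpa using this
    · obtain ⟨C, k, -, hb⟩ := bs_bound p2
      exact ⟨C, k, fun x => hb _ _ x (by positivity) le_rfl (by nlinarith)⟩
  have hm : ∀ x h, |g1 ((1 : ℝ)⁻¹ • x + h) - g1 x| ≤ N * md ‖h‖ := fun x h => by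
    simpa using h1 (x + h) x
  have hI := one_le_Ic (n := n)
  have hmd := md_nonneg (e / 1)
  have hse : 0 < √e := Real.sqrt_pos.2 e0
  set A := 8 * Ic n * N * md (e / 1) / e ^ 2 + Ic n * N with hA
  have hA0 : 0 ≤ A := by positivity
  have ed : ∀ x y z, d2 (Ps (g1 + g2) (e ^ 2 • (1 : Mat n)) 1) x y z
      = d2 (Ps g1 (e ^ 2 • 1) 1) x y z + d2 (Ps g2 (e ^ 2 • 1) 1) x y z := fun x y z => by
    rw [es]; simp only [d2, Pi.add_apply]; ring
  refine ⟨hY, bs_nice (B := A + A / √e) hl hY.continuous hY.pg (bs_even hc he _ _) e0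
    (by positivity) (fun x y z hy hz => ?_) fun x y z d hy hz hd => ?_⟩
  · rw [ed]
    refine (aadd (kern2 c1 p1 hS e0 e0.le one_pos hN (fun v => (bs_quad e v).ge)
      (fun v => (bs_quad e v).le) (hm x) hy hz) (b2 x y z)).trans ?_
    calc _ = (2 * Ic n * N * md (e / 1) / e ^ 2 + 1 * N + 0) * ‖y‖ * ‖z‖ := by field_simp; ring
      _ ≤ _ := by
        rw [hA]
        gcongr
        · norm_num
        · positivity
  · have hde : ‖d‖ / e ≤ √‖d‖ / √e := by
      rw [← Real.sqrt_div (norm_nonneg d)]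
      exact le_sqrt_of_le_one ((div_le_one e0).2 hd)
    have k3 := kern3 c1 p1 hS e0 e0.le one_pos hN (fun v => (bs_quad e v).ge)
      (fun v => (bs_quad e v).le) (hm x) hy hz hd
    have k1 := kern1 (s := 1) (x := x) (bs_d2_cont c2 y z) hS e0 (fun v => (bs_quad e v).ge)
      (fun ξ => h2 ξ y z) hd
    rw [ed, ed, Ps_d2 c2 p2, Ps_d2 c2 p2, inv_one, one_smul, one_smul]
    refine le_trans (le_of_eq (congrArg _ (by ring))) ((aadd k3 k1).trans ?_)
    calc _ = A * ‖y‖ * ‖z‖ * (‖d‖ / e) := by rw [hA]; field_simp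
      _ ≤ A * ‖y‖ * ‖z‖ * (√‖d‖ / √e) := by gcongr
      _ = (0 + A / √e) * ‖y‖ * ‖z‖ * √‖d‖ := by ring
      _ ≤ _ := by gcongr

theorem solv_base {lam C : ℝ} (hl : 0 < lam) (h : AP (fun _ : E n => 1) (-lam) C) :
    Solv (fun _ : E n => 1) (-lam) := by
  intro g N hg he
  have H := fun k : ℕ => bs_moll (e := 1 / ((k : ℝ) + 1)) hl hg he (by positivity)
    (by rw [div_le_one (by positivity)]; linarith [(Nat.cast_nonneg k : (0 : ℝ) ≤ k)])
  choose w M b hX hL using fun k => (H k).2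
  have hX' : ∀ k, Xn (w k) (C * N) := fun k =>
    ⟨(hX k).1, (hX k).2.1, (hX k).2.2.1, h _ _ _ (hX k) (by
      rw [funext (hL k)]; exact (H k).1.add_const _)⟩
  obtain ⟨u, hu, hlim⟩ := compactness hX'
  have t1 : ∀ x, Tendsto (fun k => Lop (fun _ => 1) (-lam) (w k) x) UF
      (𝓝 (Lop (fun _ => 1) (-lam) u x)) := fun x =>
    ((tendsto_finsetSum _ fun i _ => tendsto_finsetSum _ fun j _ =>
      ((hlim x).2.2 i j).const_mul _).sub (tendsto_finsetSum _ fun i _ =>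
        ((hlim x).2.1 i).const_mul _)).add ((hlim x).1.const_mul _)
  have t2 : ∀ x, Tendsto (fun k : ℕ => Ps g ((1 / ((k : ℝ) + 1)) ^ 2 • (1 : Mat n)) 1 x) UF
      (𝓝 (g x)) := fun x => by
    have c : Continuous fun e : ℝ => Ps g (e ^ 2 • (1 : Mat n)) 1 x :=
      continuous_Ps hg.continuous hg.pg (fun e => bs_psd (by positivity)) (by fun_prop)
        (fun _ => le_rfl) continuous_const continuous_const
    have := (c.tendsto 0).comp (tendsto_one_div_add_atTop_nhds_zero_nat.mono_left UF_le)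
    rw [zero_pow two_ne_zero, bs_zero] at this
    exact this
  have t3 : Tendsto b UF (𝓝 (Lop (fun _ => 1) (-lam) u 0 - g 0)) :=
    ((t1 0).sub (t2 0)).congr fun k => by rw [hL k]; ring
  exact ⟨u, _, _, hu, fun x =>
    tendsto_nhds_unique ((t1 x).congr fun k => hL k x) ((t2 x).add t3)⟩

end Vale.Agent.P227
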