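import Mathlib

/-! Basic notions for the analytic part of the proof. -/

namespace Vale.Agent.P227

open Matrix

abbrev E (n : ℕ) : Type := EuclideanSpace ℝ (Fin n)
abbrev Mat (n : ℕ) : Type := Matrix (Fin n) (Fin n) ℝ

variable {n : ℕ}

/-- coordinate derivative -/
noncomputable def pd (i : Fin n) (f : E n → ℝ) : E n → ℝ :=
  fun x => fderiv ℝ f x (EuclideanSpace.single i 1)

/-- Hessian matrix -/
noncomputable def hs (w : E n → ℝ) (x : E n) : Mat n := Matrix.of fun i j => pd i (pd j w) x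

/-- Euler operator `x · ∇ w` -/
noncomputable def eu (w : E n → ℝ) (x : E n) : ℝ := ∑ i, x i * pd i w x

/-- twice differentiable -/
def C2 (w : E n → ℝ) : Prop := Differentiable ℝ w ∧ ∀ i, Differentiable ℝ (pd i w)

/-- bounded and Hölder of exponent one half, with constant `N` -/
def Hn (f : E n → ℝ) (N : ℝ) : Prop :=
  (∀ x, |f x| ≤ N) ∧ ∀ x y, |f x - f y| ≤ N * √‖x - y‖

/-- entrywise `Hn` -/
def HM (A : E n → Mat n) (N : ℝ) : Prop := ∀ i j, Hn (fun x => A x i j) N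

noncomputable def md (r : ℝ) : ℝ := √r + r ^ 2

/-- modulus of continuity `N * md` -/
def Mo (f : E n → ℝ) (N : ℝ) : Prop := ∀ x y, |f x - f y| ≤ N * md ‖x - y‖

/-- mixed second difference -/
def d2 (g : E n → ℝ) (x y z : E n) : ℝ := g (x + y + z) - g (x + y) - g (x + z) + g x

/-- polynomial growth -/
def PG (f : E n → ℝ) : Prop := ∃ (C : ℝ) (k : ℕ), ∀ x, |f x| ≤ C * (1 + ‖x‖) ^ k

/-- admissible right-hand sides -/
def Yn (g : E n → ℝ) (N : ℝ) : Prop :=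
  0 ≤ N ∧ ∃ g1 g2 : E n → ℝ, g = g1 + g2 ∧ Mo g1 N ∧ Continuous g2 ∧ PG g2 ∧
    ∀ x y z, |d2 g2 x y z| ≤ N * ‖y‖ * ‖z‖

/-- symmetric and uniformly elliptic -/
def Ell (A : E n → Mat n) (c : ℝ) : Prop :=
  ∀ x, (A x).IsSymm ∧ ∀ v : Fin n → ℝ, c * (v ⬝ᵥ v) ≤ v ⬝ᵥ A x *ᵥ v

/-- the linear operator `A : D² w - x · ∇ w + κ w` -/
noncomputable def Lop (A : E n → Mat n) (κ : ℝ) (w : E n → ℝ) (x : E n) : ℝ :=
  ∑ i, ∑ j, A x i j * hs w x i j - eu w x + κ * w x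

/-- even -/
def Ev (f : E n → ℝ) : Prop := ∀ x, f (-x) = f x

/-- normalized even functions with Hölder Hessian -/
def Xn (w : E n → ℝ) (M : ℝ) : Prop := C2 w ∧ Ev w ∧ w 0 = 0 ∧ HM (hs w) M

/-- `k` bounded Hölder derivatives -/
def Hk : ℕ → (E n → ℝ) → Prop
  | 0, f => ∃ N, Hn f N
  | k + 1, f => (∃ N, Hn f N) ∧ Differentiable ℝ f ∧ ∀ i, Hk k (pd i f)

/-- the derivatives of order `1, …, k` have modulus `md` -/
def Mk : ℕ → (E n → ℝ) → Prop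
  | 0, _ => True
  | k + 1, f => Differentiable ℝ f ∧ ∀ i, (∃ N, Mo (pd i f) N) ∧ Mk k (pd i f)

/-- `k` derivatives of polynomial growth -/
def Sm : ℕ → (E n → ℝ) → Prop
  | 0, f => Continuous f ∧ PG f
  | k + 1, f => (Continuous f ∧ PG f) ∧ Differentiable ℝ f ∧ ∀ i, Sm k (pd i f)

/-- smooth even convex potentials, quadratic outside a ball -/
def Good (V : E n → ℝ) : Prop :=
  ContDiff ℝ ((⊤ : ℕ∞) : WithTop ℕ∞) V ∧ Ev V ∧ (∀ x (v : Fin n → ℝ), 0 ≤ v ⬝ᵥ hs V x *ᵥ v) ∧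
    ∃ (R : ℝ) (Q : Mat n), ∀ x, R ≤ ‖x‖ → hs V x = Q

/-- `ψ` is a moment potential of `exp (-U)` -/
def Sol (U ψ : E n → ℝ) : Prop :=
  (∃ M, Xn ψ M) ∧ (∃ c, 0 < c ∧ Ell (hs ψ) c) ∧
    ∃ b : ℝ, ∀ x, Real.log (hs ψ x).det = eu ψ x - ψ x - U x + b

end Vale.Agent.P227
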