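import Vale.Agent.P227.Basic

/-! Elementary calculus for `pd`, `hs`, Hölder classes. -/

namespace Vale.Agent.P227

open Matrix Filter Topology

variable {n : ℕ} {f g w u : E n → ℝ} {x y z d : E n} {i j : Fin n} {a b M N r : ℝ}

/-- coordinate vector -/
noncomputable abbrev ee (i : Fin n) : E n := EuclideanSpace.single i 1

theorem eq_sum_ee (v : E n) : v = ∑ i, v i • ee i := by
  ext k
  simp [ee, Finset.sum_apply, Pi.single_apply]

theorem norm_ee (i : Fin n) : ‖ee i‖ = 1 := by simp [ee]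

theorem fderiv_eq_sum (f : E n → ℝ) (x v : E n) : fderiv ℝ f x v = ∑ i, v i * pd i f x := by
  conv_lhs => rw [eq_sum_ee v]
  simp only [map_sum, map_smul, smul_eq_mul, pd]

theorem abs_coord_le (x : E n) (i : Fin n) : |x i| ≤ ‖x‖ := by
  simpa using PiLp.norm_apply_le x i

theorem pd_add (hf : Differentiable ℝ f) (hg : Differentiable ℝ g) :
    pd i (fun x => f x + g x) = fun x => pd i f x + pd i g x := by
  funext x; unfold pd; rw [fderiv_fun_add (hf x) (hg x)]; rfl
theorem pd_sub (hf : Differentiable ℝ f) (hg : Differentiable ℝ g) :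
    pd i (fun x => f x - g x) = fun x => pd i f x - pd i g x := by
  funext x; unfold pd; rw [fderiv_fun_sub (hf x) (hg x)]; rfl
theorem pd_mul (hf : Differentiable ℝ f) (hg : Differentiable ℝ g) :
    pd i (fun x => f x * g x) = fun x => pd i f x * g x + f x * pd i g x := by
  funext x; unfold pd; rw [fderiv_fun_mul (hf x) (hg x)]
  simp only [_root_.add_apply, _root_.smul_apply, smul_eq_mul]; ring
theorem pd_const_mul (a : ℝ) : pd i (fun x => a * f x) = fun x => a * pd i f x := by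
  funext x; unfold pd
  have h := fderiv_const_smul_field (𝕜 := ℝ) (f := f) a
  have e : (fun x => a * f x) = a • f := rfl
  rw [e, h]; rfl
theorem pd_const (a : ℝ) : pd i (fun _ : E n => a) = fun _ => 0 := by
  funext x; unfold pd; simp
theorem pd_sum {ι : Type} (s : Finset ι) {F : ι → E n → ℝ} (hF : ∀ k ∈ s, Differentiable ℝ (F k)) :
    pd i (fun x => ∑ k ∈ s, F k x) = fun x => ∑ k ∈ s, pd i (F k) x := by
  funext x; unfold pd
  rw [fderiv_fun_sum fun k hk => hF k hk x]; simp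
theorem differentiable_coord (j : Fin n) : Differentiable ℝ fun x : E n => x j :=
  (EuclideanSpace.proj j : E n →L[ℝ] ℝ).differentiable
theorem pd_coord : pd i (fun x : E n => x j) = fun _ => if i = j then 1 else 0 := by
  funext x; unfold pd
  have h : fderiv ℝ (fun x : E n => x j) x = (EuclideanSpace.proj j : E n →L[ℝ] ℝ) :=
    (EuclideanSpace.proj j : E n →L[ℝ] ℝ).fderiv
  rw [h]; simp [eq_comm]
theorem pd_shift (d : E n) : pd i (fun x => f (x + d)) = fun x => pd i f (x + d) := by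
  funext x; unfold pd; rw [fderiv_comp_add_right]
theorem differentiable_shift (hf : Differentiable ℝ f) (d : E n) :
    Differentiable ℝ fun x => f (x + d) :=
  fun _ => (differentiableAt_comp_add_right d).2 (hf _)
theorem pd_comp {φ φ' : ℝ → ℝ} (hf : Differentiable ℝ f) (hφ : ∀ x, HasDerivAt φ (φ' (f x)) (f x)) :
    pd i (fun x => φ (f x)) = fun x => φ' (f x) * pd i f x := by
  funext x; unfold pd
  have h := (hφ x).comp_hasFDerivAt x (hf x).hasFDerivAt
  have e : (fun x => φ (f x)) = φ ∘ f := rfl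
  rw [e, h.fderiv]; rfl
theorem hasDerivAt_line (hf : Differentiable ℝ f) (x v : E n) (t : ℝ) :
    HasDerivAt (fun s : ℝ => f (x + s • v)) (∑ i, v i * pd i f (x + t • v)) t := by
  have h1 : HasDerivAt (fun s : ℝ => x + s • v) v t := by
    simpa using ((hasDerivAt_id t).smul_const v).const_add x
  have h2 := (hf (x + t • v)).hasFDerivAt.comp_hasDerivAt t h1
  rw [fderiv_eq_sum] at h2
  exact h2

theorem fderiv_eq_sum' (f : E n → ℝ) :
    fderiv ℝ f = fun x => ∑ i, pd i f x • (EuclideanSpace.proj i : E n →L[ℝ] ℝ) := by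
  funext x; ext v
  rw [fderiv_eq_sum]
  simp [mul_comm]

theorem C2.diff_fderiv (hw : C2 w) : Differentiable ℝ (fderiv ℝ w) := by
  rw [fderiv_eq_sum']
  exact Differentiable.fun_sum fun i _ => (hw.2 i).smul_const _

theorem pd_comm (hw : C2 w) (i j : Fin n) : pd i (pd j w) = pd j (pd i w) := by
  funext x
  have h := second_derivative_symmetric (fun y => (hw.1 y).hasFDerivAt)
    (hw.diff_fderiv x).hasFDerivAt (ee i) (ee j)
  have e : ∀ k l : Fin n, pd k (pd l w) x = fderiv ℝ (fderiv ℝ w) x (ee k) (ee l) := by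
    intro k l
    have h1 := (hw.diff_fderiv x).hasFDerivAt.clm_apply (hasFDerivAt_const (ee l) x)
    unfold pd
    rw [h1.fderiv]; simp
  rw [e, e, h]

theorem hs_apply (w : E n → ℝ) (x : E n) (i j : Fin n) : hs w x i j = pd i (pd j w) x := rfl

theorem C2.hs_symm (hw : C2 w) (x : E n) : (hs w x).IsSymm := by
  ext i j; rw [transpose_apply, hs_apply, hs_apply, pd_comm hw]
theorem C2.add (hw : C2 w) (hu : C2 u) : C2 fun x => w x + u x :=
  ⟨hw.1.add hu.1, fun i => by rw [pd_add hw.1 hu.1]; exact (hw.2 i).add (hu.2 i)⟩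
theorem C2.sub (hw : C2 w) (hu : C2 u) : C2 fun x => w x - u x :=
  ⟨hw.1.sub hu.1, fun i => by rw [pd_sub hw.1 hu.1]; exact (hw.2 i).sub (hu.2 i)⟩
theorem C2.const_mul (hw : C2 w) (a : ℝ) : C2 fun x => a * w x :=
  ⟨hw.1.const_mul a, fun i => by rw [pd_const_mul]; exact (hw.2 i).const_mul a⟩
theorem C2.shift (hw : C2 w) (d : E n) : C2 fun x => w (x + d) :=
  ⟨differentiable_shift hw.1 d, fun i => by rw [pd_shift]; exact differentiable_shift (hw.2 i) d⟩
theorem C2.const (a : ℝ) : C2 fun _ : E n => a :=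
  ⟨differentiable_const a, fun i => by rw [pd_const]; exact differentiable_const _⟩
theorem hs_add (hw : C2 w) (hu : C2 u) : hs (fun x => w x + u x) = fun x => hs w x + hs u x := by
  funext x; ext i j
  rw [hs_apply, pd_add hw.1 hu.1, pd_add (hw.2 j) (hu.2 j)]; rfl
theorem hs_sub (hw : C2 w) (hu : C2 u) : hs (fun x => w x - u x) = fun x => hs w x - hs u x := by
  funext x; ext i j
  rw [hs_apply, pd_sub hw.1 hu.1, pd_sub (hw.2 j) (hu.2 j)]; rfl
theorem hs_const_mul (a : ℝ) : hs (fun x => a * w x) = fun x => a • hs w x := by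
  funext x; ext i j
  rw [hs_apply, pd_const_mul, pd_const_mul]; rfl
theorem hs_shift (d : E n) : hs (fun x => w (x + d)) = fun x => hs w (x + d) := by
  funext x; ext i j
  rw [hs_apply, pd_shift, pd_shift]; rfl
theorem hs_const (a : ℝ) : hs (fun _ : E n => a) = fun _ => 0 := by
  funext x; ext i j
  rw [hs_apply, pd_const, pd_const]; rfl
theorem Lop_add (A : E n → Mat n) (κ : ℝ) (hw : C2 w) (hu : C2 u) (x : E n) :
    Lop A κ (fun x => w x + u x) x = Lop A κ w x + Lop A κ u x := by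
  unfold Lop eu
  simp only [hs_add hw hu, pd_add hw.1 hu.1, Matrix.add_apply, mul_add, Finset.sum_add_distrib]
  ring
theorem Lop_sub (A : E n → Mat n) (κ : ℝ) (hw : C2 w) (hu : C2 u) (x : E n) :
    Lop A κ (fun x => w x - u x) x = Lop A κ w x - Lop A κ u x := by
  unfold Lop eu
  simp only [hs_sub hw hu, pd_sub hw.1 hu.1, Matrix.sub_apply, mul_sub, Finset.sum_sub_distrib]
  ring
theorem Lop_const_mul (A : E n → Mat n) (κ a : ℝ) (w : E n → ℝ) (x : E n) :
    Lop A κ (fun x => a * w x) x = a * Lop A κ w x := by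
  unfold Lop eu
  simp only [hs_const_mul, pd_const_mul, Matrix.smul_apply, smul_eq_mul, mul_add, mul_sub,
    Finset.mul_sum, mul_left_comm a]
theorem Lop_const (A : E n → Mat n) (κ a : ℝ) (x : E n) :
    Lop A κ (fun _ => a) x = κ * a := by
  unfold Lop eu
  simp [hs_const, pd_const]

theorem norm_sq_eq_sum (x : E n) : ‖x‖ ^ 2 = ∑ k, x k * x k := by
  rw [EuclideanSpace.norm_sq_eq]
  exact Finset.sum_congr rfl fun k _ => by rw [Real.norm_eq_abs, sq_abs, sq]

theorem half_sq_eq : (fun x : E n => ‖x‖ ^ 2 / 2) = fun x => 1 / 2 * ∑ k, x k * x k := by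
  funext x; rw [norm_sq_eq_sum]; ring

theorem pd_sq : pd i (fun x : E n => ‖x‖ ^ 2 / 2) = fun x => x i := by
  rw [half_sq_eq, pd_const_mul,
    pd_sum (F := fun k (x : E n) => x k * x k) _
      fun k _ => (differentiable_coord k).mul (differentiable_coord k)]
  funext x
  simp only [pd_mul (differentiable_coord _) (differentiable_coord _), pd_coord]
  simp [Finset.sum_add_distrib]
  ring
/-- half the squared norm -/
theorem C2_sq : C2 fun x : E n => ‖x‖ ^ 2 / 2 := by
  refine ⟨?_, fun i => by rw [pd_sq]; exact differentiable_coord i⟩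
  rw [half_sq_eq]
  exact (Differentiable.fun_sum fun k _ =>
    (differentiable_coord k).mul (differentiable_coord k)).const_mul _
theorem hs_sq : hs (fun x : E n => ‖x‖ ^ 2 / 2) = fun _ => 1 := by
  funext x; ext i j
  rw [hs_apply, pd_sq, pd_coord, Matrix.one_apply]

theorem pd_comp_neg (f : E n → ℝ) (i : Fin n) (x : E n) :
    pd i (fun y => f (-y)) x = -pd i f (-x) := by
  unfold pd
  have h := (ContinuousLinearEquiv.neg ℝ (M := E n)).comp_right_fderiv (f := f) (x := x)
  have e : (fun y => f (-y)) = f ∘ (ContinuousLinearEquiv.neg ℝ (M := E n)) := rfl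
  rw [e, h]; simp

theorem Ev.pd_odd (h : Ev w) (i : Fin n) (x : E n) : pd i w (-x) = -pd i w x := by
  have h1 := pd_comp_neg w i x
  have e : (fun y => w (-y)) = w := funext h
  rw [e] at h1; linarith
theorem Ev.pd_zero (h : Ev w) (i : Fin n) : pd i w 0 = 0 := by
  have := h.pd_odd i 0
  rw [neg_zero] at this; linarith
theorem Ev.hs_even (h : Ev w) (x : E n) : hs w (-x) = hs w x := by
  ext i j
  rw [hs_apply, hs_apply]
  have h1 := pd_comp_neg (pd j w) i x
  have e : (fun y => pd j w (-y)) = fun y => (-1) * pd j w y := by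
    funext y; rw [h.pd_odd]; ring
  rw [e, pd_const_mul] at h1
  linarith
theorem Ev.eu_even (h : Ev w) : Ev (eu w) := by
  intro x; unfold eu
  refine Finset.sum_congr rfl fun i _ => ?_
  rw [h.pd_odd]; simp

theorem mvt01 {φ φ' : ℝ → ℝ} {C : ℝ} (h : ∀ t, HasDerivAt φ (φ' t) t)
    (hb : ∀ t, 0 ≤ t → t ≤ 1 → |φ' t| ≤ C) : |φ 1 - φ 0| ≤ C :=
  norm_image_sub_le_of_norm_deriv_le_segment_01' (fun t _ => (h t).hasDerivWithinAt)
    fun t ht => hb t ht.1 ht.2.le

theorem abs_sum_coord_le (y : E n) {c : Fin n → ℝ} (h : ∀ i, |c i| ≤ b) :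
    |∑ i, y i * c i| ≤ n * b * ‖y‖ := by
  refine (Finset.abs_sum_le_sum_abs _ _).trans ?_
  have h1 : ∀ i ∈ Finset.univ, |y i * c i| ≤ b * ‖y‖ := by
    intro i _
    rw [abs_mul, mul_comm]
    exact mul_le_mul (h i) (abs_coord_le y i) (abs_nonneg _) ((abs_nonneg _).trans (h i))
  refine (Finset.sum_le_card_nsmul _ _ _ h1).trans ?_
  simp [mul_assoc]

theorem norm_smul_le01 (y : E n) {t : ℝ} (h0 : 0 ≤ t) (h1 : t ≤ 1) : ‖t • y‖ ≤ ‖y‖ := by
  rw [norm_smul, Real.norm_eq_abs, abs_of_nonneg h0]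
  exact mul_le_of_le_one_left (norm_nonneg _) h1

/-- first order expansion along a segment -/
theorem taylor_seg (hf : Differentiable ℝ f) {c : Fin n → ℝ}
    (h : ∀ i (t : ℝ), 0 ≤ t → t ≤ 1 → |pd i f (x + t • y) - c i| ≤ b) :
    |f (x + y) - f x - ∑ i, y i * c i| ≤ n * b * ‖y‖ := by
  have h1 := mvt01 (φ := fun s => f (x + s • y) - s * ∑ i, y i * c i)
    (φ' := fun t => ∑ i, y i * (pd i f (x + t • y) - c i)) (C := n * b * ‖y‖) (fun t => by
      have := (hasDerivAt_line hf x y t).sub ((hasDerivAt_id t).mul_const (∑ i, y i * c i))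
      simp only [mul_sub, Finset.sum_sub_distrib]
      rw [one_mul] at this
      exact this) fun t h0 h1 => abs_sum_coord_le y fun i => h i t h0 h1
  simp only [one_smul, one_mul, zero_smul, add_zero, zero_mul, sub_zero] at h1
  rwa [sub_right_comm]

theorem mvt (hf : Differentiable ℝ f) (h : ∀ i ξ, ‖ξ‖ ≤ ‖y‖ → |pd i f (x + ξ)| ≤ b) :
    |f (x + y) - f x| ≤ n * b * ‖y‖ := by
  have := taylor_seg (x := x) (y := y) (b := b) hf (c := fun _ => 0) fun i t h0 h1 => by
    rw [sub_zero]; exact h i _ (norm_smul_le01 y h0 h1)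
  simpa using this

theorem nonneg_of_holder (i : Fin n) (h : ∀ x y, |f x - f y| ≤ N * √‖x - y‖) : 0 ≤ N := by
  have := h (ee i) 0
  rw [sub_zero, norm_ee, Real.sqrt_one, mul_one] at this
  exact (abs_nonneg _).trans this

theorem taylor1 (hf : Differentiable ℝ f)
    (h : ∀ i x y, |pd i f x - pd i f y| ≤ N * √‖x - y‖) (x y : E n) :
    |f (x + y) - f x - ∑ i, y i * pd i f x| ≤ n * N * ‖y‖ * √‖y‖ := by
  have := taylor_seg (x := x) (y := y) (b := N * √‖y‖) hf (c := fun i => pd i f x)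
    fun i t h0 h1 => by
      refine (h i _ _).trans ?_
      rw [add_sub_cancel_left]
      exact mul_le_mul_of_nonneg_left (Real.sqrt_le_sqrt (norm_smul_le01 y h0 h1))
        (nonneg_of_holder i (h i))
  refine this.trans (le_of_eq ?_); ring

theorem Hn.nonneg (h : Hn f N) : 0 ≤ N := (abs_nonneg _).trans (h.1 0)

theorem taylor2 (hw : C2 w) (h : HM (hs w) M) (x y : E n) :
    |w (x + y) - w x - ∑ i, y i * pd i w x - (∑ i, ∑ j, y i * y j * hs w x i j) / 2|
      ≤ n ^ 2 * M * ‖y‖ ^ 2 * √‖y‖ := by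
  set Q := ∑ i, ∑ j, y i * y j * hs w x i j with hQ
  have hQ' : Q = ∑ i, y i * ∑ j, y j * pd j (pd i w) x := by
    rw [hQ, Finset.sum_comm]
    refine Finset.sum_congr rfl fun i _ => ?_
    rw [Finset.mul_sum]
    refine Finset.sum_congr rfl fun j _ => ?_
    rw [hs_apply]; ring
  have h1 := mvt01 (φ := fun s => w (x + s • y) - s * ∑ i, y i * pd i w x - s ^ 2 * Q / 2)
    (φ' := fun t => ∑ i, y i * (pd i w (x + t • y) - pd i w x -
      ∑ j, (t • y) j * pd j (pd i w) x)) (C := n * (n * M * ‖y‖ * √‖y‖) * ‖y‖) (fun t => by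
      have := ((hasDerivAt_line hw.1 x y t).sub
        ((hasDerivAt_id t).mul_const (∑ i, y i * pd i w x))).sub
        (((hasDerivAt_pow 2 t).mul_const Q).div_const 2)
      have e : ∑ i, y i * (pd i w (x + t • y) - pd i w x - ∑ j, (t • y) j * pd j (pd i w) x) =
          ∑ i, y i * pd i w (x + t • y) - 1 * ∑ i, y i * pd i w x -
            ((2 : ℕ) : ℝ) * t ^ (2 - 1) * Q / 2 := by
        have e2 : ∑ i, y i * ∑ j, (t • y) j * pd j (pd i w) x = t * Q := by
          rw [hQ', Finset.mul_sum]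
          refine Finset.sum_congr rfl fun i _ => ?_
          simp only [PiLp.smul_apply, smul_eq_mul, mul_assoc, ← Finset.mul_sum]
          ring
        simp only [mul_sub, Finset.sum_sub_distrib, e2]
        norm_num
        ring
      rw [e]; exact this) fun t h0 h1 => abs_sum_coord_le y fun i => by
        refine (taylor1 (N := M) (hw.2 i) (fun j a b => (h j i).2 a b) x (t • y)).trans ?_
        have hM : 0 ≤ M := (h i i).nonneg
        have h2 := norm_smul_le01 y h0 h1
        gcongr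
  simp only [one_smul, one_mul, zero_smul, add_zero, zero_mul, sub_zero, one_pow] at h1
  have e : w (x + y) - w x - ∑ i, y i * pd i w x - Q / 2 =
      w (x + y) - ∑ i, y i * pd i w x - Q / 2 - (w x - 0 ^ 2 * Q / 2) := by ring
  rw [e]
  refine h1.trans (le_of_eq ?_); ring

/-- second difference against a fixed matrix -/
theorem d2_seg (hw : C2 w) {H : Mat n}
    (h : ∀ i j (s t : ℝ), 0 ≤ s → s ≤ 1 → 0 ≤ t → t ≤ 1 →
      |hs w (x + s • y + t • z) i j - H i j| ≤ b) :
    |d2 w x y z - ∑ i, y i * ∑ j, z j * H j i| ≤ n ^ 2 * b * ‖y‖ * ‖z‖ := by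
  have h1 := taylor_seg (f := fun p => w (p + z) - w p) (x := x) (y := y) (b := n * b * ‖z‖)
    ((differentiable_shift hw.1 z).sub hw.1) (c := fun i => ∑ j, z j * H j i) fun i s h0 h1 => by
      rw [pd_sub (differentiable_shift hw.1 z) hw.1, pd_shift]
      exact taylor_seg (hw.2 i) fun j t h2 h3 => h j i s t h0 h1 h2 h3
  have e : d2 w x y z = w (x + y + z) - w (x + y) - (w (x + z) - w x) := by unfold d2; ring
  rw [e]
  refine h1.trans (le_of_eq ?_); ring

theorem d2_le (hw : C2 w) (h : ∀ x i j, |hs w x i j| ≤ M) (x y z : E n) :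
    |d2 w x y z| ≤ n ^ 2 * M * ‖y‖ * ‖z‖ := by
  have := d2_seg (x := x) (y := y) (z := z) (b := M) hw (H := 0) fun i j s t _ _ _ _ => by
    simpa using h _ i j
  simpa using this

theorem d3_le (hw : C2 w) (h : HM (hs w) M) (x y z d : E n) :
    |d2 w (x + d) y z - d2 w x y z| ≤ n ^ 2 * M * ‖y‖ * ‖z‖ * √‖d‖ := by
  have h1 := d2_le (M := M * √‖d‖) ((hw.shift d).sub hw) (fun p i j => by
    rw [hs_sub (hw.shift d) hw, hs_shift]
    have := (h i j).2 (p + d) p
    rwa [add_sub_cancel_left] at this) x y z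
  have e : d2 (fun x => w (x + d) - w x) x y z = d2 w (x + d) y z - d2 w x y z := by
    simp only [d2]
    rw [show x + y + z + d = x + d + y + z by abel, show x + y + d = x + d + y by abel,
      show x + z + d = x + d + z by abel]
    ring
  rw [e] at h1
  refine h1.trans (le_of_eq ?_); ring

theorem d2_taylor (hw : C2 w) (h : HM (hs w) M) (x : E n) (i j : Fin n) {t : ℝ} (ht : 0 ≤ t) :
    |d2 w x (t • ee i) (t • ee j) - t ^ 2 * hs w x i j| ≤ 2 * n ^ 2 * M * t ^ 2 * √t := by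
  have hn : ∀ k : Fin n, ‖t • ee k‖ = t := fun k => by
    rw [norm_smul, norm_ee, mul_one, Real.norm_eq_abs, abs_of_nonneg ht]
  have hM : 0 ≤ M := (h i j).nonneg
  have h1 := d2_seg (x := x) (y := t • ee i) (z := t • ee j) (b := M * (2 * √t)) hw
    (H := hs w x) fun k l s s' h0 h1 h2 h3 => by
      refine ((h k l).2 _ _).trans (mul_le_mul_of_nonneg_left ?_ hM)
      rw [add_assoc, add_sub_cancel_left]
      have h4 := norm_add_le (s • t • ee i) (s' • t • ee j)
      have h5 := norm_smul_le01 (t • ee i) h0 h1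
      have h6 := norm_smul_le01 (t • ee j) h2 h3
      rw [hn] at h5 h6
      rw [Real.sqrt_le_iff]
      refine ⟨by positivity, ?_⟩
      rw [mul_pow, Real.sq_sqrt ht]
      linarith
  have e : ∑ k, (t • ee i) k * ∑ l, (t • ee j) l * hs w x l k = t ^ 2 * hs w x i j := by
    simp [ee]
    rw [hs_apply, hs_apply, pd_comm hw]; ring
  rw [e, hn, hn] at h1
  refine h1.trans (le_of_eq ?_); ring

theorem pd_lip (hw : C2 w) (h : ∀ x i j, |hs w x i j| ≤ M) (i : Fin n) (x y : E n) :
    |pd i w x - pd i w y| ≤ n * M * ‖x - y‖ := by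
  have := mvt (x := y) (y := x - y) (b := M) (hw.2 i) fun j ξ _ => h _ j i
  rwa [add_sub_cancel] at this

theorem C2.growth (hw : C2 w) (h : ∀ x i j, |hs w x i j| ≤ M) :
    ∃ C, 0 ≤ C ∧ ∀ x, |w x| ≤ C * (1 + ‖x‖) ^ 2 ∧ ∀ i, |pd i w x| ≤ C * (1 + ‖x‖) := by
  set B := ∑ i, |pd i w 0| + n * |M| with hB
  have hB0 : 0 ≤ B := by positivity
  have h1 : ∀ x i, |pd i w x| ≤ B * (1 + ‖x‖) := by
    intro x i
    have h2 := pd_lip hw (fun x i j => (h x i j).trans (le_abs_self M)) i x 0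
    rw [sub_zero] at h2
    have h3 : |pd i w 0| ≤ ∑ i, |pd i w 0| :=
      Finset.single_le_sum (f := fun i => |pd i w 0|) (fun _ _ => abs_nonneg _) (Finset.mem_univ i)
    have h4 : |pd i w x| ≤ |pd i w x - pd i w 0| + |pd i w 0| := by
      simpa using abs_add_le (pd i w x - pd i w 0) (pd i w 0)
    have h5 : 0 ≤ ∑ i, |pd i w 0| := by positivity
    have h6 : 0 ≤ (n : ℝ) * |M| := by positivity
    have h7 := norm_nonneg x
    rw [hB]; nlinarith
  refine ⟨|w 0| + n * B + B, by positivity, fun x => ⟨?_, fun i => ?_⟩⟩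
  · have h2 := mvt (x := 0) (y := x) (b := B * (1 + ‖x‖)) hw.1 fun i ξ hξ => by
      rw [zero_add]
      exact (h1 ξ i).trans (by gcongr)
    rw [zero_add] at h2
    have h4 : |w x| ≤ |w x - w 0| + |w 0| := by simpa using abs_add_le (w x - w 0) (w 0)
    have h7 := norm_nonneg x
    have h8 : 0 ≤ (n : ℝ) * B := by positivity
    have h9 := abs_nonneg (w 0)
    have h10 : (n : ℝ) * (B * (1 + ‖x‖)) * ‖x‖ ≤ n * B * (1 + ‖x‖) ^ 2 := by nlinarith
    have h11 : |w 0| ≤ |w 0| * (1 + ‖x‖) ^ 2 := le_mul_of_one_le_right h9 (by nlinarith)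
    have h12 : 0 ≤ B * (1 + ‖x‖) ^ 2 := by positivity
    nlinarith
  · refine (h1 x i).trans (mul_le_mul_of_nonneg_right ?_ (by positivity))
    have h8 : 0 ≤ (n : ℝ) * B := by positivity
    have h9 := abs_nonneg (w 0)
    linarith

theorem Xn.growth (h : Xn w M) (x : E n) :
    |w x| ≤ n ^ 2 * M * ‖x‖ ^ 2 ∧ ∀ i, |pd i w x| ≤ n * M * ‖x‖ := by
  obtain ⟨hw, he, h0, hM⟩ := h
  have h1 : ∀ x i, |pd i w x| ≤ n * M * ‖x‖ := fun x i => by
    have := pd_lip hw (fun x i j => (hM i j).1 x) i x 0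
    rwa [he.pd_zero, sub_zero, sub_zero] at this
  refine ⟨?_, h1 x⟩
  have h2 := mvt (x := 0) (y := x) (b := n * M * ‖x‖) hw.1 fun i ξ hξ => by
    rw [zero_add]
    have := (hM i i).nonneg
    exact (h1 ξ i).trans (by gcongr)
  rw [zero_add, h0, sub_zero] at h2
  refine h2.trans (le_of_eq ?_); ring

theorem hasDerivAt_ee (hf : Differentiable ℝ f) (x : E n) (i : Fin n) (t : ℝ) :
    HasDerivAt (fun s : ℝ => f (x + s • ee i)) (pd i f (x + t • ee i)) t := by
  have := hasDerivAt_line hf x (ee i) t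
  simpa [ee, Pi.single_apply] using this

theorem pd_bound (hf : Differentiable ℝ f) (hr : 0 < r)
    (h : ∀ t : ℝ, 0 < t → t ≤ r → |f (x + t • ee i) - f x| ≤ b * t) : |pd i f x| ≤ b := by
  have h1 := (hasDerivAt_ee hf x i 0).tendsto_slope_zero_right.abs
  simp only [zero_smul, add_zero, zero_add, smul_eq_mul] at h1
  refine le_of_tendsto h1 ?_
  filter_upwards [Ioc_mem_nhdsGT hr] with t ht
  rw [abs_mul, abs_inv, abs_of_pos ht.1, inv_mul_le_iff₀ ht.1, mul_comm]
  exact h t ht.1 ht.2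

theorem Hn.mono (h : Hn f N) (hN : N ≤ M) : Hn f M :=
  ⟨fun x => (h.1 x).trans hN, fun x y => (h.2 x y).trans (by gcongr)⟩

theorem continuous_of_mod {ω : ℝ → ℝ} (hω : Continuous ω) (h0 : ω 0 = 0)
    (h : ∀ x y, |f x - f y| ≤ ω ‖x - y‖) : Continuous f := by
  rw [continuous_iff_continuousAt]
  intro x
  rw [ContinuousAt, tendsto_iff_norm_sub_tendsto_zero]
  have h1 : Continuous fun y : E n => ω ‖y - x‖ := by fun_prop
  have h2 := h1.tendsto x
  simp only [sub_self, norm_zero, h0] at h2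
  exact squeeze_zero (fun _ => norm_nonneg _) (fun y => h y x) h2

theorem Hn.continuous (h : Hn f N) : Continuous f :=
  continuous_of_mod (ω := fun t => N * √t) (by fun_prop) (by simp) h.2
theorem Hn.add (hf : Hn f a) (hg : Hn g b) : Hn (fun x => f x + g x) (a + b) := by
  refine ⟨fun x => (abs_add_le _ _).trans (add_le_add (hf.1 x) (hg.1 x)), fun x y => ?_⟩
  have h1 := abs_add_le (f x - f y) (g x - g y)
  have e : f x + g x - (f y + g y) = f x - f y + (g x - g y) := by ring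
  show |f x + g x - (f y + g y)| ≤ _
  rw [e, add_mul]
  linarith [hf.2 x y, hg.2 x y]
theorem Hn.const_mul (hf : Hn f a) (t : ℝ) : Hn (fun x => t * f x) (|t| * a) := by
  refine ⟨fun x => ?_, fun x y => ?_⟩
  · show |t * f x| ≤ _
    rw [abs_mul]; exact mul_le_mul_of_nonneg_left (hf.1 x) (abs_nonneg _)
  · show |t * f x - t * f y| ≤ _
    rw [← mul_sub, abs_mul, mul_assoc]; exact mul_le_mul_of_nonneg_left (hf.2 x y) (abs_nonneg _)
theorem Hn.sub (hf : Hn f a) (hg : Hn g b) : Hn (fun x => f x - g x) (a + b) := by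
  have := hf.add (hg.const_mul (-1))
  simpa [sub_eq_add_neg] using this
theorem Hn.mul (hf : Hn f a) (hg : Hn g b) : Hn (fun x => f x * g x) (2 * a * b) := by
  have ha := hf.nonneg
  have hb := hg.nonneg
  refine ⟨fun x => ?_, fun x y => ?_⟩
  · show |f x * g x| ≤ _
    rw [abs_mul]
    have := mul_le_mul (hf.1 x) (hg.1 x) (abs_nonneg _) ha
    nlinarith
  · show |f x * g x - f y * g y| ≤ _
    have e : f x * g x - f y * g y = f x * (g x - g y) + (f x - f y) * g y := by ring
    rw [e]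
    refine (abs_add_le _ _).trans ?_
    rw [abs_mul, abs_mul]
    have h1 := mul_le_mul (hf.1 x) (hg.2 x y) (abs_nonneg _) ha
    have h2 := mul_le_mul (hf.2 x y) (hg.1 y) (abs_nonneg _) (by positivity)
    linarith
theorem Hn.const (a : ℝ) : Hn (fun _ : E n => a) |a| :=
  ⟨fun _ => le_rfl, fun x y => by simp only [sub_self, abs_zero]; positivity⟩
theorem Hn.sum {ι : Type} (s : Finset ι) {F : ι → E n → ℝ} (ha : 0 ≤ a) (h : ∀ k ∈ s, Hn (F k) a) :
    Hn (fun x => ∑ k ∈ s, F k x) (s.card * a) := by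
  have _ := ha
  refine ⟨fun x => (Finset.abs_sum_le_sum_abs _ _).trans ?_, fun x y => ?_⟩
  · simpa using Finset.sum_le_card_nsmul _ _ _ fun k hk => (h k hk).1 x
  · show |∑ k ∈ s, F k x - ∑ k ∈ s, F k y| ≤ _
    rw [← Finset.sum_sub_distrib]
    refine (Finset.abs_sum_le_sum_abs _ _).trans ?_
    simpa [mul_assoc] using Finset.sum_le_card_nsmul _ _ _ fun k hk => (h k hk).2 x y
theorem Hn.shift (hf : Hn f a) (d : E n) : Hn (fun x => f (x + d)) a :=
  ⟨fun x => hf.1 _, fun x y => by simpa using hf.2 (x + d) (y + d)⟩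
theorem le_sqrt_of_le_one {t : ℝ} (h1 : t ≤ 1) : t ≤ √t := by
  rcases le_total t 0 with h | h
  · exact h.trans (Real.sqrt_nonneg _)
  · exact Real.le_sqrt_of_sq_le (by nlinarith)
theorem Hn.of_lip (hb : ∀ x, |f x| ≤ a) (h : ∀ x y, |f x - f y| ≤ b * ‖x - y‖) (hb0 : 0 ≤ b) :
    Hn f (2 * a + b) := by
  have ha : 0 ≤ a := (abs_nonneg _).trans (hb 0)
  refine ⟨fun x => by linarith [hb x], fun x y => ?_⟩
  have h0 := Real.sqrt_nonneg ‖x - y‖
  rcases le_total ‖x - y‖ 1 with h1 | h1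
  · have h2 := mul_le_mul_of_nonneg_left (le_sqrt_of_le_one h1) hb0
    nlinarith [h x y]
  · have h2 : 1 ≤ √‖x - y‖ := Real.one_le_sqrt.2 h1
    have h3 : |f x - f y| ≤ 2 * a := by linarith [abs_sub (f x) (f y), hb x, hb y]
    nlinarith
theorem HM.mono {A : E n → Mat n} (h : HM A N) (hN : N ≤ M) : HM A M :=
  fun i j => (h i j).mono hN
theorem HM.contract {A T : E n → Mat n} (ha : 0 ≤ a) (hb : 0 ≤ b) (hA : HM A a) (hT : HM T b) :
    Hn (fun x => ∑ i, ∑ j, A x i j * T x i j) (2 * n ^ 2 * a * b) := by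
  have h := Hn.sum (a := n * (2 * a * b)) Finset.univ
    (F := fun i x => ∑ j, A x i j * T x i j) (by positivity) fun i _ => by
      simpa using Hn.sum (a := 2 * a * b) Finset.univ (F := fun j x => A x i j * T x i j)
        (by positivity) fun j _ => (hA i j).mul (hT i j)
  refine h.mono (le_of_eq ?_)
  simp only [Finset.card_univ, Fintype.card_fin]; ring

theorem md_nonneg (r : ℝ) : 0 ≤ md r := by unfold md; positivity
theorem le_md (r : ℝ) : r ≤ md r := by
  unfold md
  rcases le_total r 1 with h | h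
  · nlinarith [le_sqrt_of_le_one h, sq_nonneg r]
  · nlinarith [Real.sqrt_nonneg r]
theorem sqrt_le_md (r : ℝ) : √r ≤ md r := by unfold md; nlinarith [sq_nonneg r]
theorem Hn.mo (h : Hn f N) : Mo f N :=
  fun x y => (h.2 x y).trans (mul_le_mul_of_nonneg_left (sqrt_le_md _) h.nonneg)
theorem Mo.of_lip (h : ∀ x y, |f x - f y| ≤ N * ‖x - y‖) (hN : 0 ≤ N) : Mo f N :=
  fun x y => (h x y).trans (mul_le_mul_of_nonneg_left (le_md _) hN)
theorem Mo.mono (h : Mo f N) (hN : N ≤ M) : Mo f M :=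
  fun x y => (h x y).trans (mul_le_mul_of_nonneg_right hN (md_nonneg _))
theorem Mo.add (hf : Mo f a) (hg : Mo g b) : Mo (fun x => f x + g x) (a + b) := by
  intro x y
  have h1 := abs_add_le (f x - f y) (g x - g y)
  have e : f x + g x - (f y + g y) = f x - f y + (g x - g y) := by ring
  show |f x + g x - (f y + g y)| ≤ _
  rw [e, add_mul]
  linarith [hf x y, hg x y]
theorem Mo.const_mul (hf : Mo f a) (t : ℝ) : Mo (fun x => t * f x) (|t| * a) := by
  intro x y
  show |t * f x - t * f y| ≤ _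
  rw [← mul_sub, abs_mul, mul_assoc]; exact mul_le_mul_of_nonneg_left (hf x y) (abs_nonneg _)
theorem Mo.shift (hf : Mo f a) (d : E n) : Mo (fun x => f (x + d)) a :=
  fun x y => by simpa using hf (x + d) (y + d)
theorem Mo.continuous (h : Mo f N) : Continuous f :=
  continuous_of_mod (ω := fun t => N * md t) (by unfold md; fun_prop) (by simp [md]) h
theorem md_le {t : ℝ} (ht : 0 ≤ t) : md t ≤ 2 * (1 + t) ^ 2 := by
  unfold md
  have h : √t ≤ 1 + t := by
    rw [Real.sqrt_le_iff]; exact ⟨by positivity, by nlinarith⟩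
  nlinarith
theorem Mo.pg (h : Mo f N) : PG f := by
  refine ⟨|f 0| + 2 * |N|, 2, fun x => ?_⟩
  have h1 := h x 0
  rw [sub_zero] at h1
  have h2 : |f x| ≤ |f x - f 0| + |f 0| := by simpa using abs_add_le (f x - f 0) (f 0)
  have h3 := norm_nonneg x
  have h4 : N * md ‖x‖ ≤ |N| * (2 * (1 + ‖x‖) ^ 2) :=
    mul_le_mul (le_abs_self N) (md_le h3) (md_nonneg _) (abs_nonneg _)
  have h5 : |f 0| ≤ |f 0| * (1 + ‖x‖) ^ 2 := le_mul_of_one_le_right (abs_nonneg _) (by nlinarith)
  linarith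
theorem Mo.diffquot (hf : Differentiable ℝ f) (h : ∀ i, Mo (pd i f) N) (hN : 0 ≤ N) (v : E n) :
    Mo (fun x => f (x + v) - f x) (n * N * ‖v‖) := by
  have _ := hN
  intro x y
  have h1 := mvt (f := fun p => f (p + x) - f (p + y)) (x := 0) (y := v) (b := N * md ‖x - y‖)
    ((differentiable_shift hf x).sub (differentiable_shift hf y)) fun i ξ _ => by
      rw [pd_sub (differentiable_shift hf x) (differentiable_shift hf y), pd_shift, pd_shift]
      simpa using h i (0 + ξ + x) (0 + ξ + y)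
  simp only [zero_add, add_comm v] at h1
  have e : f (x + v) - f x - (f (y + v) - f y) = f (x + v) - f (y + v) - (f x - f y) := by ring
  show |f (x + v) - f x - (f (y + v) - f y)| ≤ _
  rw [e]
  refine h1.trans (le_of_eq ?_); ring
theorem pg_nonneg {C : ℝ} {k : ℕ} (h : ∀ x, |f x| ≤ C * (1 + ‖x‖) ^ k) : 0 ≤ C := by
  have := h 0
  simp only [norm_zero, add_zero, one_pow, mul_one] at this
  exact (abs_nonneg _).trans this
theorem PG.add (hf : PG f) (hg : PG g) : PG fun x => f x + g x := by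
  obtain ⟨C, k, h⟩ := hf
  obtain ⟨C', k', h'⟩ := hg
  refine ⟨C + C', k + k', fun x => (abs_add_le _ _).trans ?_⟩
  have h1 : 1 ≤ 1 + ‖x‖ := by linarith [norm_nonneg x]
  have h2 := mul_le_mul_of_nonneg_left (pow_le_pow_right₀ h1 (Nat.le_add_right k k')) (pg_nonneg h)
  have h3 := mul_le_mul_of_nonneg_left (pow_le_pow_right₀ h1 (Nat.le_add_left k' k)) (pg_nonneg h')
  linarith [h x, h' x]
theorem PG.mul (hf : PG f) (hg : PG g) : PG fun x => f x * g x := by
  obtain ⟨C, k, h⟩ := hf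
  obtain ⟨C', k', h'⟩ := hg
  refine ⟨C * C', k + k', fun x => ?_⟩
  show |f x * g x| ≤ _
  rw [abs_mul]
  refine (mul_le_mul (h x) (h' x) (abs_nonneg _) ((abs_nonneg _).trans (h x))).trans (le_of_eq ?_)
  ring
theorem PG.of_bdd (h : ∀ x, |f x| ≤ a) : PG f := ⟨a, 0, fun x => by simpa using h x⟩
theorem PG.const (a : ℝ) : PG fun _ : E n => a := PG.of_bdd (a := |a|) fun _ => le_rfl
theorem PG.coord (i : Fin n) : PG fun x : E n => x i :=
  ⟨1, 1, fun x => by linarith [abs_coord_le x i]⟩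
theorem Mo.yn (h : Mo f N) (hN : 0 ≤ N) : Yn f N :=
  ⟨hN, f, fun _ => 0, by funext x; simp, h, continuous_const, PG.const 0, fun x y z => by
    simp only [d2, sub_self, add_zero, abs_zero]; positivity⟩
theorem C2.yn (hw : C2 w) (hM : 0 ≤ M) (h : ∀ x i j, |hs w x i j| ≤ M) : Yn w (n ^ 2 * M) := by
  obtain ⟨C, _, hC⟩ := hw.growth h
  refine ⟨by positivity, fun _ => 0, w, by funext x; simp, fun x y => ?_, hw.1.continuous,
    ⟨C, 2, fun x => (hC x).1⟩, d2_le hw h⟩
  have := md_nonneg ‖x - y‖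
  simp only [sub_self, abs_zero]; positivity
theorem Yn.mono (h : Yn f N) (hN : N ≤ M) : Yn f M := by
  obtain ⟨h0, g1, g2, e, h1, h2, h3, h4⟩ := h
  exact ⟨h0.trans hN, g1, g2, e, h1.mono hN, h2, h3, fun x y z => (h4 x y z).trans (by gcongr)⟩
theorem Yn.add (hf : Yn f a) (hg : Yn g b) : Yn (fun x => f x + g x) (a + b) := by
  obtain ⟨h0, g1, g2, rfl, h1, h2, h3, h4⟩ := hf
  obtain ⟨h0', g1', g2', rfl, h1', h2', h3', h4'⟩ := hg
  refine ⟨by linarith, fun x => g1 x + g1' x, fun x => g2 x + g2' x, ?_, h1.add h1', h2.add h2',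
    h3.add h3', fun x y z => ?_⟩
  · funext x; simp only [Pi.add_apply]; ring
  · have e : d2 (fun x => g2 x + g2' x) x y z = d2 g2 x y z + d2 g2' x y z := by
      simp only [d2]; ring
    rw [e]
    linarith [abs_add_le (d2 g2 x y z) (d2 g2' x y z), h4 x y z, h4' x y z]
theorem Yn.const_mul (hf : Yn f a) (t : ℝ) : Yn (fun x => t * f x) (|t| * a) := by
  obtain ⟨h0, g1, g2, rfl, h1, h2, h3, h4⟩ := hf
  refine ⟨by positivity, fun x => t * g1 x, fun x => t * g2 x, ?_, h1.const_mul t,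
    continuous_const.mul h2, (PG.const t).mul h3, fun x y z => ?_⟩
  · funext x; simp only [Pi.add_apply]; ring
  · have e : d2 (fun x => t * g2 x) x y z = t * d2 g2 x y z := by
      simp only [d2]; ring
    rw [e, abs_mul, mul_assoc, mul_assoc, ← mul_assoc a]
    exact mul_le_mul_of_nonneg_left (h4 x y z) (abs_nonneg _)
theorem Yn.sub (hf : Yn f a) (hg : Yn g b) : Yn (fun x => f x - g x) (a + b) := by
  have := hf.add (hg.const_mul (-1))
  simpa [sub_eq_add_neg] using this
theorem Yn.add_const (hf : Yn f a) (t : ℝ) : Yn (fun x => f x + t) a := by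
  obtain ⟨h0, g1, g2, rfl, h1, h2, h3, h4⟩ := hf
  refine ⟨h0, fun x => g1 x + t, g2, ?_, fun x y => by simpa using h1 x y, h2, h3, h4⟩
  funext x; simp only [Pi.add_apply]; ring
theorem Yn.continuous (h : Yn f N) : Continuous f := by
  obtain ⟨_, g1, g2, rfl, h1, h2, _, _⟩ := h
  exact h1.continuous.add h2
theorem Yn.pg (h : Yn f N) : PG f := by
  obtain ⟨_, g1, g2, rfl, h1, _, h3, _⟩ := h
  exact h1.pg.add h3
theorem Xn.sub (hw : Xn w a) (hu : Xn u b) : Xn (fun x => w x - u x) (a + b) := by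
  refine ⟨hw.1.sub hu.1, fun x => ?_, ?_, fun i j => ?_⟩
  · show w (-x) - u (-x) = w x - u x
    rw [hw.2.1, hu.2.1]
  · show w 0 - u 0 = 0
    rw [hw.2.2.1, hu.2.2.1, sub_zero]
  · rw [hs_sub hw.1 hu.1]; exact (hw.2.2.2 i j).sub (hu.2.2.2 i j)
theorem Xn.const_mul (hw : Xn w a) (t : ℝ) : Xn (fun x => t * w x) (|t| * a) := by
  refine ⟨hw.1.const_mul t, fun x => ?_, ?_, fun i j => ?_⟩
  · show t * w (-x) = t * w x
    rw [hw.2.1]
  · show t * w 0 = 0
    rw [hw.2.2.1, mul_zero]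
  · rw [hs_const_mul]; exact (hw.2.2.2 i j).const_mul t
theorem Xn.zero (hr : 0 ≤ r) : Xn (fun _ : E n => (0 : ℝ)) r := by
  refine ⟨C2.const 0, fun _ => rfl, rfl, fun i j => ?_⟩
  rw [hs_const]
  exact (Hn.const 0).mono (by simpa using hr)

end Vale.Agent.P227
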