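import Vale.Agent.P227.Calc

/-! Difference characterizations of differentiability, compactness, absorption. -/

namespace Vale.Agent.P227

open Matrix Filter Topology

variable {n : ℕ} {f g w u : E n → ℝ} {x y z d : E n} {i j : Fin n} {a b M N r : ℝ}

theorem hasFDerivAt_of_bound {L : E n →L[ℝ] ℝ} {C : ℝ} (hr : 0 < r)
    (h : ∀ y, ‖y‖ ≤ r → |f (x + y) - f x - L y| ≤ C * ‖y‖ * √‖y‖) : HasFDerivAt f L x := by
  rw [hasFDerivAt_iff_isLittleO_nhds_zero, Asymptotics.isLittleO_iff]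
  intro c hc
  have h1 : Continuous fun y : E n => C * √‖y‖ := by fun_prop
  have h2 := h1.tendsto 0
  simp only [norm_zero, Real.sqrt_zero, mul_zero] at h2
  filter_upwards [h2.eventually (gt_mem_nhds hc), Metric.closedBall_mem_nhds (0 : E n) hr]
    with y hy hy'
  rw [mem_closedBall_zero_iff] at hy'
  refine (h y hy').trans ?_
  nlinarith [norm_nonneg y]

/-- the linear form with prescribed coordinates -/
noncomputable def lin (c : Fin n → ℝ) : E n →L[ℝ] ℝ :=
  ∑ i, c i • (EuclideanSpace.proj i : E n →L[ℝ] ℝ)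

theorem lin_apply (c : Fin n → ℝ) (y : E n) : lin c y = ∑ i, y i * c i := by
  simp [lin, mul_comm]

theorem diff_of_bound {c : Fin n → ℝ} {C : ℝ} (hr : 0 < r)
    (h : ∀ y, ‖y‖ ≤ r → |f (x + y) - f x - ∑ i, y i * c i| ≤ C * ‖y‖ * √‖y‖) :
    DifferentiableAt ℝ f x ∧ ∀ i, pd i f x = c i := by
  have h1 : HasFDerivAt f (lin c) x :=
    hasFDerivAt_of_bound hr fun y hy => by rw [lin_apply]; exact h y hy
  refine ⟨h1.differentiableAt, fun i => ?_⟩
  unfold pd
  rw [h1.fderiv, lin_apply]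
  simp

theorem norm_half_pow (k : ℕ) (y : E n) : ‖((1 / 2 : ℝ) ^ k) • y‖ = (1 / 2) ^ k * ‖y‖ := by
  rw [norm_smul, Real.norm_eq_abs, abs_of_nonneg (by positivity)]

theorem almost_add {φ : E n → ℝ} (hφ : Continuous φ) (h0 : φ 0 = 0) (hr : 0 < r) (hN : 0 ≤ N)
    (h : ∀ y d, ‖y‖ ≤ r → ‖d‖ ≤ r → |φ (y + d) - φ y - φ d| ≤ N * ‖y‖ * √‖d‖) :
    ∃ L : E n →L[ℝ] ℝ, ∀ y, ‖y‖ ≤ r → |φ y - L y| ≤ 4 * N * ‖y‖ * √‖y‖ := by
  set s : E n → ℕ → ℝ := fun y k => 2 ^ k * φ (((1 / 2 : ℝ) ^ k) • y) with hs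
  have hhalf : ∀ k : ℕ, (1 / 2 : ℝ) ^ k ≤ 1 := fun k => pow_le_one₀ (by norm_num) (by norm_num)
  have htwo : ∀ k : ℕ, (2 : ℝ) ^ k * (1 / 2) ^ k = 1 := fun k => by rw [← mul_pow]; norm_num
  have step : ∀ y, ‖y‖ ≤ r → ∀ k, dist (s y k) (s y (k + 1)) ≤ N * ‖y‖ * √‖y‖ * (3 / 4) ^ k := by
    intro y hy k
    set y' := ((1 / 2 : ℝ) ^ (k + 1)) • y with hy'
    have hn : ‖y'‖ = (1 / 2) ^ (k + 1) * ‖y‖ := norm_half_pow _ _
    have hy0 := norm_nonneg y
    have hr' : ‖y'‖ ≤ r := by rw [hn]; nlinarith [hhalf (k + 1)]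
    have e1 : ((1 / 2 : ℝ) ^ k) • y = y' + y' := by
      rw [hy', ← add_smul]; congr 1; ring
    have e2 : s y k - s y (k + 1) = 2 ^ k * (φ (y' + y') - φ y' - φ y') := by
      simp only [hs]; rw [e1, ← hy']; ring
    rw [Real.dist_eq, e2, abs_mul, abs_of_pos (by positivity : (0 : ℝ) < 2 ^ k)]
    have h1 := h y' y' hr' hr'
    have h2 : √‖y'‖ ≤ √‖y‖ * (3 / 4) ^ k := by
      rw [Real.sqrt_le_iff]
      refine ⟨by positivity, ?_⟩
      rw [mul_pow, Real.sq_sqrt hy0, hn, ← pow_mul, mul_comm k 2, pow_mul, mul_comm]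
      refine mul_le_mul_of_nonneg_left ?_ hy0
      have h3 : ((1 : ℝ) / 2) ^ k ≤ ((3 / 4) ^ 2) ^ k := pow_le_pow_left₀ (by norm_num) (by norm_num) k
      have h4 : (0 : ℝ) < (1 / 2) ^ k := by positivity
      rw [pow_succ]; linarith
    have h3 : (2 : ℝ) ^ k * ‖y'‖ ≤ ‖y‖ := by
      rw [hn, pow_succ, ← mul_assoc, ← mul_assoc, htwo]; linarith
    calc (2 : ℝ) ^ k * |φ (y' + y') - φ y' - φ y'| ≤ 2 ^ k * (N * ‖y'‖ * √‖y'‖) := by gcongr
      _ = N * (2 ^ k * ‖y'‖) * √‖y'‖ := by ring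
      _ ≤ N * ‖y‖ * (√‖y‖ * (3 / 4) ^ k) := by gcongr
      _ = _ := by ring
  have hlim : Tendsto (fun k : ℕ => (1 / 2 : ℝ) ^ k) atTop (𝓝 0) :=
    tendsto_pow_atTop_nhds_zero_of_lt_one (by norm_num) (by norm_num)
  have small : ∀ y : E n, ∀ᶠ k : ℕ in atTop, ‖((1 / 2 : ℝ) ^ k) • y‖ ≤ r := by
    intro y
    have h1 := hlim.mul_const ‖y‖
    rw [zero_mul] at h1
    filter_upwards [h1.eventually (gt_mem_nhds hr)] with k hk
    rw [norm_half_pow]; exact hk.le
  have conv : ∀ y, ∃ l, Tendsto (s y) atTop (𝓝 l) := by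
    intro y
    obtain ⟨m, hm⟩ := (small y).exists
    obtain ⟨l, hl⟩ := cauchySeq_tendsto_of_complete
      (cauchySeq_of_le_geometric (3 / 4) _ (by norm_num) (step _ hm))
    refine ⟨2 ^ m * l, ?_⟩
    rw [← tendsto_add_atTop_iff_nat m]
    refine (hl.const_mul (2 ^ m)).congr fun k => ?_
    simp only [hs]
    rw [smul_smul, ← pow_add, pow_add (2 : ℝ)]; ring
  choose l hl using conv
  have bound : ∀ y, ‖y‖ ≤ r → |φ y - l y| ≤ 4 * N * ‖y‖ * √‖y‖ := by
    intro y hy
    have h1 := dist_le_of_le_geometric_of_tendsto₀ (3 / 4) _ (by norm_num) (step y hy) (hl y)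
    simp only [hs, pow_zero, one_mul, one_smul, Real.dist_eq] at h1
    refine h1.trans (le_of_eq ?_); ring
  have add : ∀ y d, l (y + d) = l y + l d := by
    intro y d
    have h1 := (((hl (y + d)).sub (hl y)).sub (hl d)).abs
    have h2 : Tendsto (fun k : ℕ => N * ‖y‖ * √((1 / 2 : ℝ) ^ k * ‖d‖)) atTop (𝓝 0) := by
      have := ((hlim.mul_const ‖d‖).sqrt).const_mul (N * ‖y‖)
      simpa using this
    have h3 : |l (y + d) - l y - l d| ≤ 0 := by
      refine le_of_tendsto_of_tendsto h1 h2 ?_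
      filter_upwards [small y, small d] with k hy hd
      have h4 := h _ _ hy hd
      simp only [hs]
      rw [smul_add, ← mul_sub, ← mul_sub, abs_mul, abs_of_pos (by positivity : (0 : ℝ) < 2 ^ k)]
      rw [norm_half_pow, norm_half_pow] at h4
      calc _ ≤ 2 ^ k * (N * ((1 / 2) ^ k * ‖y‖) * √((1 / 2) ^ k * ‖d‖)) := by gcongr
        _ = (2 ^ k * (1 / 2) ^ k) * (N * ‖y‖ * √((1 / 2) ^ k * ‖d‖)) := by ring
        _ = _ := by rw [htwo, one_mul]
    have := abs_nonpos_iff.1 h3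
    linarith
  let A : E n →+ ℝ := AddMonoidHom.mk' l add
  have hA : Continuous A := by
    refine continuous_of_continuousAt_zero A ?_
    rw [ContinuousAt, map_zero, tendsto_zero_iff_norm_tendsto_zero]
    have h1 : Continuous fun y : E n => |φ y| + 4 * N * ‖y‖ * √‖y‖ := by fun_prop
    have h2 := h1.tendsto 0
    simp only [h0, abs_zero, norm_zero, mul_zero, Real.sqrt_zero, add_zero] at h2
    refine squeeze_zero' (Eventually.of_forall fun _ => norm_nonneg _) ?_ h2
    filter_upwards [Metric.closedBall_mem_nhds (0 : E n) hr] with y hy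
    rw [mem_closedBall_zero_iff] at hy
    have h3 := bound y hy
    have h4 := abs_sub (φ y) (φ y - l y)
    rw [sub_sub_cancel] at h4
    show |l y| ≤ _
    linarith
  exact ⟨A.toRealLinearMap hA, bound⟩

theorem norm_smul_ee {t : ℝ} (ht : 0 ≤ t) (i : Fin n) : ‖t • ee i‖ = t := by
  rw [norm_smul, norm_ee, mul_one, Real.norm_eq_abs, abs_of_nonneg ht]

theorem dc1 (hf : Continuous f) (hr : 0 < r)
    (h : ∀ x y d, ‖y‖ ≤ r → ‖d‖ ≤ r → |d2 f x y d| ≤ N * ‖y‖ * √‖d‖) :
    Differentiable ℝ f ∧ ∀ i x d, ‖d‖ ≤ r → |pd i f (x + d) - pd i f x| ≤ N * √‖d‖ := by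
  have hd : Differentiable ℝ f := by
    intro x
    obtain ⟨L, hL⟩ := almost_add (φ := fun y => f (x + y) - f x) (N := |N|) (by fun_prop)
      (by simp) hr (abs_nonneg N) fun y d hy hd => by
        have h1 := h x y d hy hd
        have e : d2 f x y d = f (x + (y + d)) - f x - (f (x + y) - f x) - (f (x + d) - f x) := by
          unfold d2; rw [add_assoc]; ring
        rw [e] at h1
        exact h1.trans (by gcongr; exact le_abs_self N)
    exact (hasFDerivAt_of_bound hr hL).differentiableAt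
  refine ⟨hd, fun i x d hdr => ?_⟩
  have h1 := pd_bound (f := fun p => f (p + d) - f p) (x := x) (i := i) (b := N * √‖d‖)
    ((differentiable_shift hd d).sub hd) hr fun t ht htr => by
      have h2 := h x (t • ee i) d (by rw [norm_smul_ee ht.le]; exact htr) hdr
      rw [norm_smul_ee ht.le] at h2
      have e : d2 f x (t • ee i) d =
          f (x + t • ee i + d) - f (x + t • ee i) - (f (x + d) - f x) := by unfold d2; ring
      rw [e] at h2
      refine h2.trans (le_of_eq ?_); ring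
  rwa [pd_sub (differentiable_shift hd d) hd, pd_shift] at h1

theorem Hn_of_local (hr : 0 < r) (hN : 0 ≤ N) (hb : ∀ x, |f x| ≤ b)
    (h : ∀ x d, ‖d‖ ≤ r → |f (x + d) - f x| ≤ N * √‖d‖) : Hn f (b + N + 2 * b / √r) := by
  have hb0 : 0 ≤ b := (abs_nonneg _).trans (hb 0)
  have hs : 0 < √r := Real.sqrt_pos.2 hr
  have h1 : 0 ≤ 2 * b / √r := by positivity
  refine ⟨fun x => by linarith [hb x], fun x y => ?_⟩
  have h0 := Real.sqrt_nonneg ‖x - y‖
  rcases le_total ‖x - y‖ r with h2 | h2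
  · have h3 := h y (x - y) h2
    rw [add_sub_cancel] at h3
    nlinarith
  · have h3 : |f x - f y| ≤ 2 * b := by linarith [abs_sub (f x) (f y), hb x, hb y]
    have h4 : 2 * b / √r * √r ≤ 2 * b / √r * √‖x - y‖ :=
      mul_le_mul_of_nonneg_left (Real.sqrt_le_sqrt h2) h1
    rw [div_mul_cancel₀ _ hs.ne'] at h4
    nlinarith

theorem continuous_of_local (hr : 0 < r)
    (h : ∀ x d, ‖d‖ ≤ r → |f (x + d) - f x| ≤ N * √‖d‖) : Continuous f := by
  rw [continuous_iff_continuousAt]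
  intro x
  rw [ContinuousAt, tendsto_iff_norm_sub_tendsto_zero]
  have h1 : Continuous fun y : E n => N * √‖y - x‖ := by fun_prop
  have h2 := h1.tendsto x
  simp only [sub_self, norm_zero, Real.sqrt_zero, mul_zero] at h2
  refine squeeze_zero' (Eventually.of_forall fun _ => norm_nonneg _) ?_ h2
  filter_upwards [Metric.closedBall_mem_nhds x hr] with y hy
  rw [mem_closedBall_iff_norm] at hy
  have := h x (y - x) hy
  rwa [add_sub_cancel] at this

theorem dc2 (hw : Continuous w) (hr : 0 < r)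
    (h2 : ∀ x y z, ‖y‖ ≤ r → ‖z‖ ≤ r → |d2 w x y z| ≤ N * ‖y‖ * ‖z‖)
    (h3 : ∀ x y z d, ‖y‖ ≤ r → ‖z‖ ≤ r → ‖d‖ ≤ r →
      |d2 w (x + d) y z - d2 w x y z| ≤ N * ‖y‖ * ‖z‖ * √‖d‖) :
    C2 w ∧ ∃ M, HM (hs w) M := by
  obtain ⟨hd, hp⟩ := dc1 (N := |N| * √r) hw hr fun x y z hy hz => by
    refine (h2 x y z hy hz).trans ?_
    have h4 : ‖z‖ ≤ √r * √‖z‖ := by
      conv_lhs => rw [← Real.mul_self_sqrt (norm_nonneg z)]
      exact mul_le_mul_of_nonneg_right (Real.sqrt_le_sqrt hz) (Real.sqrt_nonneg _)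
    calc N * ‖y‖ * ‖z‖ ≤ |N| * ‖y‖ * (√r * √‖z‖) := by gcongr; exact le_abs_self N
      _ = _ := by ring
  have hc : ∀ i, Continuous (pd i w) := fun i => continuous_of_local hr (hp i)
  have key : ∀ i, Differentiable ℝ (pd i w) ∧
      ∀ j x d, ‖d‖ ≤ r → |pd j (pd i w) (x + d) - pd j (pd i w) x| ≤ N * √‖d‖ := by
    intro i
    refine dc1 (hc i) hr fun x z d hz hdr => ?_
    have d1 := differentiable_shift hd (z + d)
    have d2' := differentiable_shift hd z
    have d3 := differentiable_shift hd d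
    have h4 := pd_bound (f := fun p => w (p + (z + d)) - w (p + z) - w (p + d) + w p) (x := x)
      (i := i) (b := N * ‖z‖ * √‖d‖) (((d1.sub d2').sub d3).add hd) hr fun t ht htr => by
        have h5 := h3 x (t • ee i) z d (by rw [norm_smul_ee ht.le]; exact htr) hz hdr
        rw [norm_smul_ee ht.le] at h5
        have e : d2 w (x + d) (t • ee i) z - d2 w x (t • ee i) z =
            w (x + t • ee i + (z + d)) - w (x + t • ee i + z) - w (x + t • ee i + d) +
              w (x + t • ee i) - (w (x + (z + d)) - w (x + z) - w (x + d) + w x) := by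
          unfold d2
          rw [show x + d + t • ee i + z = x + t • ee i + (z + d) by abel,
            show x + d + t • ee i = x + t • ee i + d by abel, show x + d + z = x + (z + d) by abel]
          ring
        rw [e] at h5
        refine h5.trans (le_of_eq ?_); ring
    rw [pd_add ((d1.fun_sub d2').fun_sub d3) hd, pd_sub (d1.fun_sub d2') d3, pd_sub d1 d2',
      pd_shift, pd_shift, pd_shift] at h4
    unfold d2
    rw [add_assoc]
    exact h4
  refine ⟨⟨hd, fun i => (key i).1⟩, |N| + |N| + 2 * |N| / √r, fun j i => ?_⟩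
  refine Hn_of_local hr (abs_nonneg N) (fun x => ?_) fun x d hdr =>
    ((key i).2 j x d hdr).trans (by gcongr; exact le_abs_self N)
  refine pd_bound (key i).1 hr fun s hs hsr => ?_
  have h4 := pd_bound (f := fun p => w (p + s • ee j) - w p) (x := x) (i := i) (b := |N| * s)
    ((differentiable_shift hd _).sub hd) hr fun t ht htr => by
      have h5 := h2 x (t • ee i) (s • ee j) (by rw [norm_smul_ee ht.le]; exact htr)
        (by rw [norm_smul_ee hs.le]; exact hsr)
      rw [norm_smul_ee ht.le, norm_smul_ee hs.le] at h5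
      have e : d2 w x (t • ee i) (s • ee j) =
          w (x + t • ee i + s • ee j) - w (x + t • ee i) - (w (x + s • ee j) - w x) := by
        unfold d2; ring
      rw [e] at h5
      calc _ ≤ N * t * s := h5
        _ ≤ |N| * t * s := by gcongr; exact le_abs_self N
        _ = _ := by ring
  rwa [pd_sub (differentiable_shift hd _) hd, pd_shift] at h4

/-- a fixed free ultrafilter on `ℕ` -/
noncomputable abbrev UF : Filter ℕ := (hyperfilter ℕ : Ultrafilter ℕ)

theorem UF_le : UF ≤ atTop := Nat.hyperfilter_le_atTop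
theorem UF_compact {X : Type} [TopologicalSpace X] {K : Set X} (hK : IsCompact K) {s : ℕ → X}
    (h : ∀ k, s k ∈ K) : ∃ l, Tendsto s UF (𝓝 l) := by
  obtain ⟨l, _, hl⟩ := hK.ultrafilter_le_nhds ((hyperfilter ℕ).map s) (by
    rw [le_principal_iff, Ultrafilter.coe_map, mem_map]
    exact Eventually.of_forall h)
  exact ⟨l, hl⟩
theorem UF_lim {s : ℕ → ℝ} (h : ∀ k, |s k| ≤ b) : ∃ l, Tendsto s UF (𝓝 l) :=
  UF_compact (isCompact_Icc (a := -b) (b := b)) fun k => abs_le.1 (h k)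
theorem UF_limE {s : ℕ → E n} (h : ∀ k, ‖s k‖ ≤ b) : ∃ l, Tendsto s UF (𝓝 l) :=
  UF_compact (isCompact_closedBall (0 : E n) b) fun k => mem_closedBall_zero_iff.2 (h k)

theorem compactness {W : ℕ → E n → ℝ} (h : ∀ k, Xn (W k) M) :
    ∃ u, Xn u M ∧ ∀ x, Tendsto (fun k => W k x) UF (𝓝 (u x)) ∧
      (∀ i, Tendsto (fun k => pd i (W k) x) UF (𝓝 (pd i u x))) ∧
      ∀ i j, Tendsto (fun k => hs (W k) x i j) UF (𝓝 (hs u x i j)) := by
  choose u hu using fun x => UF_lim (s := fun k => W k x) fun k => ((h k).growth x).1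
  choose p hp using fun i x => UF_lim (s := fun k => pd i (W k) x) fun k => ((h k).growth x).2 i
  choose H hH using fun i j x => UF_lim (s := fun k => hs (W k) x i j) fun k =>
    ((h k).2.2.2 i j).1 x
  have h1 : ∀ x, DifferentiableAt ℝ u x ∧ ∀ i, pd i u x = p i x := by
    intro x
    refine diff_of_bound (C := n * (n * |M|)) one_pos fun y hy => ?_
    have h2 := (((hu (x + y)).sub (hu x)).sub
      (tendsto_finsetSum Finset.univ fun i _ => (hp i x).const_mul (y i))).abs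
    refine le_of_tendsto' h2 fun k => ?_
    have h3 := taylor_seg (x := x) (y := y) (b := n * |M| * √‖y‖) (h k).1.1
      (c := fun i => pd i (W k) x) fun i t h0 h1 => by
        have h4 := pd_lip (h k).1
          (fun x i j => (((h k).2.2.2 i j).1 x).trans (le_abs_self M)) i (x + t • y) x
        rw [add_sub_cancel_left] at h4
        refine h4.trans (mul_le_mul_of_nonneg_left ?_ (by positivity))
        exact (norm_smul_le01 y h0 h1).trans (le_sqrt_of_le_one hy)
    refine h3.trans (le_of_eq ?_); ring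
  have e1 : ∀ i, pd i u = p i := fun i => funext fun x => (h1 x).2 i
  have h2 : ∀ i x, DifferentiableAt ℝ (p i) x ∧ ∀ j, pd j (p i) x = H j i x := by
    intro i x
    refine diff_of_bound (C := n * M) one_pos fun y _ => ?_
    have h2 := (((hp i (x + y)).sub (hp i x)).sub
      (tendsto_finsetSum Finset.univ fun j _ => (hH j i x).const_mul (y j))).abs
    exact le_of_tendsto' h2 fun k =>
      taylor1 ((h k).1.2 i) (fun j a b => ((h k).2.2.2 j i).2 a b) x y
  have e2 : ∀ x i j, hs u x i j = H i j x := fun x i j => by rw [hs_apply, e1, (h2 j x).2]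
  refine ⟨u, ⟨⟨fun x => (h1 x).1, fun i x => by rw [e1]; exact (h2 i x).1⟩, fun x => ?_, ?_,
    fun i j => ⟨fun x => ?_, fun x y => ?_⟩⟩, fun x => ⟨hu x, fun i => ?_, fun i j => ?_⟩⟩
  · exact tendsto_nhds_unique ((hu (-x)).congr fun k => (h k).2.1 x) (hu x)
  · exact tendsto_nhds_unique ((hu 0).congr fun k => (h k).2.2.1) tendsto_const_nhds
  · show |hs u x i j| ≤ M
    rw [e2]
    exact le_of_tendsto' (hH i j x).abs fun k => ((h k).2.2.2 i j).1 x
  · show |hs u x i j - hs u y i j| ≤ _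
    rw [e2, e2]
    exact le_of_tendsto' ((hH i j x).sub (hH i j y)).abs fun k => ((h k).2.2.2 i j).2 x y
  · rw [e1]; exact hp i x
  · rw [e2]; exact hH i j x

theorem HM.exists_min {T : E n → Mat n} (h0 : ∃ M, HM T M) :
    ∃ m, 0 ≤ m ∧ HM T m ∧ ∀ M, 0 ≤ M → HM T M → m ≤ M := by
  obtain ⟨M0, hM0⟩ := h0
  set S : Set ℝ := {M | 0 ≤ M ∧ HM T M} with hS
  have hc : IsClosed S := by
    have e : S = Set.Ici 0 ∩ ⋂ i, ⋂ j, ((⋂ x, {M | |T x i j| ≤ M}) ∩
        ⋂ x, ⋂ y, {M | |T x i j - T y i j| ≤ M * √‖x - y‖}) := by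
      ext M; simp [hS, HM, Hn]
    rw [e]
    refine isClosed_Ici.inter (isClosed_iInter fun i => isClosed_iInter fun j =>
      (isClosed_iInter fun x => isClosed_le continuous_const continuous_id).inter
        (isClosed_iInter fun x => isClosed_iInter fun y =>
          isClosed_le continuous_const (by fun_prop)))
  have hne : S.Nonempty := ⟨|M0|, abs_nonneg _, hM0.mono (le_abs_self _)⟩
  have hb : BddBelow S := ⟨0, fun M hM => hM.1⟩
  have hm := hc.csInf_mem hne hb
  exact ⟨sInf S, hm.1, hm.2, fun M h1 h2 => csInf_le hb ⟨h1, h2⟩⟩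

theorem HM.absorb {T : E n → Mat n} (h0 : ∃ M, HM T M) (ha : 0 ≤ a)
    (h : ∀ M, 0 ≤ M → HM T M → HM T (a + M / 2)) : HM T (2 * a) := by
  obtain ⟨m, h1, h2, h3⟩ := HM.exists_min h0
  have := h3 _ (by positivity) (h m h1 h2)
  exact h2.mono (by linarith)

end Vale.Agent.P227
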