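import Vale.Agent.P227.Path

/-! Bounds for the derivative along the covariance path. -/

namespace Vale.Agent.P227

open Matrix MeasureTheory Filter Topology Set

variable {n : ℕ} {A : E n → Mat n} {w g1 g2 : E n → ℝ} {c K κ M M0 N Q ρ t : ℝ} {z x d : E n}

/-- the part of the frozen right-hand side that has a modulus of continuity -/
noncomputable def F1 (A : E n → Mat n) (g1 w : E n → ℝ) (p ξ : E n) : ℝ :=
  g1 ξ + ∑ i, ∑ j, (A p i j - A ξ i j) * hs w ξ i j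

lemma sum2_le {f : Fin n → Fin n → ℝ} {B : ℝ} (h : ∀ i j, |f i j| ≤ B) :
    |∑ i, ∑ j, f i j| ≤ n ^ 2 * B :=
  (Finset.abs_sum_le_sum_abs _ _).trans ((Finset.sum_le_sum fun i _ =>
    (Finset.abs_sum_le_sum_abs _ _).trans (Finset.sum_le_sum fun j _ => h i j)).trans
      (le_of_eq (by simp; ring)))

lemma F1_reg (hK : HM A K) (hM : HM (hs w) M) (hg : Mo g1 N) (p : E n) :
    Continuous (F1 A g1 w p) ∧ PG (F1 A g1 w p) :=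
  ⟨hg.continuous.add (continuous_finsetSum _ fun i _ => continuous_finsetSum _ fun j _ =>
    (continuous_const.sub (hK i j).continuous).mul (hM i j).continuous),
    hg.pg.add (PG.of_bdd fun ξ => sum2_le fun i j => amul
      ((abs_sub _ _).trans (add_le_add ((hK i j).1 p) ((hK i j).1 ξ))) ((hM i j).1 ξ))⟩

lemma F1_loc (hM : HM (hs w) M) (hg : Mo g1 N) (h0 : ∀ x i j, |hs w x i j| ≤ M0) {p p' : E n}
    {Λ L : ℝ} (hΛ : ∀ h i j, |A (p' + h) i j - A p' i j| ≤ Λ * md ‖h‖)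
    (hL : ∀ i j, |A p i j - A p' i j| ≤ L) (h : E n) :
    |F1 A g1 w p (p' + h) - F1 A g1 w p p'| ≤ (N + n ^ 2 * (Λ * M0 + L * M)) * md ‖h‖ := by
  have k1 := hg (p' + h) p'
  have k2 := sum2_le fun i j => aadd (amul (le_refl |(-1 : ℝ)|) (amul (hΛ h i j) (h0 (p' + h) i j)))
    (amul (hL i j) ((hM i j).mo (p' + h) p'))
  rw [add_sub_cancel_left] at k1 k2
  refine le_trans (le_of_eq (congrArg _ ?_)) ((aadd k1 k2).trans (le_of_eq (by simp; ring)))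
  simp only [F1, add_sub_add_comm, ← Finset.sum_sub_distrib]
  congr 1
  exact Finset.sum_congr rfl fun i _ => Finset.sum_congr rfl fun j _ => by ring

lemma dE_split (hK : HM A K) (hM : HM (hs w) M) (he : Lop A κ w = g1 + g2) (hg : Mo g1 N)
    (c2 : Continuous g2) (p2 : PG g2) (i j : Fin n) (x : E n) (t ρ : ℝ) :
    dE A z κ w i j x t ρ = 2 * ρ ^ 3 * sc ρ ^ (κ - 2) *
      (d2 (PP A z (F1 A g1 w ((sc ρ)⁻¹ • z)) ρ) x (t • ee i) (t • ee j) +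
        PP A z (fun ξ => d2 g2 ξ ((sc ρ)⁻¹ • t • ee i) ((sc ρ)⁻¹ • t • ee j)) ρ x) := by
  have e : Lop (fun _ => A ((sc ρ)⁻¹ • z)) κ w = fun ξ => F1 A g1 w ((sc ρ)⁻¹ • z) ξ + g2 ξ := by
    ext ξ
    have := congrFun he ξ
    simp only [Lop, F1, sub_mul, Finset.sum_sub_distrib, Pi.add_apply] at this ⊢
    linarith
  have r := F1_reg hK hM hg ((sc ρ)⁻¹ • z)
  simp only [dE, e, PP, ← Ps_d2 c2 p2]
  simp only [d2, Ps_add r.1 r.2 c2 p2]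
  ring

lemma md_sc (hK0 : 0 ≤ K) (hρ : 0 ≤ ρ) :
    md ((1 + n * K) * ρ ^ 2 / sc ρ) ≤ 2 * (1 + n * K) ^ 2 * ρ := by
  have hb : 1 ≤ 1 + n * K := le_add_of_nonneg_right (by positivity)
  set b := 1 + n * K
  have hp := sc_pos ρ
  have h1 : √(b * ρ ^ 2 / sc ρ) ≤ b ^ 2 * ρ := by
    rw [Real.sqrt_le_left (by positivity), mul_pow]
    refine (div_le_self (by positivity) (one_le_sc ρ)).trans ?_
    gcongr
    rw [← pow_mul]
    exact le_self_pow₀ hb (by omega)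
  have h2 : (b * ρ ^ 2 / sc ρ) ^ 2 ≤ b ^ 2 * ρ := by
    rw [div_pow, sc_sq, div_le_iff₀ (by positivity), mul_pow, mul_assoc]
    gcongr
    nlinarith [mul_nonneg hρ (sq_nonneg (ρ ^ 2 - 1)), mul_nonneg hρ (sq_nonneg (ρ ^ 2 - ρ)),
      mul_nonneg hρ (sq_nonneg (ρ - 1)), pow_nonneg hρ 3]
  unfold md
  linarith

lemma norm_tee (ht : 0 ≤ t) (i : Fin n) : ‖t • ee i‖ = t := by
  rw [norm_smul, norm_ee, mul_one, Real.norm_eq_abs, abs_of_nonneg ht]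

lemma d2_g2 (h2 : ∀ x y z, |d2 g2 x y z| ≤ N * ‖y‖ * ‖z‖) (ht : 0 ≤ t) (i j : Fin n) (ξ : E n) :
    |d2 g2 ξ ((sc ρ)⁻¹ • t • ee i) ((sc ρ)⁻¹ • t • ee j)| ≤ N * t ^ 2 / sc ρ ^ 2 := by
  have := mul_nonneg (inv_pos.2 (sc_pos ρ)).le ht
  refine (h2 _ _ _).trans (le_of_eq ?_)
  rw [smul_smul, smul_smul, norm_tee this, norm_tee this]
  ring

lemma est2 (hc : 0 < c) (hA : Ell A c) (hK : HM A K) (hM : HM (hs w) M)
    (he : Lop A κ w = g1 + g2) (hg : Mo g1 N) (c2 : Continuous g2) (p2 : PG g2)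
    (h2 : ∀ x y z, |d2 g2 x y z| ≤ N * ‖y‖ * ‖z‖) (hN : 0 ≤ N) (hQ : N ≤ Q) (i j : Fin n)
    (hρ : 0 < ρ) (ht : 0 ≤ t) (ht' : t ≤ √c * ρ ^ 2) {c0 : ℝ}
    (h : ∀ h, |F1 A g1 w ((sc ρ)⁻¹ • z) ((sc ρ)⁻¹ • x + h) - c0| ≤ Q * md ‖h‖) :
    |dE A z κ w i j x t ρ| ≤ t ^ 2 * ((8 * Ic n * (1 + n * K) ^ 2 / c + 2) * Q * sc ρ ^ (κ - 2)) := by
  have hK0 := (hK i j).nonneg
  have r := F1_reg hK hM hg ((sc ρ)⁻¹ • z)
  have hp := sc_pos ρ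
  have hI := one_le_Ic (n := n)
  have hQ0 := hN.trans hQ
  have k := kern2 r.1 r.2 (Sg_psd0 hc hA hK z hρ.le) (by positivity) (by positivity) hp hQ0
    (Sg_lower0 hc hA hK z hρ.le) (Sg_upper hK z hρ.le) h ((norm_tee ht i).trans_le ht')
    ((norm_tee ht j).trans_le ht')
  rw [norm_tee ht, norm_tee ht] at k
  have k' := aadd k (Ps_abs_le (d2_g2 (ρ := ρ) h2 ht i j) (Sg A z ρ) (sc ρ) x)
  have hs := Real.rpow_pos_of_pos hp (κ - 2)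
  rw [dE_split hK hM he hg c2 p2, abs_mul, abs_of_pos (by positivity)]
  refine (mul_le_mul_of_nonneg_left k' (by positivity)).trans ?_
  have a1 : ρ ^ 3 / sc ρ ^ 2 ≤ 1 := by
    rw [sc_sq, div_le_one (by positivity)]
    nlinarith [sq_nonneg (ρ ^ 2 - ρ), sq_nonneg (ρ ^ 2 - 1), sq_nonneg (ρ - 1), pow_pos hρ 3]
  have hc' := Real.sqrt_pos.2 hc
  calc _ = t ^ 2 * ((4 * Ic n * md ((1 + n * K) * ρ ^ 2 / sc ρ) / (√c ^ 2 * ρ) * Q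
        + 2 * N * (ρ ^ 3 / sc ρ ^ 2)) * sc ρ ^ (κ - 2)) := by field_simp; ring
    _ ≤ t ^ 2 * ((4 * Ic n * (2 * (1 + n * K) ^ 2 * ρ) / (√c ^ 2 * ρ) * Q + 2 * Q * 1)
        * sc ρ ^ (κ - 2)) := by gcongr; exact md_sc hK0 hρ.le
    _ = _ := by rw [Real.sq_sqrt hc.le]; field_simp; ring

lemma est3 (hc : 0 < c) (hA : Ell A c) (hK : HM A K) (hκ : κ ≤ 1) (hM : HM (hs w) M)
    (he : Lop A κ w = g1 + g2) (hg : Mo g1 N) (c2 : Continuous g2) (p2 : PG g2)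
    (h2 : ∀ x y z, |d2 g2 x y z| ≤ N * ‖y‖ * ‖z‖) (hN : 0 ≤ N) (hQ : N ≤ Q) (i j : Fin n)
    (hρ : 0 < ρ) (h1 : ρ ≤ 1) (ht : 0 ≤ t) (ht' : t ≤ √c * ρ ^ 2) (hd : ‖d‖ ≤ √c * ρ ^ 2) {c0 : ℝ}
    (h : ∀ h, |F1 A g1 w ((sc ρ)⁻¹ • z) ((sc ρ)⁻¹ • x + h) - c0| ≤ Q * md ‖h‖) :
    |dE A z κ w i j (x + d) t ρ - 1 * dE A z κ w i j x t ρ|
      ≤ t ^ 2 * ((32 * Ic n * (1 + n * K) ^ 2 / c + 2 * Ic n) * Q * ‖d‖ / √c / ρ ^ 2) := by
  have hK0 := (hK i j).nonneg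
  have r := F1_reg hK hM hg ((sc ρ)⁻¹ • z)
  have hp := sc_pos ρ
  have hI := one_le_Ic (n := n)
  have hQ0 := hN.trans hQ
  have k := kern3 r.1 r.2 (Sg_psd0 hc hA hK z hρ.le) (by positivity) (by positivity) hp hQ0
    (Sg_lower0 hc hA hK z hρ.le) (Sg_upper hK z hρ.le) h ((norm_tee ht i).trans_le ht')
    ((norm_tee ht j).trans_le ht') hd
  rw [norm_tee ht, norm_tee ht] at k
  have k' := aadd k (kern1 (s := sc ρ) (x := x) (by unfold d2; fun_prop)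
    (Sg_psd0 hc hA hK z hρ.le) (by positivity) (Sg_lower0 hc hA hK z hρ.le)
    (d2_g2 (ρ := ρ) h2 ht i j) hd)
  have hs := Real.rpow_pos_of_pos hp (κ - 2)
  have k2 := amul (le_of_eq (abs_of_pos (by positivity : 0 < 2 * ρ ^ 3 * sc ρ ^ (κ - 2)))) k'
  rw [dE_split hK hM he hg c2 p2, dE_split hK hM he hg c2 p2]
  refine le_trans (le_of_eq (congrArg _ (by simp only [PP]; ring))) (k2.trans ?_)
  have a1 : ρ ^ 3 / sc ρ ^ 2 ≤ 1 :=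
    (div_le_self (by positivity) (one_le_pow₀ (one_le_sc ρ))).trans (pow_le_one₀ hρ.le h1)
  have hc' := Real.sqrt_pos.2 hc
  have hm := md_nonneg ((1 + n * K) * ρ ^ 2 / sc ρ)
  calc _ = t ^ 2 * ((16 * Ic n * md ((1 + n * K) * ρ ^ 2 / sc ρ) / (√c ^ 2 * ρ) * Q
        + 2 * Ic n * N * (ρ ^ 3 / sc ρ ^ 2)) * sc ρ ^ (κ - 2) * ‖d‖ / √c / ρ ^ 2) := by
        field_simp; ring
    _ ≤ t ^ 2 * ((16 * Ic n * (2 * (1 + n * K) ^ 2 * ρ) / (√c ^ 2 * ρ) * Q + 2 * Ic n * Q * 1)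
        * 1 * ‖d‖ / √c / ρ ^ 2) := by
        gcongr
        exacts [md_sc hK0 hρ.le, rpow_sc_le' hκ ρ]
    _ = _ := by rw [Real.sq_sqrt hc.le]; field_simp; ring

end Vale.Agent.P227
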