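import Vale.Agent.P227.Calc

/-! Gaussian averages: shift formula, kernels, convolution. -/

namespace Vale.Agent.P227

open Matrix MeasureTheory ProbabilityTheory Filter Topology Real
open scoped RealInnerProductSpace MatrixOrder

variable {n : ℕ}

noncomputable abbrev γ (n : ℕ) : Measure (E n) := stdGaussian (E n)

lemma density_std (n : ℕ) : (volume : Measure (E n)).withDensity
      (fun x => ENNReal.ofReal ((2 * π) ^ (-(n : ℝ) / 2) * Real.exp (-‖x‖ ^ 2 / 2))) = γ n := by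
  have hb : 0 < ((1 / 2 : ℝ) : ℂ).re := by simp
  have hi : Integrable (fun x : E n => (2 * π) ^ (-(n : ℝ) / 2) * Real.exp (-‖x‖ ^ 2 / 2)) := by
    refine Integrable.const_mul ?_ _
    have := (GaussianFourier.integrable_cexp_neg_mul_sq_norm_add hb 0 (0 : E n)).norm
    refine this.congr (Eventually.of_forall fun x => ?_)
    simp only [zero_mul, add_zero, Complex.norm_exp]
    congr 1
    rw [← Complex.ofReal_pow, ← Complex.ofReal_neg, ← Complex.ofReal_mul, Complex.ofReal_re]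
    ring
  have := isFiniteMeasure_withDensity_ofReal hi.hasFiniteIntegral
  apply Measure.ext_of_charFun
  ext t
  rw [charFun_stdGaussian, charFun_apply, integral_withDensity_eq_integral_toReal_smul
    (by fun_prop) (Eventually.of_forall fun _ => ENNReal.ofReal_lt_top)]
  have h1 : ∀ x : E n,
      (ENNReal.ofReal ((2 * π) ^ (-(n : ℝ) / 2) * Real.exp (-‖x‖ ^ 2 / 2))).toReal •
        Complex.exp ((⟪x, t⟫ : ℝ) * Complex.I) =
      (((2 * π) ^ (-(n : ℝ) / 2) : ℝ) : ℂ) *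
        Complex.exp (-((1 / 2 : ℝ) : ℂ) * ‖x‖ ^ 2 + Complex.I * (⟪t, x⟫ : ℝ)) := fun x => by
    rw [ENNReal.toReal_ofReal (by positivity), Complex.real_smul, Complex.exp_add, real_inner_comm]
    push_cast
    ring_nf
  simp_rw [h1]
  rw [integral_const_mul, GaussianFourier.integral_cexp_neg_mul_sq_norm_add hb, ← mul_assoc]
  have h2 : ((π : ℂ) / ((1 / 2 : ℝ) : ℂ)) ^ ((Module.finrank ℝ (E n) : ℂ) / 2) =
      (((2 * π) ^ ((n : ℝ) / 2) : ℝ) : ℂ) := by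
    rw [Complex.ofReal_cpow (by positivity), finrank_euclideanSpace_fin]
    push_cast
    congr 1
    ring
  rw [h2, ← Complex.ofReal_mul, ← Real.rpow_add (by positivity),
    show -(n : ℝ) / 2 + n / 2 = 0 by ring, Real.rpow_zero, Complex.ofReal_one, one_mul, Complex.I_sq]
  congr 1
  push_cast
  ring

/-- density of the shifted Gaussian -/
noncomputable def ex (v z : E n) : ℝ := Real.exp (⟪z, v⟫ - ‖v‖ ^ 2 / 2)

lemma shift (F : E n → ℝ) (v : E n) : ∫ z, F (z + v) ∂γ n = ∫ z, F z * ex v z ∂γ n := by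
  rw [← density_std, integral_withDensity_eq_integral_toReal_smul
    (by fun_prop) (Eventually.of_forall fun _ => ENNReal.ofReal_lt_top),
    integral_withDensity_eq_integral_toReal_smul
    (by fun_prop) (Eventually.of_forall fun _ => ENNReal.ofReal_lt_top),
    ← integral_add_right_eq_self (fun z : E n => (ENNReal.ofReal ((2 * π) ^ (-(n : ℝ) / 2) *
      Real.exp (-‖z‖ ^ 2 / 2))).toReal • (F z * ex v z)) v]
  refine integral_congr_ae (Eventually.of_forall fun z => ?_)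
  simp only [smul_eq_mul, ex]
  rw [ENNReal.toReal_ofReal (by positivity), ENNReal.toReal_ofReal (by positivity)]
  have : Real.exp (-‖z‖ ^ 2 / 2)
      = Real.exp (-‖z + v‖ ^ 2 / 2) * Real.exp (⟪z + v, v⟫ - ‖v‖ ^ 2 / 2) := by
    rw [← Real.exp_add, norm_add_sq_real, inner_add_left, real_inner_self_eq_norm_sq]
    congr 1
    ring
  rw [this]
  ring

lemma int_exp (a : ℝ) : Integrable (fun z : E n => Real.exp (a * ‖z‖)) (γ n) := by
  obtain ⟨C, hC, h⟩ := IsGaussian.exists_integrable_exp_sq (γ n)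
  refine (h.const_mul (Real.exp (a ^ 2 / (4 * C)))).mono' (by fun_prop)
    (Eventually.of_forall fun z => ?_)
  rw [Real.norm_eq_abs, abs_of_pos (Real.exp_pos _), ← Real.exp_add, Real.exp_le_exp]
  have : a * ‖z‖ * (4 * C) ≤ a ^ 2 + C * ‖z‖ ^ 2 * (4 * C) := by
    nlinarith [sq_nonneg (a - 2 * C * ‖z‖)]
  rw [← sub_le_iff_le_add, le_div_iff₀ (by positivity)]
  linarith

/-- the dominating function -/
noncomputable def Xi (z : E n) : ℝ := Real.exp (2 * ‖z‖ + 1)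

lemma exp_le_Xi {z : E n} {t : ℝ} (h : t ≤ 2 * ‖z‖ + 1) : Real.exp t ≤ Xi z :=
  Real.exp_le_exp.2 h

lemma one_le_Xi (z : E n) : 1 ≤ Xi z := Real.one_le_exp (by positivity)

lemma lin_le_Xi (z : E n) : 1 + ‖z‖ ≤ Xi z := by
  have := Real.add_one_le_exp (2 * ‖z‖ + 1)
  have := norm_nonneg z
  unfold Xi; linarith

lemma sq_le_Xi (z : E n) : ‖z‖ ^ 2 ≤ Xi z := by
  have h := Real.add_one_le_exp ‖z‖
  have h2 : Real.exp ‖z‖ ^ 2 ≤ Xi z := by
    rw [← Real.exp_nat_mul]; exact exp_le_Xi (by push_cast; linarith)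
  exact (pow_le_pow_left₀ (norm_nonneg z) (by linarith) 2).trans h2

@[fun_prop] lemma continuous_Xi : Continuous (Xi : E n → ℝ) := by unfold Xi; fun_prop

lemma int_Xi (k : ℕ) : Integrable (fun z : E n => Xi z ^ k) (γ n) := by
  refine ((int_exp (2 * k)).const_mul (Real.exp k)).congr (Eventually.of_forall fun z => ?_)
  simp only [Xi]
  rw [← Real.exp_nat_mul, ← Real.exp_add]
  congr 1
  ring

/-- the universal constant -/
noncomputable def Ic (n : ℕ) : ℝ := ∫ z, Xi z ^ 7 ∂γ n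

lemma one_le_Ic : 1 ≤ Ic n := by
  have := integral_mono (integrable_const (μ := γ n) (1 : ℝ)) (int_Xi 7)
    fun z => one_le_pow₀ (one_le_Xi z)
  simpa [Ic] using this

lemma abs_int_le {F : E n → ℝ} {B : ℝ} {k : ℕ} (hB : 0 ≤ B) (hk : k ≤ 7)
    (h : ∀ z, |F z| ≤ B * Xi z ^ k) : |∫ z, F z ∂γ n| ≤ B * Ic n := by
  rw [Ic, ← integral_const_mul, ← Real.norm_eq_abs]
  refine norm_integral_le_of_norm_le ((int_Xi 7).const_mul B) (Eventually.of_forall fun z => ?_)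
  exact (h z).trans (mul_le_mul_of_nonneg_left (pow_le_pow_right₀ (one_le_Xi z) hk) hB)

lemma int_of_le {F : E n → ℝ} {B : ℝ} {k : ℕ} (hF : Continuous F)
    (h : ∀ z, |F z| ≤ B * Xi z ^ k) : Integrable F (γ n) :=
  ((int_Xi k).const_mul B).mono' hF.aestronglyMeasurable (Eventually.of_forall h)

lemma abs_exp_sub_one_le (a : ℝ) : |Real.exp a - 1| ≤ |a| * Real.exp |a| := by
  rcases le_total 0 a with h | h
  · rw [abs_of_nonneg h, abs_of_nonneg (by linarith [Real.one_le_exp h])]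
    have := Real.add_one_le_exp (-a)
    have h2 : Real.exp (-a) * Real.exp a = 1 := by rw [← Real.exp_add]; simp
    nlinarith [Real.exp_pos a]
  · rw [abs_of_nonpos h, abs_of_nonpos (by linarith [Real.exp_le_one_iff.2 h])]
    have := Real.add_one_le_exp a
    nlinarith [Real.one_le_exp (neg_nonneg.2 h)]

lemma ex_pos (v z : E n) : 0 < ex v z := Real.exp_pos _

@[fun_prop] lemma continuous_ex (v : E n) : Continuous (ex v) := by unfold ex; fun_prop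

lemma ex_le {v : E n} (hv : ‖v‖ ≤ 1) (z : E n) : |ex v z| ≤ Xi z := by
  rw [abs_of_pos (ex_pos v z)]
  refine exp_le_Xi ?_
  have := real_inner_le_norm z v
  nlinarith [norm_nonneg z, norm_nonneg v]

lemma ex_sub_one {v : E n} (hv : ‖v‖ ≤ 1) (z : E n) : |ex v z - 1| ≤ ‖v‖ * Xi z := by
  refine (abs_exp_sub_one_le _).trans ?_
  have h1 := abs_real_inner_le_norm z v
  have hz := norm_nonneg z
  have hv0 := norm_nonneg v
  have h2 : |⟪z, v⟫ - ‖v‖ ^ 2 / 2| ≤ ‖v‖ * (‖z‖ + 1) := by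
    refine (abs_sub _ _).trans ?_
    rw [abs_of_nonneg (by positivity : 0 ≤ ‖v‖ ^ 2 / 2)]
    nlinarith
  have h3 : Real.exp |⟪z, v⟫ - ‖v‖ ^ 2 / 2| ≤ Real.exp (‖z‖ + 1) :=
    Real.exp_le_exp.2 (h2.trans (by nlinarith))
  have h4 : Xi z = Real.exp ‖z‖ * Real.exp (‖z‖ + 1) := by
    rw [← Real.exp_add, Xi]; congr 1; ring
  calc _ ≤ ‖v‖ * (‖z‖ + 1) * Real.exp (‖z‖ + 1) := by gcongr
    _ ≤ ‖v‖ * Real.exp ‖z‖ * Real.exp (‖z‖ + 1) := by gcongr; exact Real.add_one_le_exp _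
    _ = _ := by rw [h4]; ring

lemma ex_add (v u z : E n) : ex (v + u) z = ex v z * ex u z * (1 + (Real.exp (-⟪v, u⟫) - 1)) := by
  simp only [ex, add_sub_cancel]
  rw [← Real.exp_add, ← Real.exp_add, norm_add_sq_real, inner_add_right]
  congr 1
  ring

lemma cross_le {v u : E n} (hv : ‖v‖ ≤ 1) (hu : ‖u‖ ≤ 1) (z : E n) :
    |Real.exp (-⟪v, u⟫) - 1| ≤ ‖v‖ * ‖u‖ * Xi z := by
  refine (abs_exp_sub_one_le _).trans ?_
  rw [abs_neg]
  have h1 := abs_real_inner_le_norm v u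
  have h2 : ‖v‖ * ‖u‖ ≤ 1 := mul_le_one₀ hv (norm_nonneg _) hu
  exact mul_le_mul h1 (exp_le_Xi (by linarith [norm_nonneg z])) (Real.exp_pos _).le (by positivity)

lemma amul {a b A B : ℝ} (ha : |a| ≤ A) (hb : |b| ≤ B) : |a * b| ≤ A * B := by
  rw [abs_mul]; exact mul_le_mul ha hb (abs_nonneg _) ((abs_nonneg _).trans ha)

lemma aadd {a b A B : ℝ} (ha : |a| ≤ A) (hb : |b| ≤ B) : |a + b| ≤ A + B :=
  (abs_add_le _ _).trans (add_le_add ha hb)

lemma k2_le {v u : E n} (hv : ‖v‖ ≤ 1) (hu : ‖u‖ ≤ 1) (z : E n) :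
    |ex (v + u) z - ex v z - ex u z + 1| ≤ 2 * (‖v‖ * ‖u‖) * Xi z ^ 3 := by
  have h := aadd (amul (ex_sub_one hv z) (ex_sub_one hu z))
    (amul (amul (ex_le hv z) (ex_le hu z)) (cross_le hv hu z))
  rw [ex_add]
  refine le_trans (le_of_eq (congrArg _ (by ring))) (h.trans ?_)
  have := one_le_Xi z
  have h2 : Xi z ^ 2 ≤ Xi z ^ 3 := pow_le_pow_right₀ this (by omega)
  have h3 := mul_le_mul_of_nonneg_left h2 (mul_nonneg (norm_nonneg v) (norm_nonneg u))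
  nlinarith

lemma k3_le {v u t : E n} (hv : ‖v‖ ≤ 1) (hu : ‖u‖ ≤ 1) (ht : ‖t‖ ≤ 1) (z : E n) :
    |(ex (t + v + u) z - ex (t + v) z - ex (t + u) z + ex t z)
      - (ex (v + u) z - ex v z - ex u z + 1)| ≤ 8 * (‖v‖ * ‖u‖ * ‖t‖) * Xi z ^ 6 := by
  have e : ex (t + v + u) z = ex t z * ex v z * ex u z * ((1 + (Real.exp (-⟪t, v⟫) - 1)) *
      (1 + (Real.exp (-⟪t, u⟫) - 1)) * (1 + (Real.exp (-⟪v, u⟫) - 1))) := by
    rw [ex_add (t + v), ex_add t v, inner_add_left, neg_add, Real.exp_add]; ring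
  rw [e, ex_add t v, ex_add t u, ex_add v u]
  have a := ex_le hv z
  have b := ex_le hu z
  have c := ex_le ht z
  have a' := ex_sub_one hv z
  have b' := ex_sub_one hu z
  have c' := ex_sub_one ht z
  have p := cross_le ht hv z
  have q := cross_le ht hu z
  have r := cross_le hv hu z
  have abc := amul (amul a b) c
  have h := aadd (aadd (aadd (amul (amul a' b') c') (amul (amul (amul a b) r) c'))
    (aadd (amul (amul (amul a c) p) b') (amul (amul (amul b c) q) a')))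
    (amul abc (aadd (aadd (amul p q) (amul p r)) (aadd (amul q r) (amul (amul p q) r))))
  refine le_trans (le_of_eq (congrArg _ (by ring))) (h.trans ?_)
  have hX := one_le_Xi z
  set X := Xi z
  have hv0 := norm_nonneg v
  have hu0 := norm_nonneg u
  have ht0 := norm_nonneg t
  set P := ‖v‖ * ‖u‖ * ‖t‖ with hP
  have hP0 : 0 ≤ P := by positivity
  have hP1 : P ≤ 1 := mul_le_one₀ (mul_le_one₀ hv hu0 hu) ht0 ht
  have h3 : P * X ^ 3 ≤ P * X ^ 6 := by gcongr; omega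
  have h4 : P * X ^ 4 ≤ P * X ^ 6 := by gcongr; omega
  have h5 : ∀ s, 0 ≤ s → s ≤ 1 → s * (P * X ^ 5) ≤ P * X ^ 6 := fun s _ h1 =>
    (mul_le_of_le_one_left (by positivity) h1).trans (by gcongr; omega)
  have h6 := h5 _ hv0 hv
  have h7 := h5 _ hu0 hu
  have h8 := h5 _ ht0 ht
  have h9 : P * (P * X ^ 6) ≤ P * X ^ 6 := mul_le_of_le_one_left (by positivity) hP1
  calc _ = P * X ^ 3 + 3 * (P * X ^ 4) + (‖t‖ * (P * X ^ 5) + ‖v‖ * (P * X ^ 5)
        + ‖u‖ * (P * X ^ 5) + P * (P * X ^ 6)) := by rw [hP]; ring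
    _ ≤ _ := by linarith

/-- square root as an operator -/
noncomputable def sq (S : Mat n) : E n →L[ℝ] E n := toEuclideanCLM (𝕜 := ℝ) (CFC.sqrt S)

lemma sq_norm {S : Mat n} (hS : S.PosSemidef) (z : E n) :
    ‖sq S z‖ ^ 2 = z.ofLp ⬝ᵥ S *ᵥ z.ofLp := by
  have h := (CFC.sqrt_nonneg S).posSemidef.isHermitian
  rw [← real_inner_self_eq_norm_sq, sq, inner_toEuclideanCLM, ofLp_toEuclideanCLM,
    dotProduct_comm, dotProduct_mulVec, ← mulVec_transpose, mulVec_mulVec,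
    show (CFC.sqrt S)ᵀ = CFC.sqrt S from by simpa using h.eq, CFC.sqrt_mul_sqrt_self _ hS.nonneg,
    dotProduct_comm]

lemma dot_self (z : E n) : z.ofLp ⬝ᵥ z.ofLp = ‖z‖ ^ 2 := by
  rw [EuclideanSpace.real_norm_sq_eq]; simp [dotProduct, _root_.sq]

lemma sq_le {S : Mat n} (hS : S.PosSemidef) {a : ℝ} (ha : 0 ≤ a)
    (h : ∀ v : Fin n → ℝ, v ⬝ᵥ S *ᵥ v ≤ a ^ 2 * (v ⬝ᵥ v)) (z : E n) : ‖sq S z‖ ≤ a * ‖z‖ := by
  refine (sq_le_sq₀ (norm_nonneg _) (by positivity)).1 ?_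
  rw [sq_norm hS, mul_pow, ← dot_self]; exact h _

lemma sq_surj {S : Mat n} (hS : S.PosSemidef) {m : ℝ} (hm : 0 < m)
    (h : ∀ v : Fin n → ℝ, m ^ 2 * (v ⬝ᵥ v) ≤ v ⬝ᵥ S *ᵥ v) (y : E n) :
    ∃ v, sq S v = y ∧ ‖v‖ ≤ ‖y‖ / m := by
  have hl : ∀ v, m * ‖v‖ ≤ ‖sq S v‖ := fun v => by
    refine (sq_le_sq₀ (by positivity) (norm_nonneg _)).1 ?_
    rw [sq_norm hS, mul_pow, ← dot_self]; exact h _
  have hi : Function.Injective (sq S).toLinearMap := by
    rw [← LinearMap.ker_eq_bot, LinearMap.ker_eq_bot']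
    intro v hv
    have := hl v
    rw [show sq S v = 0 from hv, norm_zero] at this
    exact norm_le_zero_iff.1 (by nlinarith [norm_nonneg v])
  obtain ⟨v, hv⟩ := LinearMap.injective_iff_surjective.1 hi y
  refine ⟨v, hv, ?_⟩
  rw [le_div_iff₀ hm, mul_comm, ← show sq S v = y from hv]
  exact hl v

/-- Gaussian average of `F` at `(x + G) / s`, `G` of covariance `S` -/
noncomputable def Ps (F : E n → ℝ) (S : Mat n) (s : ℝ) (x : E n) : ℝ :=
  ∫ z, F (s⁻¹ • (x + sq S z)) ∂γ n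

lemma PG.bound {F : E n → ℝ} (h : PG F) : ∃ (C : ℝ) (k : ℕ), 0 ≤ C ∧
    ∀ (p y z : E n) (a b : ℝ), 0 ≤ a → ‖p‖ ≤ b → ‖y‖ ≤ a * ‖z‖ →
      |F (p + y)| ≤ C * (1 + b + a) ^ k * Xi z ^ k := by
  obtain ⟨C, k, h⟩ := h
  have hC : 0 ≤ C := by simpa using (abs_nonneg _).trans (h 0)
  refine ⟨C, k, hC, fun p y z a b ha hb hy => (h _).trans ?_⟩
  rw [mul_assoc, ← mul_pow]
  gcongr
  have := norm_add_le p y
  have := lin_le_Xi z
  have := norm_nonneg z
  have := (norm_nonneg p).trans hb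
  nlinarith

lemma int_aff {F : E n → ℝ} (hF : Continuous F) (h : PG F) (p : E n) (L : E n →L[ℝ] E n)
    {K : E n → ℝ} (hK : Continuous K) {B : ℝ} {j : ℕ} (hB : ∀ z, |K z| ≤ B * Xi z ^ j) :
    Integrable (fun z => F (p + L z) * K z) (γ n) := by
  obtain ⟨C, k, -, h⟩ := h.bound
  refine int_of_le (B := C * (1 + ‖p‖ + ‖L‖) ^ k * B) (k := k + j) (by fun_prop) fun z => ?_
  refine (amul (h p _ z _ _ (norm_nonneg L) le_rfl (L.le_opNorm z)) (hB z)).trans (le_of_eq ?_)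
  ring

lemma ex_le' (v z : E n) : |ex v z| ≤ 1 * Xi z ^ ⌈‖v‖⌉₊ := by
  rw [abs_of_pos (ex_pos v z), one_mul, Xi, ← Real.exp_nat_mul, ex, Real.exp_le_exp]
  have := real_inner_le_norm z v
  have h := Nat.le_ceil ‖v‖
  have := norm_nonneg z
  have := norm_nonneg v
  nlinarith [mul_le_mul_of_nonneg_left h (norm_nonneg z)]

lemma int_Ps {F : E n → ℝ} (hF : Continuous F) (h : PG F) (S : Mat n) (s : ℝ) (x v : E n) :
    Integrable (fun z => F (s⁻¹ • (x + sq S z)) * ex v z) (γ n) := by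
  simpa [smul_add] using int_aff hF h (s⁻¹ • x) (s⁻¹ • sq S) (continuous_ex v) (ex_le' v)

lemma int_Ps' {F : E n → ℝ} (hF : Continuous F) (h : PG F) (S : Mat n) (s : ℝ) (x : E n) :
    Integrable (fun z => F (s⁻¹ • (x + sq S z))) (γ n) := by
  simpa [ex] using int_Ps hF h S s x 0

lemma Ps_shift (F : E n → ℝ) (S : Mat n) (s : ℝ) (x v : E n) :
    Ps F S s (x + sq S v) = ∫ z, F (s⁻¹ • (x + sq S z)) * ex v z ∂γ n := by
  rw [← shift (fun z => F (s⁻¹ • (x + sq S z))) v, Ps]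
  congr 1
  ext z
  rw [map_add, add_assoc, add_comm (sq S v)]

lemma Ps_add {F G : E n → ℝ} (hF : Continuous F) (h : PG F) (hG : Continuous G) (h' : PG G)
    (S : Mat n) (s : ℝ) (x : E n) : Ps (fun y => F y + G y) S s x = Ps F S s x + Ps G S s x :=
  integral_add (int_Ps' hF h S s x) (int_Ps' hG h' S s x)

lemma Ps_const (c : ℝ) (S : Mat n) (s : ℝ) (x : E n) : Ps (fun _ => c) S s x = c := by simp [Ps]

lemma Ps_sub_const {F : E n → ℝ} (hF : Continuous F) (h : PG F) (c : ℝ) (S : Mat n) (s : ℝ) :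
    Ps F S s = fun x => Ps (fun y => F y - c) S s x + c := by
  ext x
  rw [Ps, Ps, integral_sub (int_Ps' hF h S s x) (integrable_const c)]
  simp

lemma md_mono {a b : ℝ} (ha : 0 ≤ a) (h : a ≤ b) : md a ≤ md b := by unfold md; gcongr

lemma md_mul_le {a : ℝ} (z : E n) : md (a * ‖z‖) ≤ md a * Xi z := by
  unfold md
  rw [Real.sqrt_mul' _ (norm_nonneg z), mul_pow, add_mul]
  have h1 : √‖z‖ ≤ Xi z := by
    refine le_trans ?_ (lin_le_Xi z)
    rw [Real.sqrt_le_left (by positivity)]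
    nlinarith [norm_nonneg z]
  have := sq_le_Xi z
  gcongr

section kernels

variable {F : E n → ℝ} {S : Mat n} {s m a Q c0 : ℝ} {x y y' d : E n}

lemma loc_bound (hS : S.PosSemidef) (ha : 0 ≤ a) (hs : 0 < s) (hQ : 0 ≤ Q)
    (hu : ∀ v : Fin n → ℝ, v ⬝ᵥ S *ᵥ v ≤ a ^ 2 * (v ⬝ᵥ v))
    (h : ∀ h, |F (s⁻¹ • x + h) - c0| ≤ Q * md ‖h‖) (z : E n) :
    |F (s⁻¹ • (x + sq S z)) - c0| ≤ Q * md (a / s) * Xi z := by
  rw [smul_add]
  refine (h _).trans ?_
  rw [mul_assoc]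
  refine mul_le_mul_of_nonneg_left ((md_mono (norm_nonneg _) ?_).trans (md_mul_le z)) hQ
  rw [norm_smul, Real.norm_eq_abs, abs_of_pos (inv_pos.2 hs), div_eq_inv_mul, mul_assoc]
  exact mul_le_mul_of_nonneg_left (sq_le hS ha hu z) (inv_pos.2 hs).le

lemma kern1 (hF : Continuous F) (hS : S.PosSemidef) (hm : 0 < m)
    (hl : ∀ v : Fin n → ℝ, m ^ 2 * (v ⬝ᵥ v) ≤ v ⬝ᵥ S *ᵥ v) (h : ∀ y, |F y| ≤ Q) (hd : ‖d‖ ≤ m) :
    |Ps F S s (x + d) - Ps F S s x| ≤ Ic n * Q * (‖d‖ / m) := by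
  obtain ⟨v, rfl, hv⟩ := sq_surj hS hm hl d
  have hv1 : ‖v‖ ≤ 1 := hv.trans ((div_le_one hm).2 hd)
  have hQ : 0 ≤ Q := (abs_nonneg _).trans (h 0)
  rw [Ps_shift, Ps, ← integral_sub (int_Ps hF (PG.of_bdd h) S s x v) (int_Ps' hF (PG.of_bdd h) S s x)]
  refine (abs_int_le (B := Q * ‖v‖) (k := 1) (by positivity) (by omega) fun z => ?_).trans ?_
  · refine le_trans (le_of_eq (congrArg _ (by ring)))
      ((amul (h (s⁻¹ • (x + sq S z))) (ex_sub_one hv1 z)).trans (le_of_eq (by ring)))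
  · have := one_le_Ic (n := n)
    calc _ = Ic n * Q * ‖v‖ := by ring
      _ ≤ _ := by gcongr

lemma kern2 (hF : Continuous F) (hp : PG F) (hS : S.PosSemidef) (hm : 0 < m) (ha : 0 ≤ a)
    (hs : 0 < s) (hQ : 0 ≤ Q) (hl : ∀ v : Fin n → ℝ, m ^ 2 * (v ⬝ᵥ v) ≤ v ⬝ᵥ S *ᵥ v)
    (hu : ∀ v : Fin n → ℝ, v ⬝ᵥ S *ᵥ v ≤ a ^ 2 * (v ⬝ᵥ v))
    (h : ∀ h, |F (s⁻¹ • x + h) - c0| ≤ Q * md ‖h‖) (hy : ‖y‖ ≤ m) (hy' : ‖y'‖ ≤ m) :
    |d2 (Ps F S s) x y y'| ≤ 2 * Ic n * Q * md (a / s) * (‖y‖ / m * (‖y'‖ / m)) := by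
  obtain ⟨v, rfl, hv⟩ := sq_surj hS hm hl y
  obtain ⟨u, rfl, hu'⟩ := sq_surj hS hm hl y'
  have hv1 : ‖v‖ ≤ 1 := hv.trans ((div_le_one hm).2 hy)
  have hu1 : ‖u‖ ≤ 1 := hu'.trans ((div_le_one hm).2 hy')
  have hG : Continuous fun y => F y - c0 := by fun_prop
  have hpG : PG fun y => F y - c0 := by simpa [sub_eq_add_neg] using hp.add (PG.const (-c0))
  have I := int_Ps hG hpG S s x
  have e : d2 (Ps F S s) x (sq S v) (sq S u) = ∫ z, (F (s⁻¹ • (x + sq S z)) - c0) *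
      (ex (v + u) z - ex v z - ex u z + 1) ∂γ n := by
    rw [Ps_sub_const hF hp c0]
    simp only [d2, mul_add, mul_sub, mul_one]
    rw [add_assoc x, ← map_add, Ps_shift, Ps_shift, Ps_shift, integral_add, integral_sub,
      integral_sub, Ps]
    · ring
    exacts [I _, I _, (I _).sub (I _), I _, ((I _).sub (I _)).sub (I _), int_Ps' hG hpG S s x]
  have hmd := md_nonneg (a / s)
  rw [e]
  refine (abs_int_le (B := Q * md (a / s) * (2 * (‖v‖ * ‖u‖))) (k := 4) (by positivity) (by omega)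
    fun z => ?_).trans ?_
  · exact (amul (loc_bound hS ha hs hQ hu h z) (k2_le hv1 hu1 z)).trans (le_of_eq (by ring))
  · have := one_le_Ic (n := n)
    calc _ = 2 * Ic n * Q * md (a / s) * (‖v‖ * ‖u‖) := by ring
      _ ≤ _ := by gcongr

lemma kern3 (hF : Continuous F) (hp : PG F) (hS : S.PosSemidef) (hm : 0 < m) (ha : 0 ≤ a)
    (hs : 0 < s) (hQ : 0 ≤ Q) (hl : ∀ v : Fin n → ℝ, m ^ 2 * (v ⬝ᵥ v) ≤ v ⬝ᵥ S *ᵥ v)
    (hu : ∀ v : Fin n → ℝ, v ⬝ᵥ S *ᵥ v ≤ a ^ 2 * (v ⬝ᵥ v))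
    (h : ∀ h, |F (s⁻¹ • x + h) - c0| ≤ Q * md ‖h‖) (hy : ‖y‖ ≤ m) (hy' : ‖y'‖ ≤ m)
    (hd : ‖d‖ ≤ m) : |d2 (Ps F S s) (x + d) y y' - d2 (Ps F S s) x y y'|
      ≤ 8 * Ic n * Q * md (a / s) * (‖y‖ / m * (‖y'‖ / m) * (‖d‖ / m)) := by
  obtain ⟨v, rfl, hv⟩ := sq_surj hS hm hl y
  obtain ⟨u, rfl, hu'⟩ := sq_surj hS hm hl y'
  obtain ⟨t, rfl, ht⟩ := sq_surj hS hm hl d
  have hv1 : ‖v‖ ≤ 1 := hv.trans ((div_le_one hm).2 hy)
  have hu1 : ‖u‖ ≤ 1 := hu'.trans ((div_le_one hm).2 hy')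
  have ht1 : ‖t‖ ≤ 1 := ht.trans ((div_le_one hm).2 hd)
  have hG : Continuous fun y => F y - c0 := by fun_prop
  have hpG : PG fun y => F y - c0 := by simpa [sub_eq_add_neg] using hp.add (PG.const (-c0))
  have I := int_Ps hG hpG S s x
  have I0 := int_Ps' hG hpG S s x
  have e : d2 (Ps F S s) (x + sq S t) (sq S v) (sq S u) - d2 (Ps F S s) x (sq S v) (sq S u)
      = ∫ z, (F (s⁻¹ • (x + sq S z)) - c0) * ((ex (t + v + u) z - ex (t + v) z - ex (t + u) z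
        + ex t z) - (ex (v + u) z - ex v z - ex u z + 1)) ∂γ n := by
    rw [Ps_sub_const hF hp c0]
    simp only [d2, mul_add, mul_sub, mul_one, add_assoc x, ← map_add, Ps_shift]
    rw [integral_sub, integral_add, integral_sub, integral_sub, integral_add, integral_sub,
      integral_sub, Ps]
    · ring
    exacts [I _, I _, (I _).sub (I _), I _, ((I _).sub (I _)).sub (I _), I0, I _, I _,
      (I _).sub (I _), I _, ((I _).sub (I _)).sub (I _), I _,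
      (((I _).sub (I _)).sub (I _)).add (I _), (((I _).sub (I _)).sub (I _)).add I0]
  have hmd := md_nonneg (a / s)
  rw [e]
  refine (abs_int_le (B := Q * md (a / s) * (8 * (‖v‖ * ‖u‖ * ‖t‖))) (k := 7) (by positivity)
    (by omega) fun z => ?_).trans ?_
  · exact (amul (loc_bound hS ha hs hQ hu h z) (k3_le hv1 hu1 ht1 z)).trans (le_of_eq (by ring))
  · have := one_le_Ic (n := n)
    calc _ = 8 * Ic n * Q * md (a / s) * (‖v‖ * ‖u‖ * ‖t‖) := by ring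
      _ ≤ _ := by gcongr

lemma Ps_d2 (hF : Continuous F) (hp : PG F) (S : Mat n) (s : ℝ) (x y y' : E n) :
    d2 (Ps F S s) x y y' = Ps (fun ξ => d2 F ξ (s⁻¹ • y) (s⁻¹ • y')) S s x := by
  have I := int_Ps' hF hp S s
  have e : ∀ t z, s⁻¹ • (x + sq S z) + s⁻¹ • t = s⁻¹ • (x + t + sq S z) := fun t z => by module
  have e2 : ∀ z, s⁻¹ • (x + y + sq S z) + s⁻¹ • y' = s⁻¹ • (x + y + y' + sq S z) := fun z => by
    module
  simp only [d2, Ps, e, e2]
  rw [integral_add, integral_sub, integral_sub]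
  exacts [I _, I _, (I _).sub (I _), I _, ((I _).sub (I _)).sub (I _), I _]

lemma Ps_abs_le (h : ∀ y, |F y| ≤ Q) (S : Mat n) (s : ℝ) (x : E n) : |Ps F S s x| ≤ Q := by
  have := norm_integral_le_of_norm_le_const (μ := γ n)
    (f := fun z => F (s⁻¹ • (x + sq S z))) (C := Q) (Eventually.of_forall fun z => h _)
  simpa [Ps] using this

end kernels

end Vale.Agent.P227
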