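import Vale.Agent.P227.LogDet
import Vale.Agent.P227.Alg

/-! Regularity classes, the ring of smooth functions, the maximum principle and a barrier. -/

namespace Vale.Agent.P227

open Matrix MeasureTheory Filter Topology

variable {n k : ℕ} {f g w : E n → ℝ}

theorem Hk.hn (h : Hk k f) : ∃ N, Hn f N := by
  cases k with
  | zero => exact h
  | succ k => exact h.1

theorem Hk.of_succ (h : Hk (k + 1) f) : Hk k f := by
  induction k generalizing f with
  | zero => exact h.1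
  | succ k ih => exact ⟨h.1, h.2.1, fun i => ih (h.2.2 i)⟩

theorem Hk.add (hf : Hk k f) (hg : Hk k g) : Hk k fun x => f x + g x := by
  have h0 : ∀ {k : ℕ} {f g : E n → ℝ}, Hk k f → Hk k g → ∃ N, Hn (fun x => f x + g x) N :=
    fun hf hg => by
      obtain ⟨a, ha⟩ := hf.hn
      obtain ⟨b, hb⟩ := hg.hn
      exact ⟨_, ha.add hb⟩
  induction k generalizing f g with
  | zero => exact h0 hf hg
  | succ k ih =>
    refine ⟨h0 hf hg, hf.2.1.add hg.2.1, fun i => ?_⟩
    rw [pd_add hf.2.1 hg.2.1]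
    exact ih (hf.2.2 i) (hg.2.2 i)

theorem Hk.mul (hf : Hk k f) (hg : Hk k g) : Hk k fun x => f x * g x := by
  have h0 : ∀ {k : ℕ} {f g : E n → ℝ}, Hk k f → Hk k g → ∃ N, Hn (fun x => f x * g x) N :=
    fun hf hg => by
      obtain ⟨a, ha⟩ := hf.hn
      obtain ⟨b, hb⟩ := hg.hn
      exact ⟨_, ha.mul hb⟩
  induction k generalizing f g with
  | zero => exact h0 hf hg
  | succ k ih =>
    refine ⟨h0 hf hg, hf.2.1.mul hg.2.1, fun i => ?_⟩
    rw [pd_mul hf.2.1 hg.2.1]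
    exact (ih (hf.2.2 i) hg.of_succ).add (ih hf.of_succ (hg.2.2 i))

theorem Hk.const (k : ℕ) (a : ℝ) : Hk k fun _ : E n => a := by
  induction k generalizing a with
  | zero => exact ⟨_, Hn.const a⟩
  | succ k ih =>
    refine ⟨⟨_, Hn.const a⟩, differentiable_const a, fun i => ?_⟩
    rw [pd_const]
    exact ih 0

theorem Hk.const_mul (hf : Hk k f) (a : ℝ) : Hk k fun x => a * f x := (Hk.const k a).mul hf

theorem Hk.sub (hf : Hk k f) (hg : Hk k g) : Hk k fun x => f x - g x := by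
  have := hf.add (hg.const_mul (-1))
  simpa only [neg_mul, one_mul, ← sub_eq_add_neg] using this

theorem Hk.sum {ι : Type} (s : Finset ι) {F : ι → E n → ℝ} (h : ∀ i ∈ s, Hk k (F i)) :
    Hk k fun x => ∑ i ∈ s, F i x := by
  classical
  induction s using Finset.induction_on with
  | empty => simpa using Hk.const k 0
  | insert a s ha ih =>
    simp only [Finset.sum_insert ha]
    exact (h a (Finset.mem_insert_self _ _)).add
      (ih fun i hi => h i (Finset.mem_insert_of_mem hi))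

theorem exists_HM {A : E n → Mat n} (h : ∀ i j, ∃ N, Hn (fun x => A x i j) N) :
    ∃ K, 0 ≤ K ∧ HM A K := by
  choose N hN using h
  refine ⟨∑ i, ∑ j, N i j, Finset.sum_nonneg fun i _ => Finset.sum_nonneg fun j _ =>
    (hN i j).nonneg, fun i j => (hN i j).mono ?_⟩
  exact (Finset.single_le_sum (fun j _ => (hN i j).nonneg) (Finset.mem_univ j)).trans
    (Finset.single_le_sum (f := fun i => ∑ j, N i j)
      (fun i _ => Finset.sum_nonneg fun j _ => (hN i j).nonneg) (Finset.mem_univ i))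

theorem Hk.inv {G : E n → Mat n} {c : ℝ} (hG : Ell G c) (hc : 0 < c)
    (h : ∀ i j, Hk k fun x => G x i j) (i j : Fin n) : Hk k fun x => (G x)⁻¹ i j := by
  have h0 : ∀ i j, ∃ N, Hn (fun x => (G x)⁻¹ i j) N := fun i j => by
    obtain ⟨K, -, hK⟩ := exists_HM fun i j => (h i j).hn
    obtain ⟨c', K', -, -, hK'⟩ := hG.inv hc hK
    exact ⟨K', hK' i j⟩
  induction k generalizing i j with
  | zero => exact h0 i j
  | succ k ih =>
    have ih := ih fun i j => (h i j).of_succ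
    obtain ⟨hd, hp⟩ := inv_diff (hG.posDef hc) (fun i j => (h i j).2.1) i j
    refine ⟨h0 i j, hd, fun a => ?_⟩
    rw [hp a]
    have := (Hk.sum Finset.univ fun l (_ : l ∈ Finset.univ) => Hk.sum Finset.univ
      fun m (_ : m ∈ Finset.univ) => ((ih i l).mul ((h l m).2.2 a)).mul (ih m j)).const_mul (-1)
    simpa only [neg_mul, one_mul] using this

theorem Hk.mk (h : Hk k f) : Mk k f := by
  induction k generalizing f with
  | zero => trivial
  | succ k ih =>
    refine ⟨h.2.1, fun i => ⟨?_, ih (h.2.2 i)⟩⟩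
    obtain ⟨N, hN⟩ := (h.2.2 i).hn
    exact ⟨N, hN.mo⟩

theorem Mk.of_succ (h : Mk (k + 1) f) : Mk k f := by
  induction k generalizing f with
  | zero => trivial
  | succ k ih => exact ⟨h.1, fun i => ⟨(h.2 i).1, ih (h.2 i).2⟩⟩

theorem Mk.add (hf : Mk k f) (hg : Mk k g) : Mk k fun x => f x + g x := by
  induction k generalizing f g with
  | zero => trivial
  | succ k ih =>
    refine ⟨hf.1.add hg.1, fun i => ?_⟩
    rw [pd_add hf.1 hg.1]
    obtain ⟨a, ha⟩ := (hf.2 i).1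
    obtain ⟨b, hb⟩ := (hg.2 i).1
    exact ⟨⟨_, ha.add hb⟩, ih (hf.2 i).2 (hg.2 i).2⟩

theorem Mk.const_mul (hf : Mk k f) (a : ℝ) : Mk k fun x => a * f x := by
  induction k generalizing f with
  | zero => trivial
  | succ k ih =>
    refine ⟨hf.1.const_mul a, fun i => ?_⟩
    rw [pd_const_mul]
    obtain ⟨b, hb⟩ := (hf.2 i).1
    exact ⟨⟨_, hb.const_mul a⟩, ih (hf.2 i).2⟩

theorem Mk.sub (hf : Mk k f) (hg : Mk k g) : Mk k fun x => f x - g x := by
  have := hf.add (hg.const_mul (-1))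
  simpa only [neg_mul, one_mul, ← sub_eq_add_neg] using this

theorem Mk.of_pd (hf : Differentiable ℝ f) (h : ∀ k i, Hk k (pd i f)) (k : ℕ) : Mk k f := by
  cases k with
  | zero => trivial
  | succ k =>
    refine ⟨hf, fun i => ⟨?_, (h k i).mk⟩⟩
    obtain ⟨N, hN⟩ := (h k i).hn
    exact ⟨N, hN.mo⟩

theorem Mk.of_hs (hw : C2 w) (h : ∀ k i j, Hk k fun x => hs w x i j) (k : ℕ) : Mk k w := by
  cases k with
  | zero => trivial
  | succ k =>
    refine ⟨hw.1, fun i => ⟨?_, Mk.of_pd (hw.2 i) (fun k j => h k j i) k⟩⟩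
    obtain ⟨K, hK0, hK⟩ := exists_HM fun i j => (h 0 i j).hn
    exact ⟨_, Mo.of_lip (pd_lip hw (fun x i j => (hK i j).1 x) i) (by positivity)⟩

theorem Hk.sm (h : Hk k f) : Sm k f := by
  have h0 : ∀ {k : ℕ} {f : E n → ℝ}, Hk k f → Continuous f ∧ PG f := fun h => by
    obtain ⟨N, hN⟩ := h.hn
    exact ⟨hN.continuous, PG.of_bdd hN.1⟩
  induction k generalizing f with
  | zero => exact h0 h
  | succ k ih => exact ⟨h0 h, h.2.1, fun i => ih (h.2.2 i)⟩

theorem Sm.of_pd (hf : Differentiable ℝ f) (hp : PG f) (h : ∀ k i, Sm k (pd i f)) (k : ℕ) :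
    Sm k f := by
  cases k with
  | zero => exact ⟨hf.continuous, hp⟩
  | succ k => exact ⟨⟨hf.continuous, hp⟩, hf, h k⟩

theorem Sm.of_hs (hw : C2 w) (h : ∀ k i j, Hk k fun x => hs w x i j) (k : ℕ) : Sm k w := by
  obtain ⟨K, -, hK⟩ := exists_HM fun i j => (h 0 i j).hn
  obtain ⟨C, -, hC⟩ := hw.growth fun x i j => (hK i j).1 x
  refine Sm.of_pd hw.1 ⟨C, 2, fun x => (hC x).1⟩ (fun k i => ?_) k
  exact Sm.of_pd (hw.2 i) ⟨C, 1, fun x => by simpa using (hC x).2 i⟩
    (fun k j => (h k j i).sm) k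

theorem contDiff_pd (hf : ContDiff ℝ ((⊤ : ℕ∞) : WithTop ℕ∞) f) (i : Fin n) :
    ContDiff ℝ ((⊤ : ℕ∞) : WithTop ℕ∞) (pd i f) :=
  (contDiff_infty_iff_fderiv.1 hf).2.clm_apply contDiff_const

theorem c2_of_contDiff (hf : ContDiff ℝ ((⊤ : ℕ∞) : WithTop ℕ∞) f) : C2 f :=
  ⟨(contDiff_infty_iff_fderiv.1 hf).1, fun i => (contDiff_infty_iff_fderiv.1 (contDiff_pd hf i)).1⟩

theorem pd_eq_zero_far {R a : ℝ} (h : ∀ x, R ≤ ‖x‖ → g x = a) (i : Fin n) (x : E n)
    (hx : R + 1 ≤ ‖x‖) : pd i g x = 0 := by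
  have h1 : g =ᶠ[𝓝 x] fun _ => a := by
    have : ∀ᶠ y in 𝓝 x, R < ‖y‖ :=
      continuous_norm.continuousAt.eventually (lt_mem_nhds (by linarith))
    exact this.mono fun y hy => h y hy.le
  simp [pd, h1.fderiv_eq]

theorem bdd_of_far {R a : ℝ} (hg : Continuous g) (h : ∀ x, R ≤ ‖x‖ → g x = a) :
    ∃ b, 0 ≤ b ∧ ∀ x, |g x| ≤ b := by
  obtain ⟨C, hC⟩ := (isCompact_closedBall (0 : E n) R).exists_bound_of_continuousOn hg.continuousOn
  refine ⟨|C| + |a|, by positivity, fun x => ?_⟩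
  rcases le_total R ‖x‖ with hx | hx
  · rw [h x hx]
    have := abs_nonneg C
    linarith
  · have h1 : |g x| ≤ C := hC x (by simpa using hx)
    have := abs_nonneg a
    have := le_abs_self C
    linarith

theorem Hk_of_far {R a : ℝ} (hg : ContDiff ℝ ((⊤ : ℕ∞) : WithTop ℕ∞) g)
    (h : ∀ x, R ≤ ‖x‖ → g x = a) (k : ℕ) : Hk k g := by
  have h0 : ∀ {g : E n → ℝ} {R a : ℝ}, ContDiff ℝ ((⊤ : ℕ∞) : WithTop ℕ∞) g →
      (∀ x, R ≤ ‖x‖ → g x = a) → ∃ N, Hn g N := by
    intro g R a hg h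
    obtain ⟨b, -, hb⟩ := bdd_of_far hg.continuous h
    have h1 := fun i => bdd_of_far (contDiff_pd hg i).continuous (pd_eq_zero_far h i)
    choose c hc0 hc using h1
    have hs0 : 0 ≤ ∑ i, c i := Finset.sum_nonneg fun i _ => hc0 i
    refine ⟨_, Hn.of_lip hb (b := n * ∑ i, c i) (fun x y => ?_) (by positivity)⟩
    have := mvt (x := y) (y := x - y) (b := ∑ i, c i) (c2_of_contDiff hg).1 fun i ξ _ =>
      (hc i _).trans (Finset.single_le_sum (fun i _ => hc0 i) (Finset.mem_univ i))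
    simpa using this
  induction k generalizing g R a with
  | zero => exact h0 hg h
  | succ k ih =>
    exact ⟨h0 hg h, (c2_of_contDiff hg).1, fun i => ih (contDiff_pd hg i) (pd_eq_zero_far h i)⟩

theorem Good.c2 (h : Good f) : C2 f := c2_of_contDiff h.1

theorem Good.hk (h : Good f) (k : ℕ) (i j : Fin n) : Hk k fun x => hs f x i j := by
  obtain ⟨R, Q, hQ⟩ := h.2.2.2
  exact Hk_of_far (contDiff_pd (contDiff_pd h.1 j) i) (R := R) (a := Q i j)
    (fun x hx => by rw [← hQ x hx]; rfl) k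

theorem Good.add (hf : Good f) (hg : Good g) : Good fun x => f x + g x := by
  obtain ⟨R, Q, hQ⟩ := hf.2.2.2
  obtain ⟨R', Q', hQ'⟩ := hg.2.2.2
  refine ⟨hf.1.add hg.1, fun x => by simp only [hf.2.1 x, hg.2.1 x], fun x v => ?_,
    max R R', Q + Q', fun x hx => ?_⟩
  · rw [hs_add hf.c2 hg.c2]
    simp only [add_mulVec, dotProduct_add]
    exact add_nonneg (hf.2.2.1 x v) (hg.2.2.1 x v)
  · rw [hs_add hf.c2 hg.c2]
    simp only [hQ x ((le_max_left _ _).trans hx), hQ' x ((le_max_right _ _).trans hx)]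

theorem Good.const_mul (hf : Good f) {a : ℝ} (ha : 0 ≤ a) : Good fun x => a * f x := by
  obtain ⟨R, Q, hQ⟩ := hf.2.2.2
  refine ⟨contDiff_const.mul hf.1, fun x => by simp only [hf.2.1 x], fun x v => ?_,
    R, a • Q, fun x hx => ?_⟩
  · rw [hs_const_mul]
    simp only [smul_mulVec, dotProduct_smul, smul_eq_mul]
    exact mul_nonneg ha (hf.2.2.1 x v)
  · rw [hs_const_mul]
    simp only [hQ x hx]

theorem Good.sum {ι : Type} (s : Finset ι) {F : ι → E n → ℝ} (h : ∀ i ∈ s, Good (F i)) :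
    Good fun x => ∑ i ∈ s, F i x := by
  classical
  induction s using Finset.induction_on with
  | empty =>
    simp only [Finset.sum_empty]
    exact ⟨contDiff_const, fun _ => rfl, fun x v => by simp [hs_const],
      0, 0, fun x _ => by simp [hs_const]⟩
  | insert a s ha ih =>
    simp only [Finset.sum_insert ha]
    exact (h a (Finset.mem_insert_self _ _)).add
      (ih fun i hi => h i (Finset.mem_insert_of_mem hi))

theorem Good.sq : Good fun x : E n => ‖x‖ ^ 2 / 2 := by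
  refine ⟨(contDiff_norm_sq ℝ).div_const 2, fun x => by simp, fun x v => ?_,
    0, 1, fun x _ => by rw [hs_sq]⟩
  rw [hs_sq]
  simp only [one_mulVec]
  exact Finset.sum_nonneg fun i _ => mul_self_nonneg _

theorem pd_eu (hw : C2 w) (j : Fin n) :
    pd j (eu w) = fun x => pd j w x + ∑ l, x l * pd j (pd l w) x := by
  have h1 := pd_sum (i := j) Finset.univ (F := fun l (x : E n) => x l * pd l w x)
    fun l _ => (differentiable_coord l).mul (hw.2 l)
  have h2 : eu w = fun x => ∑ l, x l * pd l w x := rfl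
  rw [h2, h1]
  funext x
  simp only [fun l => pd_mul (i := j) (differentiable_coord l) (hw.2 l), pd_coord]
  simp [Finset.sum_add_distrib]

theorem contDiff_eu (hf : ContDiff ℝ ((⊤ : ℕ∞) : WithTop ℕ∞) f) :
    ContDiff ℝ ((⊤ : ℕ∞) : WithTop ℕ∞) (eu f) :=
  ContDiff.sum fun i _ => ((EuclideanSpace.proj (𝕜 := ℝ) i : E n →L[ℝ] ℝ).contDiff).mul
    (contDiff_pd hf i)

theorem Good.eu (h : Good f) : C2 (eu f) ∧ ∀ k i j, Hk k fun x => hs (eu f) x i j := by
  obtain ⟨R, Q, hQ⟩ := h.2.2.2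
  have he := contDiff_eu h.1
  refine ⟨c2_of_contDiff he, fun k i j => ?_⟩
  refine Hk_of_far (contDiff_pd (contDiff_pd he j) i) (R := R + 1) (a := Q i j + Q j i)
    (fun x hx => ?_) k
  have hd : ∀ l, Differentiable ℝ (pd j (pd l f)) := fun l =>
    (c2_of_contDiff (contDiff_pd h.1 l)).2 j
  have hd' : ∀ l ∈ Finset.univ, Differentiable ℝ fun x : E n => x l * pd j (pd l f) x :=
    fun l _ => (differentiable_coord l).mul (hd l)
  rw [pd_eu h.c2, pd_add (h.c2.2 j) (Differentiable.fun_sum hd'), pd_sum _ hd']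
  have h3 : ∀ l, pd i (pd j (pd l f)) x = 0 := fun l =>
    pd_eq_zero_far (R := R) (a := Q j l) (fun y hy => by rw [← hQ y hy]; rfl) i x hx
  simp only [fun l => pd_mul (i := i) (differentiable_coord l) (hd l), pd_coord, h3]
  rw [← hQ x (by linarith)]
  simp [hs]

theorem Good.third (h : Good f) : ∃ R B : ℝ, 0 ≤ B ∧ ∀ x i j l,
    |pd i (pd j (pd l f)) x| ≤ B ∧ (R ≤ ‖x‖ → pd i (pd j (pd l f)) x = 0) := by
  obtain ⟨R, Q, hQ⟩ := h.2.2.2
  have h3 : ∀ p : Fin n × Fin n × Fin n, ∀ x, R + 1 ≤ ‖x‖ →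
      pd p.1 (pd p.2.1 (pd p.2.2 f)) x = 0 := fun p x hx =>
    pd_eq_zero_far (R := R) (a := Q p.2.1 p.2.2) (fun y hy => by rw [← hQ y hy]; rfl) p.1 x hx
  have h1 := fun p : Fin n × Fin n × Fin n =>
    bdd_of_far (contDiff_pd (contDiff_pd (contDiff_pd h.1 p.2.2) p.2.1) p.1).continuous (h3 p)
  choose c hc0 hc using h1
  refine ⟨R + 1, ∑ p, c p, Finset.sum_nonneg fun p _ => hc0 p, fun x i j l =>
    ⟨(hc (i, j, l) x).trans ?_, h3 (i, j, l) x⟩⟩
  exact Finset.single_le_sum (fun p _ => hc0 p) (Finset.mem_univ _)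

theorem hasDerivAt_line2 (hf : C2 f) (x v : E n) (t : ℝ) :
    HasDerivAt (fun s : ℝ => ∑ j, v j * pd j f (x + s • v))
      (v.ofLp ⬝ᵥ hs f (x + t • v) *ᵥ v.ofLp) t := by
  have h1 := HasDerivAt.fun_sum (u := Finset.univ) fun j (_ : j ∈ Finset.univ) =>
    (hasDerivAt_line (hf.2 j) x v t).const_mul (v j)
  refine h1.congr_deriv ?_
  simp only [dotProduct, mulVec, hs, of_apply, Finset.mul_sum]
  rw [Finset.sum_comm]
  exact Finset.sum_congr rfl fun i _ => Finset.sum_congr rfl fun j _ => by ring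

theorem dot_self_eq (x : E n) : x.ofLp ⬝ᵥ x.ofLp = ‖x‖ ^ 2 := by
  rw [EuclideanSpace.real_norm_sq_eq]
  simp [dotProduct, sq]

theorem Good.lower (h : Good f) {c : ℝ}
    (hc : ∀ x (v : Fin n → ℝ), c * (v ⬝ᵥ v) ≤ v ⬝ᵥ hs f x *ᵥ v) (x : E n) :
    f 0 + c / 2 * ‖x‖ ^ 2 ≤ f x := by
  have h1 : ∀ t : ℝ, HasDerivAt (fun s : ℝ => f (0 + s • x) - c / 2 * ‖x‖ ^ 2 * s ^ 2)
      (∑ i, x i * pd i f (0 + t • x) - c * ‖x‖ ^ 2 * t) t := fun t =>
    ((hasDerivAt_line h.c2.1 0 x t).sub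
      ((hasDerivAt_pow 2 t).const_mul (c / 2 * ‖x‖ ^ 2))).congr_deriv (by simp; ring)
  have h2 : ∀ t : ℝ, HasDerivAt (fun s : ℝ => ∑ i, x i * pd i f (0 + s • x) - c * ‖x‖ ^ 2 * s)
      (x.ofLp ⬝ᵥ hs f (0 + t • x) *ᵥ x.ofLp - c * ‖x‖ ^ 2) t := fun t =>
    ((hasDerivAt_line2 h.c2 0 x t).sub
      ((hasDerivAt_id t).const_mul (c * ‖x‖ ^ 2))).congr_deriv (by simp)
  have h3 : Monotone fun s : ℝ => ∑ i, x i * pd i f (0 + s • x) - c * ‖x‖ ^ 2 * s :=
    monotone_of_hasDerivAt_nonneg h2 fun t => by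
      have := hc (0 + t • x) x.ofLp
      rw [dot_self_eq] at this
      simpa using this
  obtain ⟨ξ, hξ, e⟩ := exists_hasDerivAt_eq_slope _ _ zero_lt_one
    (fun t _ => (h1 t).continuousAt.continuousWithinAt) (fun t _ => h1 t)
  have h4 := h3 hξ.1.le
  simp only [zero_smul, add_zero, h.2.1.pd_zero, mul_zero, Finset.sum_const_zero, sub_zero] at h4
  rw [e] at h4
  simp only [one_smul, zero_add, one_pow, mul_one, zero_smul, add_zero, sub_zero, div_one] at h4
  simp only [ne_eq, OfNat.ofNat_ne_zero, not_false_eq_true, zero_pow, mul_zero, sub_zero] at h4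
  linarith

theorem Sm.cp (h : Sm k f) : Continuous f ∧ PG f := by
  cases k with
  | zero => exact h
  | succ k => exact h.1

theorem Sm.of_succ (h : Sm (k + 1) f) : Sm k f := by
  induction k generalizing f with
  | zero => exact h.1
  | succ k ih => exact ⟨h.1, h.2.1, fun i => ih (h.2.2 i)⟩

theorem Sm.add (hf : Sm k f) (hg : Sm k g) : Sm k fun x => f x + g x := by
  induction k generalizing f g with
  | zero => exact ⟨hf.1.add hg.1, hf.2.add hg.2⟩
  | succ k ih =>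
    refine ⟨⟨hf.1.1.add hg.1.1, hf.1.2.add hg.1.2⟩, hf.2.1.add hg.2.1, fun i => ?_⟩
    rw [pd_add hf.2.1 hg.2.1]
    exact ih (hf.2.2 i) (hg.2.2 i)

theorem Sm.mul (hf : Sm k f) (hg : Sm k g) : Sm k fun x => f x * g x := by
  induction k generalizing f g with
  | zero => exact ⟨hf.1.mul hg.1, hf.2.mul hg.2⟩
  | succ k ih =>
    refine ⟨⟨hf.1.1.mul hg.1.1, hf.1.2.mul hg.1.2⟩, hf.2.1.mul hg.2.1, fun i => ?_⟩
    rw [pd_mul hf.2.1 hg.2.1]
    exact (ih (hf.2.2 i) hg.of_succ).add (ih hf.of_succ (hg.2.2 i))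

theorem Sm.coord (k : ℕ) (j : Fin n) : Sm k fun x : E n => x j :=
  Sm.of_pd (differentiable_coord j) (PG.coord j)
    (fun k i => by rw [pd_coord]; exact (Hk.const k _).sm) k

/-- smooth functions all of whose derivatives have polynomial growth -/
def Sc (n : ℕ) : Subalgebra ℝ (E n → ℝ) where
  carrier := {f | ∀ k, Sm k f}
  mul_mem' := fun hf hg k => (hf k).mul (hg k)
  add_mem' := fun hf hg k => (hf k).add (hg k)
  algebraMap_mem' := fun r k => (Hk.const k r).sm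

theorem Sc.c2 (F : Sc n) : C2 F.1 := ⟨(F.2 2).2.1, fun i => ((F.2 2).2.2 i).2.1⟩

theorem PG.integrable {U : E n → ℝ} {c b : ℝ} (hc : 0 < c) (hU : Continuous U)
    (hl : ∀ x, b + c * ‖x‖ ^ 2 ≤ U x) (hf : Continuous f) (hp : PG f) :
    Integrable fun x => f x * Real.exp (-U x) := by
  obtain ⟨C, k, hC⟩ := hp
  have h1 : Integrable fun x : E n => Real.exp (-(c / 2) * ‖x‖ ^ 2) := by
    have := (GaussianFourier.integrable_cexp_neg_mul_sq_norm_add (V := E n)
      (b := ((c / 2 : ℝ) : ℂ)) (by simpa using hc) 0 0).norm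
    refine this.congr (ae_of_all _ fun x => ?_)
    simp only [zero_mul, add_zero, Complex.norm_exp]
    congr 1
    rw [← Complex.ofReal_pow, ← Complex.ofReal_neg, ← Complex.ofReal_mul, Complex.ofReal_re]
  refine (h1.const_mul (|C| * Real.exp (k ^ 2 / (2 * c) - b))).mono'
    (hf.mul (Real.continuous_exp.comp hU.neg)).aestronglyMeasurable (ae_of_all _ fun x => ?_)
  rw [Real.norm_eq_abs, abs_mul, abs_of_pos (Real.exp_pos _)]
  have h2 : (1 + ‖x‖) ^ k ≤ Real.exp (k * ‖x‖) := by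
    rw [Real.exp_nat_mul]
    exact pow_le_pow_left₀ (by positivity) (by linarith [Real.add_one_le_exp ‖x‖]) k
  have h3 : |f x| ≤ |C| * Real.exp (k * ‖x‖) :=
    (hC x).trans (mul_le_mul (le_abs_self C) h2 (by positivity) (abs_nonneg C))
  have h4 : k * ‖x‖ ≤ k ^ 2 / (2 * c) + c / 2 * ‖x‖ ^ 2 := by
    have : k ^ 2 / (2 * c) + c / 2 * ‖x‖ ^ 2 - k * ‖x‖ = (k - c * ‖x‖) ^ 2 / (2 * c) := by
      field_simp; ring
    have h5 : 0 ≤ (k - c * ‖x‖) ^ 2 / (2 * c) := by positivity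
    linarith
  calc |f x| * Real.exp (-U x) ≤ |C| * Real.exp (k * ‖x‖) * Real.exp (-U x) := by gcongr
    _ = |C| * Real.exp (k * ‖x‖ + -U x) := by rw [Real.exp_add, mul_assoc]
    _ ≤ |C| * Real.exp ((k ^ 2 / (2 * c) - b) + -(c / 2) * ‖x‖ ^ 2) := by
        have := hl x
        exact mul_le_mul_of_nonneg_left (Real.exp_le_exp.2 (by linarith)) (abs_nonneg C)
    _ = _ := by rw [Real.exp_add, mul_assoc]

/-- the coordinate derivations of the ring of smooth functions -/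
noncomputable def dSc (i : Fin n) : Derivation ℝ (Sc n) (Sc n) :=
  Derivation.mk'
    { toFun := fun F => ⟨pd i F.1, fun k => (F.2 (k + 1)).2.2 i⟩
      map_add' := fun F G => Subtype.ext (pd_add (Sc.c2 F).1 (Sc.c2 G).1)
      map_smul' := fun a _ => Subtype.ext (pd_const_mul a) }
    fun F G => Subtype.ext (by
      refine (pd_mul (Sc.c2 F).1 (Sc.c2 G).1).trans ?_
      funext x
      change _ = F.1 x * pd i G.1 x + G.1 x * pd i F.1 x
      ring)

theorem dSc_val (i : Fin n) (F : Sc n) : (dSc i F).1 = pd i F.1 := rfl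

/-- evaluation at a point -/
noncomputable def evSc (p : E n) : Sc n →ₐ[ℝ] ℝ :=
  (Pi.evalAlgHom ℝ (fun _ : E n => ℝ) p).comp (Sc n).val

theorem evSc_apply (p : E n) (F : Sc n) : evSc p F = F.1 p := rfl

theorem Sc_ext {F G : Sc n} (h : ∀ p, evSc p F = evSc p G) : F = G :=
  Subtype.ext (funext h)

theorem exists_setup {U ψ : E n → ℝ} {c b : ℝ} (hc : 0 < c) (hU : ∀ k, Sm k U)
    (hl : ∀ x, b + c * ‖x‖ ^ 2 ≤ U x) (hψ : Sol U ψ)
    (hreg : ∀ k i j, Hk k fun x => hs ψ x i j) :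
    ∃ S : Setup n (Sc n) (E n), (∀ i F, (S.d i F).1 = pd i F.1) ∧
      (∀ i, (S.x i).1 = fun x => x i) ∧ S.ψ.1 = ψ ∧ S.U.1 = U ∧
      (∀ i j, (S.H i j).1 = fun x => (hs ψ x)⁻¹ i j) ∧ (∀ p F, S.ev p F = F.1 p) ∧
      (∀ F, S.Ex F = ∫ x, F.1 x * Real.exp (-U x)) ∧
      ∀ F p, (S.L F).1 p = Lop (fun x => (hs ψ x)⁻¹) 0 F.1 p := by
  obtain ⟨⟨M, hX⟩, ⟨c', hc', hE⟩, b', hb'⟩ := hψ
  have hC := hX.1
  have hUd : Differentiable ℝ U := (hU 1).2.1
  have hint : ∀ F : Sc n, Integrable fun x => F.1 x * Real.exp (-U x) := fun F =>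
    PG.integrable hc hUd.continuous hl (F.2 0).1 (F.2 0).2
  let Us : Sc n := ⟨U, hU⟩
  let ψs : Sc n := ⟨ψ, Sm.of_hs hC hreg⟩
  let xs : Fin n → Sc n := fun i => ⟨fun x => x i, fun k => Sm.coord k i⟩
  let Hs : Matrix (Fin n) (Fin n) (Sc n) := Matrix.of fun i j =>
    ⟨fun x => (hs ψ x)⁻¹ i j, fun k => (Hk.inv hE hc' (hreg k) i j).sm⟩
  have hexp : ∀ i, pd i (fun x => Real.exp (-U x)) = fun x => -Real.exp (-U x) * pd i U x :=
    fun i => pd_comp (φ := fun s => Real.exp (-s)) (φ' := fun s => -Real.exp (-s)) hUd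
      fun x => by simpa using (hasDerivAt_neg (U x)).exp
  refine ⟨{ d := dSc
            comm := fun i j F => Subtype.ext (pd_comm (Sc.c2 F) i j)
            x := xs
            dx := fun i j => Subtype.ext ?_
            ψ := ψs
            U := Us
            H := Hs
            HG := ?_
            dU := fun a => Sc_ext fun p => ?_
            ev := evSc
            Hpos := fun p => (hE.posDef hc' p).inv
            Ex :=
              { toFun := fun F => ∫ x, F.1 x * Real.exp (-U x)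
                map_add' := fun F G => ?_
                map_smul' := fun a F => ?_ }
            ibp := fun i F => ?_
            pos := fun F hF => integral_nonneg fun x => mul_nonneg (hF x) (Real.exp_pos _).le },
    fun _ _ => rfl, fun _ => rfl, rfl, rfl, fun _ _ => rfl, fun _ _ => rfl, fun _ => rfl,
    fun F p => ?_⟩
  · refine pd_coord.trans ?_
    split_ifs <;> rfl
  · ext1 i j
    refine Sc_ext fun p => ?_
    have h1 : ((hs ψ p)⁻¹ * hs ψ p) i j = (1 : Mat n) i j := by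
      rw [Matrix.nonsing_inv_mul _ (hE.posDef hc' p).det_pos.ne'.isUnit]
    rw [Matrix.mul_apply] at h1 ⊢
    rw [map_sum]
    simp only [map_mul, Matrix.one_apply] at h1 ⊢
    refine h1.trans ?_
    split_ifs <;> simp
  · obtain ⟨hd, hp⟩ := logdet_diff (hE.posDef hc') fun i j => (hreg 1 i j).2.1
    have h1 : U = fun x => (eu ψ x - ψ x + b') - Real.log (hs ψ x).det := by
      funext x; rw [hb' x]; ring
    have hde : Differentiable ℝ (eu ψ) :=
      Differentiable.fun_sum fun l _ => (differentiable_coord l).mul (hC.2 l)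
    have h2 : pd a U p = ∑ l, p l * pd l (pd a ψ) p -
        ∑ i, ∑ j, (hs ψ p)⁻¹ i j * pd a (fun y => hs ψ y i j) p := by
      have hd1 : Differentiable ℝ fun x => eu ψ x - ψ x := hde.sub hC.1
      have hd2 : Differentiable ℝ fun x => eu ψ x - ψ x + b' := hd1.add_const b'
      rw [h1, pd_sub hd2 hd, pd_add hd1 (differentiable_const b'), pd_sub hde hC.1, pd_eu hC,
        pd_const, hp a]
      simp only [pd_comm hC a]
      ring
    simp only [map_sub, map_sum, map_mul]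
    exact h2
  · rw [← integral_add (hint F) (hint G)]
    exact integral_congr_ae (ae_of_all _ fun x => add_mul _ _ _)
  · rw [RingHom.id_apply, smul_eq_mul, ← integral_const_mul]
    exact integral_congr_ae (ae_of_all _ fun x => mul_assoc _ _ _)
  · have hde : Differentiable ℝ fun x => Real.exp (-U x) := hUd.neg.exp
    have h1 := integral_mul_fderiv_eq_neg_fderiv_mul_of_integrable (μ := volume) (f := F.1)
      (g := fun x => Real.exp (-U x)) (v := EuclideanSpace.single i 1) (hint (dSc i F))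
      (by
        refine (hint (dSc i Us * F)).neg.congr (ae_of_all _ fun x => ?_)
        change -(pd i U x * F.1 x * Real.exp (-U x)) = F.1 x * pd i (fun x => Real.exp (-U x)) x
        rw [hexp]
        ring)
      (hint F) (fun x _ => (Sc.c2 F).1 x) (fun x _ => hde x)
    change ∫ x, pd i F.1 x * Real.exp (-U x) = ∫ x, pd i U x * F.1 x * Real.exp (-U x)
    change ∫ x, F.1 x * pd i (fun x => Real.exp (-U x)) x = -∫ x, pd i F.1 x * Real.exp (-U x)
      at h1
    rw [hexp] at h1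
    rw [← neg_inj, ← h1, ← integral_neg]
    exact integral_congr_ae (ae_of_all _ fun x => by simp only; ring)
  · rw [← evSc_apply]
    simp only [Setup.L, Setup.eul, Setup.D2, map_sub, map_sum, map_mul, Lop, zero_mul, add_zero]
    rfl

theorem psd_contract {A T : Mat n} (hA : A.PosSemidef) (hT : ∀ v : Fin n → ℝ, v ⬝ᵥ T *ᵥ v ≤ 0) :
    ∑ i, ∑ j, A i j * T i j ≤ 0 := by
  open MatrixOrder in
  obtain ⟨B, rfl⟩ := CStarAlgebra.nonneg_iff_eq_star_mul_self.mp hA.nonneg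
  have : ∑ i, ∑ j, (star B * B) i j * T i j = ∑ l, (B l) ⬝ᵥ T *ᵥ (B l) := by
    simp only [Matrix.mul_apply, star_apply, star_trivial, dotProduct, mulVec, Finset.sum_mul,
      Finset.mul_sum]
    conv_rhs => rw [Finset.sum_comm]
    refine Finset.sum_congr rfl fun i _ => ?_
    conv_rhs => rw [Finset.sum_comm]
    exact Finset.sum_congr rfl fun j _ => Finset.sum_congr rfl fun l _ => by ring
  rw [this]
  exact Finset.sum_nonpos fun l _ => hT _

theorem second_test {φ φ' : ℝ → ℝ} {a : ℝ} (h1 : ∀ t, HasDerivAt φ (φ' t) t)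
    (h2 : HasDerivAt φ' a 0) (hm : ∀ t, φ t ≤ φ 0) : φ' 0 = 0 ∧ a ≤ 0 := by
  have h0 : φ' 0 = 0 := (IsLocalMax.hasDerivAt_eq_zero (Eventually.of_forall hm) (h1 0))
  refine ⟨h0, not_lt.1 fun ha => ?_⟩
  have h3 := (hasDerivAt_iff_tendsto_slope_zero.1 h2).mono_left
    (nhdsGT_le_nhdsNE (0 : ℝ))
  have h4 := h3.eventually (lt_mem_nhds ha)
  obtain ⟨δ, hδ, hδ'⟩ := (mem_nhdsGT_iff_exists_Ioo_subset' zero_lt_one).1 h4
  have hδ0 : 0 < δ := hδ
  obtain ⟨ξ, hξ, e⟩ := exists_hasDerivAt_eq_slope φ φ' hδ0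
    (fun t _ => (h1 t).continuousAt.continuousWithinAt) (fun t _ => h1 t)
  have h5 : 0 < ξ⁻¹ • (φ' (0 + ξ) - φ' 0) := hδ' hξ
  rw [h0, zero_add, sub_zero, smul_eq_mul, e] at h5
  have h6 : (φ δ - φ 0) / (δ - 0) ≤ 0 :=
    div_nonpos_of_nonpos_of_nonneg (sub_nonpos.2 (hm δ)) (by linarith)
  have h7 := mul_nonpos_of_nonneg_of_nonpos (inv_pos.2 hξ.1).le h6
  linarith

theorem Lop_le_at_max {A : E n → Mat n} {x : E n} (hA : (A x).PosSemidef) (hf : C2 f)
    (hm : ∀ y, f y ≤ f x) : Lop A 0 f x ≤ 0 := by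
  have key : ∀ v : E n, ∑ j, v j * pd j f x = 0 ∧ v.ofLp ⬝ᵥ hs f x *ᵥ v.ofLp ≤ 0 := fun v => by
    have := second_test (hasDerivAt_line hf.1 x v) (hasDerivAt_line2 hf x v 0)
      fun t => by simpa using hm _
    simpa using this
  have h1 := psd_contract hA (T := hs f x) fun v => (key (WithLp.toLp 2 v)).2
  have h2 : eu f x = 0 := (key x).1
  simp only [Lop, h2]
  linarith

theorem max_principle {A : E n → Mat n} {K a b B : ℝ} (hA : ∀ x, (A x).PosSemidef)
    (hK : ∀ x i j, |A x i j| ≤ K) (hf : C2 f) (hB : ∀ x, f x ≤ B) (ha : 0 < a)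
    (h : ∀ x, a * f x - b ≤ Lop A 0 f x) (x : E n) : f x ≤ b / a := by
  have key : ∀ ε : ℝ, 0 < ε → f x ≤ b / a + ε * (n * |K| / a + ‖x‖ ^ 2 / 2) := by
    intro ε hε
    have hF : C2 fun y : E n => f y - ε * (‖y‖ ^ 2 / 2) := hf.sub (C2_sq.const_mul ε)
    obtain ⟨z, hz⟩ := hF.1.continuous.exists_forall_ge (by
      have h1 : Tendsto (fun y : E n => ‖y‖ ^ 2) (cocompact (E n)) atTop :=
        (tendsto_pow_atTop two_ne_zero).comp tendsto_norm_cocompact_atTop
      have h2 : Tendsto (fun y : E n => B + (-(ε / 2)) * ‖y‖ ^ 2) (cocompact (E n)) atBot :=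
        tendsto_atBot_add_const_left _ _ (h1.const_mul_atTop_of_neg (by linarith))
      exact tendsto_atBot_mono (fun y => by have := hB y; linarith) h2)
    have h1 := Lop_le_at_max (hA z) hF hz
    rw [Lop_sub A 0 hf (C2_sq.const_mul ε), Lop_const_mul] at h1
    have h2 : Lop A 0 (fun y : E n => ‖y‖ ^ 2 / 2) z ≤ n * |K| := by
      have h3 : 0 ≤ eu (fun y : E n => ‖y‖ ^ 2 / 2) z := by
        simp only [eu, pd_sq]
        exact Finset.sum_nonneg fun i _ => mul_self_nonneg _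
      have h4 : ∑ i, A z i i ≤ n * |K| := by
        calc ∑ i, A z i i ≤ ∑ _i : Fin n, |K| := Finset.sum_le_sum fun i _ =>
              ((le_abs_self _).trans (hK z i i)).trans (le_abs_self K)
          _ = n * |K| := by simp
      simp only [Lop, hs_sq, Matrix.one_apply, mul_ite, mul_one, mul_zero, Finset.sum_ite_eq,
        Finset.mem_univ, if_true]
      linarith
    have h3 := h z
    have h4 := mul_le_mul_of_nonneg_left h2 hε.le
    have h5 : f z ≤ (b + ε * (n * |K|)) / a := by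
      rw [le_div_iff₀ ha]; linarith
    have h6 := hz x
    have h7 : 0 ≤ ε * (‖z‖ ^ 2 / 2) := by positivity
    have h8 : (b + ε * (n * |K|)) / a = b / a + ε * (n * |K| / a) := by ring
    rw [mul_add]
    linarith
  refine le_of_forall_pos_le_add fun δ hδ => ?_
  have hp : 0 ≤ n * |K| / a + ‖x‖ ^ 2 / 2 := by positivity
  refine (key (δ / (n * |K| / a + ‖x‖ ^ 2 / 2 + 1)) (by positivity)).trans ?_
  refine add_le_add_right ?_ _
  rw [div_mul_eq_mul_div, div_le_iff₀ (by positivity)]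
  nlinarith

theorem exists_barrier (K : ℝ) : ∃ β : E n → ℝ, C2 β ∧ (∀ x, 0 < β x ∧ β x ≤ 1) ∧
    (∀ ε, 0 < ε → ∃ R, ∀ x, R ≤ ‖x‖ → β x ≤ ε) ∧
    (∀ R, ∃ m, 0 < m ∧ ∀ x, ‖x‖ ≤ R → m ≤ β x) ∧
    ∀ A : E n → Mat n, (∀ x, (A x).PosSemidef) → (∀ x i j, |A x i j| ≤ K) →
      ∀ x, Lop A 0 β x ≤ 3 / 8 * β x := by
  set T : ℝ := 3 * n * |K| + 1 with hT
  have hT0 : 0 < T := by positivity
  let φ : ℝ → ℝ := fun s => Real.exp (-(Real.log (T + s) - Real.log T) / 8)
  let φ1 : ℝ → ℝ := fun s => -(φ s / (8 * (T + s)))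
  let φ2 : ℝ → ℝ := fun s => 9 * φ s / (64 * (T + s) ^ 2)
  have hφ : ∀ s, 0 ≤ s → HasDerivAt φ (φ1 s) s := fun s hs => by
    have h1 : T + s ≠ 0 := by positivity
    have h2 := (((((hasDerivAt_id s).const_add T).log h1).sub_const (Real.log T)).neg.div_const
      8).exp
    refine h2.congr_deriv ?_
    simp only [φ1, φ, id, Pi.neg_apply]
    field_simp
  have hφ1 : ∀ s, 0 ≤ s → HasDerivAt φ1 (φ2 s) s := fun s hs => by
    have h1 : 8 * (T + s) ≠ 0 := by positivity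
    have h2 := ((hφ s hs).div (((hasDerivAt_id s).const_add T).const_mul 8) h1).neg
    refine h2.congr_deriv ?_
    have h3 : T + s ≠ 0 := by positivity
    simp only [φ1, φ2, id]
    field_simp
    ring
  have hanti : ∀ s t, 0 ≤ s → s ≤ t → φ t ≤ φ s := fun s t hs hst => by
    have := Real.log_le_log (show 0 < T + s by positivity) (show T + s ≤ T + t by linarith)
    exact Real.exp_le_exp.2 (by linarith)
  have hq : ∀ x : E n, 0 ≤ ‖x‖ ^ 2 / 2 := fun x => by positivity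
  have hd0 : Differentiable ℝ fun x : E n => φ (‖x‖ ^ 2 / 2) := fun x =>
    DifferentiableAt.comp (g := φ) (f := fun x : E n => ‖x‖ ^ 2 / 2) x
      (hφ _ (hq x)).differentiableAt (C2_sq.1 x)
  have hd1 : Differentiable ℝ fun x : E n => φ1 (‖x‖ ^ 2 / 2) := fun x =>
    DifferentiableAt.comp (g := φ1) (f := fun x : E n => ‖x‖ ^ 2 / 2) x
      (hφ1 _ (hq x)).differentiableAt (C2_sq.1 x)
  have hp0 : ∀ i, pd i (fun x : E n => φ (‖x‖ ^ 2 / 2)) = fun x => φ1 (‖x‖ ^ 2 / 2) * x i :=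
    fun i => by rw [pd_comp C2_sq.1 fun x => hφ _ (hq x), pd_sq]
  have hp1 : ∀ i, pd i (fun x : E n => φ1 (‖x‖ ^ 2 / 2)) = fun x => φ2 (‖x‖ ^ 2 / 2) * x i :=
    fun i => by rw [pd_comp C2_sq.1 fun x => hφ1 _ (hq x), pd_sq]
  refine ⟨fun x => φ (‖x‖ ^ 2 / 2), ⟨hd0, fun i => ?_⟩, fun x => ⟨Real.exp_pos _, ?_⟩,
    fun ε hε => ⟨2 + Real.exp (Real.log T - 8 * Real.log ε), fun x hx => ?_⟩,
    fun R => ⟨φ (R ^ 2 / 2), Real.exp_pos _, fun x hx => hanti _ _ (hq x) (by gcongr)⟩,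
    fun A hA hK x => ?_⟩
  · rw [hp0]
    exact hd1.mul (differentiable_coord i)
  · have := hanti 0 _ le_rfl (hq x)
    simpa [φ] using this
  · have h1 := Real.exp_pos (Real.log T - 8 * Real.log ε)
    have h2 : Real.exp (Real.log T - 8 * Real.log ε) ≤ T + ‖x‖ ^ 2 / 2 := by nlinarith
    have h3 := (Real.le_log_iff_exp_le (by positivity)).2 h2
    calc φ (‖x‖ ^ 2 / 2) ≤ Real.exp (Real.log ε) := Real.exp_le_exp.2 (by linarith)
      _ = ε := Real.exp_log hε
  · set s := ‖x‖ ^ 2 / 2 with hs'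
    have hs0 : 0 ≤ s := hq x
    have hφp : 0 < φ s := Real.exp_pos _
    have e : Lop A 0 (fun x : E n => φ (‖x‖ ^ 2 / 2)) x =
        φ2 s * (x.ofLp ⬝ᵥ A x *ᵥ x.ofLp) + φ1 s * ∑ i, A x i i - φ1 s * (x.ofLp ⬝ᵥ x.ofLp) := by
      simp only [Lop, hs, eu, of_apply, hp0, fun j i => pd_mul (i := i) hd1 (differentiable_coord j),
        hp1, pd_coord, dotProduct, mulVec, Finset.mul_sum, mul_add, Finset.sum_add_distrib, mul_ite,
        mul_one, mul_zero, Finset.sum_ite_eq, Finset.mem_univ, if_true, zero_mul, add_zero, ← hs']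
      congr 1
      · congr 1
        · exact Finset.sum_congr rfl fun i _ => Finset.sum_congr rfl fun j _ => by ring
        · exact Finset.sum_congr rfl fun i _ => by ring
      · exact Finset.sum_congr rfl fun i _ => by ring
    have h1 : x.ofLp ⬝ᵥ A x *ᵥ x.ofLp ≤ n * |K| * (2 * s) := by
      have := (le_abs_self _).trans
        (quad_le (K := |K|) (fun i j => (hK x i j).trans (le_abs_self K)) x.ofLp)
      rw [dot_self_eq] at this
      rw [hs']
      linarith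
    have h2 : 0 ≤ ∑ i, A x i i := Finset.sum_nonneg fun i _ => (hA x).diag_nonneg
    have hTs : 0 < T + s := by positivity
    have h3 : φ1 s * ∑ i, A x i i ≤ 0 :=
      mul_nonpos_of_nonpos_of_nonneg (neg_nonpos.2 (by positivity)) h2
    have h4 : -(φ1 s * (x.ofLp ⬝ᵥ x.ofLp)) ≤ 1 / 4 * φ s := by
      have : x.ofLp ⬝ᵥ x.ofLp = 2 * s := by rw [dot_self_eq, hs']; ring
      rw [this]
      simp only [φ1]
      rw [neg_mul, neg_neg, div_mul_eq_mul_div, div_le_iff₀ (by positivity)]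
      nlinarith [mul_pos hφp hT0]
    have h5 : φ2 s * (n * |K| * (2 * s)) ≤ 1 / 8 * φ s := by
      simp only [φ2]
      rw [div_mul_eq_mul_div, div_le_iff₀ (by positivity)]
      have h6 : 9 * (n * |K| * (2 * s)) ≤ 8 * (T + s) ^ 2 := by
        have h7 : 0 ≤ n * |K| := by positivity
        have h8 : 3 * (n * |K|) ≤ T := by rw [hT]; linarith
        nlinarith [mul_nonneg h7 hs0, mul_le_mul_of_nonneg_right h8 hs0]
      nlinarith [mul_le_mul_of_nonneg_left h6 hφp.le]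
    have h6 : 0 ≤ φ2 s := by simp only [φ2]; positivity
    have h7 := mul_le_mul_of_nonneg_left h1 h6
    rw [e]
    linarith

end Vale.Agent.P227
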