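import Vale.Agent.P227.Schauder
import Vale.Agent.P227.Smooth

/-! Linear theory: fixed points, the method of continuity, regularity. -/

namespace Vale.Agent.P227

open Matrix Filter Topology

variable {n : ℕ}

theorem Lop_tendsto {A : E n → Mat n} {F : Filter ℕ} {κ : ℕ → ℝ} {κ' : ℝ} {W : ℕ → E n → ℝ}
    {u : E n → ℝ} {x : E n} (hκ : Tendsto κ F (𝓝 κ'))
    (h0 : Tendsto (fun k => W k x) F (𝓝 (u x)))
    (h1 : ∀ i, Tendsto (fun k => pd i (W k) x) F (𝓝 (pd i u x)))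
    (h2 : ∀ i j, Tendsto (fun k => hs (W k) x i j) F (𝓝 (hs u x i j))) :
    Tendsto (fun k => Lop A (κ k) (W k) x) F (𝓝 (Lop A κ' u x)) :=
  ((tendsto_finsetSum _ fun i _ => tendsto_finsetSum _ fun j _ => (h2 i j).const_mul _).sub
    (tendsto_finsetSum _ fun i _ => (h1 i).const_mul _)).add (hκ.mul h0)

theorem tendsto_of_close {F : Filter ℕ} (hF : F ≤ atTop) {a b e : ℕ → ℝ} {l : ℝ}
    (ha : Tendsto a F (𝓝 l)) (he : Tendsto e atTop (𝓝 0)) (h : ∀ k, |b k - a k| ≤ e k) :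
    Tendsto b F (𝓝 l) := by
  have h1 : Tendsto (fun k => b k - a k) F (𝓝 0) :=
    squeeze_zero_norm h (he.mono_left hF)
  simpa using ha.add h1

theorem Xn.symm_bdd {w : E n → ℝ} {r : ℝ} (h : Xn w r) (x : E n) :
    (hs w x).IsSymm ∧ ∀ i j, |hs w x i j| ≤ r :=
  ⟨h.1.hs_symm x, fun i j => (h.2.2.2 i j).1 x⟩

theorem fixed_point {A : E n → Mat n} {κ C r : ℝ} (hS : Solv A κ) (hAP : AP A κ C) (hC : 0 < C)
    (hr : 0 ≤ r) (φ : E n → ℝ → Mat n → ℝ)
    (hφ : ∀ x, ContinuousOn (fun p : ℝ × Mat n => φ x p.1 p.2)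
      {p | p.2.IsSymm ∧ ∀ i j, |p.2 i j| ≤ r})
    (hev : ∀ w, Xn w r → Ev fun x => φ x (w x) (hs w x))
    (h1 : ∀ w, Xn w r → Yn (fun x => φ x (w x) (hs w x)) (r / C))
    (h2 : ∀ w u M, 0 ≤ M → Xn w r → Xn u r → HM (fun x => hs w x - hs u x) M →
      Yn (fun x => φ x (w x) (hs w x) - φ x (u x) (hs u x)) (M / (2 * C))) :
    ∃ w b, Xn w r ∧ ∀ x, Lop A κ w x = φ x (w x) (hs w x) + b := by
  have step : ∀ w : {w : E n → ℝ // Xn w r}, ∃ (w' : {w : E n → ℝ // Xn w r}) (b : ℝ),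
      ∀ x, Lop A κ w'.1 x = φ x (w.1 x) (hs w.1 x) + b := by
    rintro ⟨w, hw⟩
    obtain ⟨w', M, b, hX, he⟩ := hS _ _ (h1 w hw) (hev w hw)
    have h3 := hAP w' M (r / C) hX (by rw [funext he]; exact (h1 w hw).add_const b)
    rw [mul_div_cancel₀ _ hC.ne'] at h3
    exact ⟨⟨w', hX.1, hX.2.1, hX.2.2.1, h3⟩, b, he⟩
  choose T b hT using step
  let V : ℕ → {w : E n → ℝ // Xn w r} := fun k => T^[k] ⟨_, Xn.zero hr⟩
  have hV : ∀ k, V (k + 1) = T (V k) := fun k => Function.iterate_succ_apply' T k _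
  have hVe : ∀ k x, Lop A κ (V (k + 1)).1 x = φ x ((V k).1 x) (hs (V k).1 x) + b (V k) :=
    fun k x => by rw [hV]; exact hT _ x
  have hd : ∀ k, Xn (fun x => (V (k + 1)).1 x - (V k).1 x) (2 * r * (1 / 2) ^ k) := by
    intro k
    induction k with
    | zero => simpa [two_mul] using (V 1).2.sub (V 0).2
    | succ k ih =>
      have hX := (V (k + 1 + 1)).2.sub (V (k + 1)).2
      have h3 := h2 _ _ (2 * r * (1 / 2) ^ k) (by positivity) (V (k + 1)).2 (V k).2 (by
        have := ih.2.2.2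
        rwa [hs_sub (V (k + 1)).2.1 (V k).2.1] at this)
      have h4 := hAP _ _ _ hX (by
        have e : Lop A κ (fun x => (V (k + 1 + 1)).1 x - (V (k + 1)).1 x) = fun x =>
            φ x ((V (k + 1)).1 x) (hs (V (k + 1)).1 x) - φ x ((V k).1 x) (hs (V k).1 x) +
              (b (V (k + 1)) - b (V k)) := by
          funext x
          rw [Lop_sub A κ (V _).2.1 (V _).2.1, hVe, hVe]
          ring
        rw [e]
        exact h3.add_const _)
      refine ⟨hX.1, hX.2.1, hX.2.2.1, h4.mono (le_of_eq ?_)⟩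
      rw [pow_succ]
      field_simp
  obtain ⟨u, hu, hlim⟩ := compactness (W := fun k => (V k).1) fun k => (V k).2
  have hz : ∀ a : ℝ, Tendsto (fun k : ℕ => a * (2 * r * (1 / 2) ^ k)) atTop (𝓝 0) := fun a => by
    simpa using ((tendsto_pow_atTop_nhds_zero_of_lt_one (r := (1 / 2 : ℝ)) (by norm_num)
      (by norm_num)).const_mul (2 * r)).const_mul a
  have hL : ∀ x, Tendsto (fun k => Lop A κ (V (k + 1)).1 x) UF (𝓝 (Lop A κ u x)) := fun x => by
    refine Lop_tendsto (κ := fun _ => κ) (W := fun k => (V (k + 1)).1) tendsto_const_nhds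
      (tendsto_of_close UF_le (hlim x).1 (hz (n ^ 2 * ‖x‖ ^ 2)) fun k => ?_)
      (fun i => tendsto_of_close UF_le ((hlim x).2.1 i) (hz (n * ‖x‖)) fun k => ?_)
      (fun i j => tendsto_of_close UF_le ((hlim x).2.2 i j) (hz 1) fun k => ?_)
    · exact ((hd k).growth x).1.trans (le_of_eq (by ring))
    · have := ((hd k).growth x).2 i
      rw [pd_sub (V _).2.1.1 (V _).2.1.1] at this
      exact this.trans (le_of_eq (by ring))
    · have := ((hd k).2.2.2 i j).1 x
      rw [hs_sub (V _).2.1 (V _).2.1] at this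
      rw [one_mul]
      exact this
  have hP : ∀ x, Tendsto (fun k => φ x ((V k).1 x) (hs (V k).1 x)) UF
      (𝓝 (φ x (u x) (hs u x))) := fun x => by
    have h3 : Tendsto (fun k => ((V k).1 x, hs (V k).1 x)) UF (𝓝 (u x, hs u x)) :=
      (hlim x).1.prodMk_nhds (tendsto_pi_nhds.2 fun i => tendsto_pi_nhds.2 fun j =>
        (hlim x).2.2 i j)
    exact (hφ x (u x, hs u x) (hu.symm_bdd x)).tendsto.comp
      (tendsto_nhdsWithin_iff.2 ⟨h3, Eventually.of_forall fun k => (V k).2.symm_bdd x⟩)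
  refine ⟨u, Lop A κ u 0 - φ 0 (u 0) (hs u 0), hu, fun x => ?_⟩
  refine tendsto_nhds_unique (hL x) (((hP x).add ((hL 0).sub (hP 0))).congr fun k => ?_)
  rw [hVe, hVe]
  ring

theorem HM.sub' {A B : E n → Mat n} {a b : ℝ} (hA : HM A a) (hB : HM B b) :
    HM (fun x => A x - B x) (a + b) := fun i j => (hA i j).sub (hB i j)

theorem yn_lin {D : E n → Mat n} {K t M : ℝ} {w : E n → ℝ} (hK : 0 ≤ K) (hD : HM D K) (hw : C2 w)
    (hM : 0 ≤ M) (h : HM (hs w) M) :
    Yn (fun x => ∑ i, ∑ j, D x i j * hs w x i j + t * w x) ((2 * n ^ 2 * K + |t| * n ^ 2) * M) := by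
  have h1 := (HM.contract hK hM hD h).mo.yn (by positivity)
  have h2 := (hw.yn hM fun x i j => (h i j).1 x).const_mul t
  exact (h1.add h2).mono (le_of_eq (by ring))

theorem solv_step {A D : E n → Mat n} {κ t C K s : ℝ} (hC : 0 < C) (hK : 0 ≤ K) (hD : HM D K)
    (eD : ∀ x, D (-x) = D x) (hS : Solv A κ) (hAP : AP A κ C)
    (hs' : |s| * (2 * n ^ 2 * K + |t| * n ^ 2) * (2 * C) ≤ 1) :
    Solv (fun x => A x + s • D x) (κ + s * t) := by
  intro g N hg eg
  have hN := hg.1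
  set L := 2 * (n : ℝ) ^ 2 * K + |t| * n ^ 2 with hL
  have hb : ∀ M, 0 ≤ M → |-s| * (L * M) ≤ M / (2 * C) := fun M hM => by
    rw [abs_neg, le_div_iff₀ (by positivity)]
    nlinarith [mul_le_mul_of_nonneg_right hs' hM]
  obtain ⟨w, b, hw, he⟩ := fixed_point hS hAP hC (r := 2 * C * N) (by positivity)
    (fun x a T => g x + -s * (∑ i, ∑ j, D x i j * T i j + t * a))
    (fun x => by fun_prop)
    (fun w hw x => by simp only [eg x, eD x, hw.2.1.hs_even x, hw.2.1 x])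
    (fun w hw => by
      refine (hg.add ((yn_lin hK hD hw.1 (by positivity) hw.2.2.2).const_mul (-s))).mono ?_
      have h1 := hb (2 * C * N) (by positivity)
      have h2 : 2 * C * N / (2 * C) = N := by field_simp
      have h3 : 2 * C * N / C = 2 * N := by field_simp
      rw [h3]
      linarith)
    (fun w u M hM hw hu h => by
      rw [← hs_sub hw.1 hu.1] at h
      have h1 := ((yn_lin (t := t) hK hD (hw.1.sub hu.1) hM h).const_mul (-s)).mono (hb M hM)
      rw [hs_sub hw.1 hu.1] at h1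
      have e : (fun x => g x + -s * (∑ i, ∑ j, D x i j * hs w x i j + t * w x) -
          (g x + -s * (∑ i, ∑ j, D x i j * hs u x i j + t * u x))) = fun x =>
          -s * (∑ i, ∑ j, D x i j * (hs w x - hs u x) i j + t * (w x - u x)) := by
        funext x
        simp only [Matrix.sub_apply, mul_sub, Finset.sum_sub_distrib]
        ring
      rw [e]
      exact h1)
  refine ⟨w, _, b, hw, fun x => ?_⟩
  have h1 := he x
  have h2 : ∑ i, ∑ j, (A x + s • D x) i j * hs w x i j =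
      ∑ i, ∑ j, A x i j * hs w x i j + s * ∑ i, ∑ j, D x i j * hs w x i j := by
    simp only [Matrix.add_apply, Matrix.smul_apply, smul_eq_mul, add_mul, Finset.sum_add_distrib,
      Finset.mul_sum, mul_assoc]
  simp only [Lop] at h1 ⊢
  rw [h2]
  linarith

theorem solv_of_path {A B : E n → Mat n} {κ0 κ1 C K : ℝ} (hC : 0 < C) (hK : 0 ≤ K)
    (hA : HM A K) (hB : HM B K) (eA : ∀ x, A (-x) = A x) (eB : ∀ x, B (-x) = B x)
    (hAP : ∀ θ : ℝ, 0 ≤ θ → θ ≤ 1 →
      AP (fun x => (1 - θ) • A x + θ • B x) ((1 - θ) * κ0 + θ * κ1) C)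
    (h0 : Solv A κ0) : Solv B κ1 := by
  obtain ⟨m, hm⟩ := exists_nat_gt ((2 * n ^ 2 * (K + K) + |κ1 - κ0| * n ^ 2) * (2 * C))
  have hm0 : (0 : ℝ) < m := lt_of_le_of_lt (by positivity) hm
  have key : ∀ j : ℕ, j ≤ m → Solv (fun x => (1 - (j : ℝ) / m) • A x + ((j : ℝ) / m) • B x)
      ((1 - (j : ℝ) / m) * κ0 + (j : ℝ) / m * κ1) := by
    intro j
    induction j with
    | zero => intro _; simpa using h0
    | succ j ih =>
      intro hj
      have hj' : (j : ℝ) ≤ m := by exact_mod_cast (Nat.le_succ j).trans hj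
      have h1 := solv_step (t := κ1 - κ0) (s := 1 / m) hC (by positivity) (hB.sub' hA)
        (fun x => by simp only [eA x, eB x]) (ih (by omega))
        (hAP _ (by positivity) ((div_le_one hm0).2 hj')) (by
          rw [abs_of_pos (by positivity), mul_assoc, one_div, inv_mul_le_iff₀ hm0]
          linarith)
      have e1 : (fun x => (1 - ((j + 1 : ℕ) : ℝ) / m) • A x + (((j + 1 : ℕ) : ℝ) / m) • B x) =
          fun x => (1 - (j : ℝ) / m) • A x + ((j : ℝ) / m) • B x + (1 / (m : ℝ)) • (B x - A x) := by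
        funext x
        ext i j
        simp only [Matrix.add_apply, Matrix.smul_apply, Matrix.sub_apply, smul_eq_mul]
        push_cast
        ring
      have e2 : (1 - ((j + 1 : ℕ) : ℝ) / m) * κ0 + ((j + 1 : ℕ) : ℝ) / m * κ1 =
          (1 - (j : ℝ) / m) * κ0 + (j : ℝ) / m * κ1 + 1 / m * (κ1 - κ0) := by
        push_cast
        ring
      rw [e1, e2]
      exact h1
  simpa [div_self hm0.ne'] using key m le_rfl

theorem Hn_diffquot {f : E n → ℝ} {N : ℝ} (hf : Differentiable ℝ f) (h : ∀ i, Hn (pd i f) N)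
    (v : E n) : Hn (fun x => f (x + v) - f x) (n * N * ‖v‖) := by
  refine ⟨fun x => mvt hf fun i ξ _ => (h i).1 _, fun x y => ?_⟩
  have hd : Differentiable ℝ fun z => f (z + (x - y)) :=
    hf.comp (differentiable_id.add_const _)
  have h1 := mvt (x := y) (y := v) (b := N * √‖x - y‖) (f := fun z => f (z + (x - y)) - f z)
    (hd.sub hf) fun i ξ _ => by
      rw [pd_sub hd hf, pd_shift]
      simpa using (h i).2 (y + ξ + (x - y)) (y + ξ)
  have e1 : y + v + (x - y) = x + v := by abel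
  have e2 : y + (x - y) = x := by abel
  simp only [e1, e2] at h1
  calc _ = |f (x + v) - f (y + v) - (f x - f y)| := by congr 1; ring
    _ ≤ _ := h1
    _ = _ := by ring

theorem hk1_of_diff {f : E n → ℝ} {N r : ℝ} (hf : Continuous f) (hN : 0 ≤ N) (hr : 0 < r)
    (h : ∀ v, ‖v‖ ≤ r → Hn (fun x => f (x + v) - f x) (N * ‖v‖)) :
    Differentiable ℝ f ∧ ∀ a, ∃ M, Hn (pd a f) M := by
  obtain ⟨hd, hh⟩ := dc1 (N := N) hf hr fun x y d hy _ => by
    have h1 := (h y hy).2 (x + d) x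
    simp only [add_sub_cancel_left] at h1
    refine le_trans (le_of_eq ?_) h1
    rw [d2, add_right_comm x y d]
    congr 1
    ring
  refine ⟨hd, fun a => ⟨_, Hn_of_local (b := N) hr hN (fun x => pd_bound hd hr fun t ht htr => ?_)
    (hh a)⟩⟩
  have hn : ‖t • ee a‖ = t := by simp [norm_smul, abs_of_pos ht]
  have := (h (t • ee a) (by rw [hn]; exact htr)).1 x
  rwa [hn] at this

theorem mo_dir {w : E n → ℝ} {M : ℝ} (hw : C2 w) (hM : 0 ≤ M) (h : ∀ x i j, |hs w x i j| ≤ M)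
    (v : E n) : Mo (fun x => ∑ i, v i * pd i w (x + v)) (n * (n * M) * ‖v‖) := by
  refine Mo.of_lip (fun x y => ?_) (by positivity)
  rw [← Finset.sum_sub_distrib]
  refine (Finset.abs_sum_le_sum_abs _ _).trans ?_
  calc _ ≤ ∑ _i : Fin n, ‖v‖ * (n * M * ‖x - y‖) := Finset.sum_le_sum fun i _ => by
        rw [← mul_sub, abs_mul]
        refine mul_le_mul (abs_coord_le v i) ?_ (abs_nonneg _) (norm_nonneg _)
        simpa using pd_lip hw h i (x + v) (y + v)
    _ = _ := by simp; ring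

theorem mo_diff {w : E n → ℝ} {M : ℝ} (hw : C2 w) (hM : 0 ≤ M) (h : ∀ x i j, |hs w x i j| ≤ M)
    (v : E n) : Mo (fun x => w (x + v) - w x) (n * (n * M) * ‖v‖) :=
  Mo.diffquot hw.1 (fun i => Mo.of_lip (pd_lip hw h i) (by positivity)) (by positivity) v

theorem eu_shift (w : E n → ℝ) (v x : E n) :
    eu (fun x => w (x + v)) x = eu w (x + v) - ∑ i, v i * pd i w (x + v) := by
  simp only [eu, pd_shift, PiLp.add_apply, add_mul, Finset.sum_add_distrib]
  ring

theorem pd_Lop {A : E n → Mat n} {κ : ℝ} {w : E n → ℝ}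
    (hA : ∀ i j, Differentiable ℝ fun x => A x i j) (hw : C2 w) (h3 : ∀ j, C2 (pd j w))
    (e : Fin n) (x : E n) :
    pd e (Lop A κ w) x = ∑ i, ∑ j, pd e (fun y => A y i j) x * hs w x i j +
      Lop A (κ - 1) (pd e w) x := by
  have hh : ∀ i j, Differentiable ℝ fun x => hs w x i j := fun i j => (h3 j).2 i
  have d1 : ∀ i j, Differentiable ℝ fun x => A x i j * hs w x i j :=
    fun i j => (hA i j).mul (hh i j)
  have d2' : ∀ i, Differentiable ℝ fun x => ∑ j, A x i j * hs w x i j :=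
    fun i => Differentiable.fun_sum fun j _ => d1 i j
  have d3 : Differentiable ℝ fun x => ∑ i, ∑ j, A x i j * hs w x i j :=
    Differentiable.fun_sum fun i _ => d2' i
  have d4 : Differentiable ℝ (eu w) :=
    Differentiable.fun_sum fun l _ => (differentiable_coord l).mul (hw.2 l)
  have d5 : Differentiable ℝ fun x => ∑ i, ∑ j, A x i j * hs w x i j - eu w x := d3.sub d4
  have d6 : Differentiable ℝ fun x => κ * w x := hw.1.const_mul κ
  have e0 : Lop A κ w = fun x => (∑ i, ∑ j, A x i j * hs w x i j - eu w x) + κ * w x := rfl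
  have e1 : ∀ i j, pd e (fun x => hs w x i j) x = hs (pd e w) x i j := fun i j => by
    change pd e (pd i (pd j w)) x = pd i (pd j (pd e w)) x
    rw [pd_comm (h3 j) e i, pd_comm hw e j]
  rw [e0, pd_add d5 d6, pd_sub d3 d4, pd_sum _ fun i _ => d2' i, pd_const_mul, pd_eu hw]
  simp only [fun i => pd_sum (i := e) _ fun j (_ : j ∈ Finset.univ) => d1 i j,
    fun i j => pd_mul (i := e) (hA i j) (hh i j), e1, Lop, eu, pd_comm hw e,
    Finset.sum_add_distrib]
  ring

theorem reg_step {A : E n → Mat n} {c κ : ℝ} {w g : E n → ℝ} (hc : 0 < c) (hA : Ell A c)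
    (hk : ∀ i j, Hk 1 fun x => A x i j) (hg : Mk 1 g) (hw : C2 w) (hM : ∃ M, HM (hs w) M)
    (he : ∀ x, Lop A κ w x = g x) (i j : Fin n) :
    Differentiable ℝ (fun x => hs w x i j) ∧ ∀ a, ∃ M, Hn (pd a fun x => hs w x i j) M := by
  obtain ⟨K, hK0, hK⟩ := exists_HM fun i j => (hk i j).hn
  obtain ⟨M, hM0, hM⟩ := exists_HM fun i j => hM.imp fun _ h => h i j
  obtain ⟨lam, C, -, hC, hS⟩ := schauder_neg n hc hK0
  choose Ng hNg using fun i => (hg.2 i).1
  have hG0 : 0 ≤ ∑ i, |Ng i| := Finset.sum_nonneg fun i _ => abs_nonneg _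
  have hG : ∀ i, Mo (pd i g) (∑ i, |Ng i|) := fun i => (hNg i).mono ((le_abs_self _).trans
    (Finset.single_le_sum (fun i _ => abs_nonneg (Ng i)) (Finset.mem_univ i)))
  choose Ka hKa0 hKa using fun a => exists_HM (A := fun x => Matrix.of fun i j =>
    pd a (fun y => A y i j) x) fun i j => ((hk i j).2.2 a).hn
  have hP0 : 0 ≤ ∑ a, Ka a := Finset.sum_nonneg fun a _ => hKa0 a
  have hP : ∀ i j a, Hn (pd a fun y => A y i j) (∑ a, Ka a) := fun i j a => (hKa a i j).mono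
    (Finset.single_le_sum (fun a _ => hKa0 a) (Finset.mem_univ a))
  have hb : ∀ x i j, |hs w x i j| ≤ M := fun x i j => (hM i j).1 x
  refine hk1_of_diff (hM i j).continuous (r := 1) (N := C * (n * ∑ i, |Ng i| +
    2 * n ^ 2 * (n * ∑ a, Ka a) * M + n * (n * M) + |lam + κ| * (n * (n * M))))
    (by positivity) one_pos fun v _ => ?_
  have hC2 : C2 fun x => w (x + v) - w x := (hw.shift v).sub hw
  have ehs : hs (fun x => w (x + v) - w x) = fun x => hs w (x + v) - hs w x := by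
    rw [hs_sub (hw.shift v) hw, hs_shift]
  have t1 := Mo.diffquot hg.1 hG hG0 v
  have t2 := ((HM.contract (A := fun x => A (x + v) - A x) (T := fun x => hs w (x + v))
    (by positivity) hM0 (fun i j => Hn_diffquot (hk i j).2.1 (hP i j) v)
    (fun i j => (hM i j).shift v)).mo).const_mul (-1)
  have t3 := mo_dir hw hM0 hb v
  have t4 := (mo_diff hw hM0 hb v).const_mul (-(lam + κ))
  have t5 := ((t1.add t2).add t3).add t4
  have e : Lop A (-lam) (fun x => w (x + v) - w x) = fun x => g (x + v) - g x +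
      -1 * ∑ i, ∑ j, (A (x + v) - A x) i j * hs w (x + v) i j + ∑ i, v i * pd i w (x + v) +
      -(lam + κ) * (w (x + v) - w x) := by
    funext x
    rw [Lop_sub _ _ (hw.shift v) hw, ← he, ← he]
    simp only [Lop, hs_shift, eu_shift, Matrix.sub_apply, sub_mul, Finset.sum_sub_distrib]
    ring
  have h1 := hS A _ (-lam) _ hA hK le_rfl hC2
    ⟨_, by rw [ehs]; exact HM.sub' (fun i j => (hM i j).shift v) hM⟩
    (by rw [e]; exact t5.yn (by positivity))
  rw [ehs] at h1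
  refine (h1 i j).mono (le_of_eq ?_)
  simp only [abs_neg, abs_one]
  ring

theorem Hk.one {k : ℕ} {f : E n → ℝ} (h : Hk (k + 1) f) : Hk 1 f :=
  ⟨h.1, h.2.1, fun i => (h.2.2 i).hn⟩

theorem reg_lin (k : ℕ) {A : E n → Mat n} {c κ : ℝ} {w g : E n → ℝ} (hc : 0 < c) (hA : Ell A c)
    (hk : ∀ i j, Hk k fun x => A x i j) (hg : Mk k g) (hw : C2 w) (hM : ∃ M, HM (hs w) M)
    (he : ∀ x, Lop A κ w x = g x) (i j : Fin n) : Hk k fun x => hs w x i j := by
  induction k generalizing κ w g i j with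
  | zero => exact hM.imp fun _ h => h i j
  | succ k ih =>
    have h1 := reg_step hc hA (fun i j => (hk i j).one) ⟨hg.1, fun i => ⟨(hg.2 i).1, trivial⟩⟩
      hw hM he
    have h3 : ∀ j, C2 (pd j w) := fun j => ⟨hw.2 j, fun i => (h1 i j).1⟩
    have hk' := fun i j => (hk i j).of_succ
    have h4 := ih hk' hg.of_succ hw hM he
    refine ⟨hM.imp fun _ h => h i j, (h1 i j).1, fun a => ?_⟩
    refine ih hk' (κ := κ - 1) (w := pd j w)
      (g := fun x => pd j g x - ∑ p, ∑ q, pd j (fun y => A y p q) x * hs w x p q)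
      ((hg.2 j).2.sub (Hk.mk (Hk.sum _ fun p _ => Hk.sum _ fun q _ =>
        ((hk p q).2.2 j).mul (h4 p q)))) (h3 j) ?_ (fun x => ?_) a i
    · obtain ⟨M, -, hM'⟩ := exists_HM (A := hs (pd j w)) fun p q => (h1 q j).2 p
      exact ⟨M, hM'⟩
    · have h5 := pd_Lop (κ := κ) (fun i j => (hk i j).2.1) hw h3 j x
      rw [funext he] at h5
      linarith

theorem Lop_even {A : E n → Mat n} (eA : ∀ x, A (-x) = A x) (κ : ℝ) {w : E n → ℝ} (hw : Ev w) :
    Ev (Lop A κ w) := fun x => by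
  simp only [Lop, eA x, hw.hs_even x, hw.eu_even x, hw x]

theorem Yn.even_bound {g : E n → ℝ} {N : ℝ} (h : Yn g N) (eg : Ev g) (x : E n) :
    |g x - g 0| ≤ N * (md ‖x‖ + ‖x‖ ^ 2) := by
  obtain ⟨hN, g1, g2, e, h1, -, -, h2⟩ := h
  have t1 := h1 x 0
  have t2 := h1 (-x) 0
  have t3 := h2 (-x) x x
  simp only [sub_zero, norm_neg] at t1 t2
  simp only [d2, neg_add_cancel, zero_add] at t3
  have t4 := eg x
  rw [e] at t4 ⊢
  simp only [Pi.add_apply] at t4 ⊢
  have t5 : 0 ≤ N * ‖x‖ ^ 2 := by positivity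
  rw [abs_le] at t1 t2 t3 ⊢
  constructor <;> nlinarith [t1.1, t1.2, t2.1, t2.2, t3.1, t3.2]

theorem normalize_bad {A : E n → Mat n} {κ C : ℝ} (hC : 0 < C) (h : ¬ AP A κ C) :
    ∃ W : E n → ℝ, Xn W 1 ∧ Yn (Lop A κ W) (1 / C) ∧ ∀ M, 0 ≤ M → HM (hs W) M → 1 ≤ M := by
  simp only [AP, not_forall] at h
  obtain ⟨w, M, N, hX, hY, hbad⟩ := h
  obtain ⟨m, -, hm, hmin⟩ := HM.exists_min ⟨M, hX.2.2.2⟩
  have hN := hY.1
  have h1 : C * N < m := not_le.1 fun h => hbad (hm.mono h)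
  have hm0 : 0 < m := lt_of_le_of_lt (by positivity) h1
  have hX' : Xn w m := ⟨hX.1, hX.2.1, hX.2.2.1, hm⟩
  refine ⟨fun x => m⁻¹ * w x, ?_, ?_, fun M' hM' h => ?_⟩
  · have := hX'.const_mul m⁻¹
    rwa [abs_of_pos (inv_pos.2 hm0), inv_mul_cancel₀ hm0.ne'] at this
  · rw [funext (Lop_const_mul A κ m⁻¹ w)]
    refine (hY.const_mul m⁻¹).mono ?_
    rw [abs_of_pos (inv_pos.2 hm0), inv_mul_le_iff₀ hm0, mul_one_div, le_div_iff₀ hC]
    linarith
  · have h2 : HM (hs w) (m * M') := fun i j => by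
      have := (h i j).const_mul m
      rw [hs_const_mul, abs_of_pos hm0] at this
      simpa [mul_inv_cancel_left₀ hm0.ne'] using this
    have h3 := hmin _ (by positivity) h2
    nlinarith

theorem uniform_AP {A : E n → Mat n} {c lam : ℝ} (hc : 0 < c) (hA : Ell A c)
    (hk : ∀ k i j, Hk k fun x => A x i j) (eA : ∀ x, A (-x) = A x)
    (hdec : ∀ ε : ℝ, 0 < ε → ∃ R : ℝ, ∀ p h i j, R ≤ ‖p‖ →
      |A (p + h) i j - A p i j| ≤ ε * md ‖h‖)
    (hker : ∀ (h : E n → ℝ) (κ b : ℝ), κ ≤ 1 → C2 h → (∀ k i j, Hk k fun x => hs h x i j) →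
      (∀ x, Lop A κ h x = b) → ∀ x, hs h x = 0) :
    ∃ C, 0 < C ∧ ∀ κ, -lam ≤ κ → κ ≤ 1 → AP A κ C := by
  obtain ⟨K, hK0, hK⟩ := exists_HM fun i j => (hk 0 i j).hn
  obtain ⟨Ch, hCh, hH⟩ := schauder_hol n hc hK0
  obtain ⟨Cf, hCf, hF⟩ := schauder_far n hc hK0
  obtain ⟨η, q, hη, hq, hF⟩ := hF (1 / (4 * Ch)) (by positivity)
  obtain ⟨R, hR⟩ := hdec η hη
  by_contra hcon
  push Not at hcon
  have hpos : ∀ k : ℕ, (0 : ℝ) < k + 1 + 2 * Ch * (1 + Cf) := fun k => by positivity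
  choose κ hκ1 hκ2 hbad using fun k : ℕ => hcon _ (hpos k)
  choose W hW hY hmin using fun k : ℕ => normalize_bad (hpos k) (hbad k)
  have hz : ∀ k, ∃ z : E n, ‖z‖ ≤ |R| / q ∧ 1 / (4 * Ch) ≤ ∑ i, ∑ j, |hs (W k) z i j| := by
    intro k
    by_contra hno
    push Not at hno
    set N := 1 / ((k : ℝ) + 1 + 2 * Ch * (1 + Cf)) with hN
    have hN0 : 0 < N := one_div_pos.2 (hpos k)
    have h1 : ∀ x i j, |hs (W k) x i j| ≤ Cf * N + 1 / (4 * Ch) := by
      intro x i j
      rcases le_total ‖x‖ (|R| / q) with hx | hx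
      · have h2 := hno x hx
        have h3 : |hs (W k) x i j| ≤ ∑ i, ∑ j, |hs (W k) x i j| :=
          (Finset.single_le_sum (fun j _ => abs_nonneg (hs (W k) x i j)) (Finset.mem_univ j)).trans
            (Finset.single_le_sum (f := fun i => ∑ j, |hs (W k) x i j|)
              (fun i _ => Finset.sum_nonneg fun j _ => abs_nonneg _) (Finset.mem_univ i))
        have h4 : 0 ≤ Cf * N := by positivity
        linarith
      · have h2 := hF A (W k) (κ k) N 1 x hA hK (hκ2 k) (hW k).1 ⟨1, (hW k).2.2.2⟩ (hY k)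
          zero_le_one (fun x i j => ((hW k).2.2.2 i j).1 x) (fun s hs _ h i j => hR _ _ _ _ (by
            rw [norm_smul, Real.norm_eq_abs, abs_of_pos (hq.trans_le hs)]
            rw [div_le_iff₀ hq] at hx
            have := le_abs_self R
            nlinarith [norm_nonneg x])) i j
        rwa [mul_one] at h2
    have h2 := hmin k _ (by positivity) (hH A (W k) (κ k) N _ hA hK (hκ2 k) (hW k).1
      ⟨1, (hW k).2.2.2⟩ (hY k) (by positivity) h1)
    have h3 : Ch * (N + (Cf * N + 1 / (4 * Ch))) = Ch * (1 + Cf) * N + 1 / 4 := by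
      field_simp; ring
    have h4 : Ch * (1 + Cf) * N ≤ 1 / 2 := by
      rw [hN, mul_one_div, div_le_iff₀ (hpos k)]
      have : (0 : ℝ) ≤ k := Nat.cast_nonneg k
      linarith
    linarith
  choose z hz1 hz2 using hz
  obtain ⟨u, hu, hlim⟩ := compactness hW
  obtain ⟨z', hz'⟩ := UF_limE hz1
  obtain ⟨κ', hκ'⟩ := UF_lim (s := κ) (b := |lam| + 1) fun k => by
    have := hκ1 k
    have := hκ2 k
    have := le_abs_self lam
    have := abs_nonneg lam
    rw [abs_le]; constructor <;> linarith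
  have hL : ∀ x, Tendsto (fun k => Lop A (κ k) (W k) x) UF (𝓝 (Lop A κ' u x)) := fun x =>
    Lop_tendsto hκ' (hlim x).1 (hlim x).2.1 (hlim x).2.2
  have hN : Tendsto (fun k : ℕ => 1 / ((k : ℝ) + 1 + 2 * Ch * (1 + Cf))) atTop (𝓝 0) :=
    tendsto_const_nhds.div_atTop (tendsto_atTop_add_const_right _ _
      (tendsto_atTop_add_const_right _ _ tendsto_natCast_atTop_atTop))
  have hconst : ∀ x, Lop A κ' u x = Lop A κ' u 0 := fun x =>
    tendsto_nhds_unique (hL x) (tendsto_of_close UF_le (hL 0)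
      (by simpa using hN.mul_const (md ‖x‖ + ‖x‖ ^ 2))
      fun k => (hY k).even_bound (Lop_even eA _ (hW k).2.1) x)
  have hzero := hker u κ' _ (le_of_tendsto' hκ' hκ2) hu.1
    (fun k => reg_lin k hc hA (hk k) (Hk.const k _).mk hu.1 ⟨1, hu.2.2.2⟩ hconst) hconst z'
  have hsq : Tendsto (fun k => √‖z k - z'‖) UF (𝓝 0) := by
    have := (tendsto_iff_norm_sub_tendsto_zero.1 hz').sqrt
    simpa using this
  have hfin : Tendsto (fun k => ∑ i, ∑ j, |hs (W k) (z k) i j|) UF (𝓝 (∑ _i : Fin n, ∑ _j : Fin n,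
      |(0 : ℝ)|)) := by
    refine tendsto_finsetSum _ fun i _ => tendsto_finsetSum _ fun j _ => Tendsto.abs ?_
    have h1 := (hlim z').2.2 i j
    rw [hzero] at h1
    have h2 : Tendsto (fun k => hs (W k) (z k) i j - hs (W k) z' i j) UF (𝓝 0) :=
      squeeze_zero_norm (fun k => by simpa using ((hW k).2.2.2 i j).2 (z k) z') hsq
    simpa using h1.add h2
  have h5 := ge_of_tendsto' hfin hz2
  have h6 : 0 < 1 / (4 * Ch) := by positivity
  simp only [abs_zero, Finset.sum_const_zero] at h5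
  linarith

theorem Ell.mono {A : E n → Mat n} {c c' : ℝ} (h : Ell A c) (hc : c' ≤ c) : Ell A c' :=
  fun x => ⟨(h x).1, fun v => le_trans (mul_le_mul_of_nonneg_right hc
    (Finset.sum_nonneg fun i _ => mul_self_nonneg (v i))) ((h x).2 v)⟩

theorem Ell.comb {A B : E n → Mat n} {c θ : ℝ} (hA : Ell A c) (hB : Ell B c) (h0 : 0 ≤ θ)
    (h1 : θ ≤ 1) : Ell (fun x => (1 - θ) • A x + θ • B x) c := fun x => by
  refine ⟨((hA x).1.smul _).add ((hB x).1.smul _), fun v => ?_⟩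
  simp only [add_mulVec, smul_mulVec, dotProduct_add, dotProduct_smul, smul_eq_mul]
  nlinarith [mul_le_mul_of_nonneg_left ((hA x).2 v) (sub_nonneg.2 h1),
    mul_le_mul_of_nonneg_left ((hB x).2 v) h0]

theorem HM.comb {A B : E n → Mat n} {K θ : ℝ} (hA : HM A K) (hB : HM B K) (h0 : 0 ≤ θ)
    (h1 : θ ≤ 1) : HM (fun x => (1 - θ) • A x + θ • B x) K := fun i j => by
  refine (((hA i j).const_mul (1 - θ)).add ((hB i j).const_mul θ)).mono (le_of_eq ?_)
  rw [abs_of_nonneg (sub_nonneg.2 h1), abs_of_nonneg h0]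
  ring

theorem Ell_one : Ell (fun _ : E n => (1 : Mat n)) 1 := fun _ =>
  ⟨isSymm_one, fun v => by simp⟩

theorem HM_one : HM (fun _ : E n => (1 : Mat n)) 1 := fun i j =>
  (Hn.const _).mono (by rw [Matrix.one_apply]; split_ifs <;> simp)

theorem solv_main {A : E n → Mat n} {c : ℝ} (hc : 0 < c) (hA : Ell A c)
    (hk : ∀ k i j, Hk k fun x => A x i j) (eA : ∀ x, A (-x) = A x)
    (hdec : ∀ ε : ℝ, 0 < ε → ∃ R : ℝ, ∀ p h i j, R ≤ ‖p‖ →
      |A (p + h) i j - A p i j| ≤ ε * md ‖h‖)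
    (hker : ∀ (h : E n → ℝ) (κ b : ℝ), κ ≤ 1 → C2 h → (∀ k i j, Hk k fun x => hs h x i j) →
      (∀ x, Lop A κ h x = b) → ∀ x, hs h x = 0) :
    Solv A 0 ∧ Solv A 1 ∧ ∃ C, 0 < C ∧ AP A 1 C := by
  obtain ⟨K, hK0, hK⟩ := exists_HM fun i j => (hk 0 i j).hn
  have hK1 : 0 ≤ max K 1 := hK0.trans (le_max_left _ _)
  obtain ⟨lam, C, hlam, hC, hS⟩ := schauder_neg n (lt_min hc one_pos) hK1
  have hE1 : Ell (fun _ : E n => (1 : Mat n)) (min c 1) := Ell_one.mono (min_le_right _ _)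
  have hH1 : HM (fun _ : E n => (1 : Mat n)) (max K 1) := HM_one.mono (le_max_right _ _)
  have hK' : HM A (max K 1) := hK.mono (le_max_left _ _)
  have h0 : Solv A (-lam) := solv_of_path hC hK1 hH1 hK' (fun _ => rfl) eA
    (fun θ h0 h1 w M N hX hY => hS _ w _ N (hE1.comb (hA.mono (min_le_left _ _)) h0 h1)
      (hH1.comb hK' h0 h1) (le_of_eq (by ring)) hX.1 ⟨M, hX.2.2.2⟩ hY)
    (solv_base hlam fun w M N hX hY => hS _ w _ N hE1 hH1 le_rfl hX.1 ⟨M, hX.2.2.2⟩ hY)
  obtain ⟨C', hC', hAP⟩ := uniform_AP (lam := lam) hc hA hk eA hdec hker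
  have key : ∀ t, 0 ≤ t → t ≤ 1 → Solv A t := fun t ht0 ht1 =>
    solv_of_path hC' hK0 hK hK eA eA (fun θ h0 h1 => by
      have e : (fun x => (1 - θ) • A x + θ • A x) = A := by
        funext x; rw [← add_smul]; simp
      rw [e]
      exact hAP _ (by nlinarith) (by nlinarith)) h0
  exact ⟨key 0 le_rfl zero_le_one, key 1 zero_le_one le_rfl, C', hC',
    hAP 1 (by linarith) le_rfl⟩

end Vale.Agent.P227
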