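import Vale.Agent.P227.Calc2

/-! Matrix inverse, logarithm of the determinant and its quadratic remainder. -/

namespace Vale.Agent.P227

open Matrix

variable {n : ℕ}

theorem dot_self_nonneg (v : Fin n → ℝ) : 0 ≤ v ⬝ᵥ v :=
  Finset.sum_nonneg fun _ _ => mul_self_nonneg _

theorem posDef_of_ell {G : Mat n} {c : ℝ} (hc : 0 < c) (hs : G.IsSymm)
    (h : ∀ v : Fin n → ℝ, c * (v ⬝ᵥ v) ≤ v ⬝ᵥ G *ᵥ v) : G.PosDef := by
  refine PosDef.of_dotProduct_mulVec_pos (isHermitian_iff_isSymm.2 hs) fun v hv => ?_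
  have h1 : 0 < v ⬝ᵥ v :=
    (dot_self_nonneg v).lt_of_ne fun e => hv (dotProduct_self_eq_zero.1 e.symm)
  have := mul_pos hc h1
  simpa using this.trans_le (h v)

theorem Ell.posDef {G : E n → Mat n} {c : ℝ} (h : Ell G c) (hc : 0 < c) (x : E n) :
    (G x).PosDef := posDef_of_ell hc (h x).1 (h x).2

theorem quad_le {G : Mat n} {K : ℝ} (h : ∀ i j, |G i j| ≤ K) (v : Fin n → ℝ) :
    |v ⬝ᵥ G *ᵥ v| ≤ n * K * (v ⬝ᵥ v) := by
  have h1 : |v ⬝ᵥ G *ᵥ v| ≤ ∑ i, ∑ j, K * ((v i * v i + v j * v j) / 2) := by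
    simp only [dotProduct, mulVec, Finset.mul_sum]
    refine (Finset.abs_sum_le_sum_abs _ _).trans (Finset.sum_le_sum fun i _ => ?_)
    refine (Finset.abs_sum_le_sum_abs _ _).trans (Finset.sum_le_sum fun j _ => ?_)
    have e : |v i * (G i j * v j)| = |G i j| * (|v i| * |v j|) := by
      simp only [abs_mul]; ring
    rw [e]
    refine mul_le_mul (h i j) ?_ (by positivity) ((abs_nonneg _).trans (h i j))
    nlinarith [sq_nonneg (|v i| - |v j|), abs_mul_abs_self (v i), abs_mul_abs_self (v j)]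
  refine h1.trans (le_of_eq ?_)
  simp only [← Finset.mul_sum, ← Finset.sum_div, Finset.sum_add_distrib, Finset.sum_const,
    Finset.card_univ, Fintype.card_fin, nsmul_eq_mul, dotProduct]
  have e : ∑ x, v x * (n * v x) = n * ∑ x, v x * v x := by
    rw [Finset.mul_sum]; exact Finset.sum_congr rfl fun _ _ => by ring
  rw [e]
  ring

theorem symm_dot {G : Mat n} (hs : G.IsSymm) (v w : Fin n → ℝ) :
    v ⬝ᵥ G *ᵥ w = w ⬝ᵥ G *ᵥ v := by
  rw [dotProduct_mulVec, ← mulVec_transpose, hs.eq, dotProduct_comm]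

theorem quad_expand {G : Mat n} (hs : G.IsSymm) (v w : Fin n → ℝ) (t : ℝ) :
    (w - t • v) ⬝ᵥ G *ᵥ (w - t • v) =
      w ⬝ᵥ G *ᵥ w - 2 * t * (v ⬝ᵥ G *ᵥ w) + t ^ 2 * (v ⬝ᵥ G *ᵥ v) := by
  simp only [mulVec_sub, mulVec_smul, sub_dotProduct, dotProduct_sub, smul_dotProduct,
    dotProduct_smul, smul_eq_mul, symm_dot hs w v]
  ring

theorem psd_nonneg {G : Mat n} (hG : G.PosSemidef) (v : Fin n → ℝ) : 0 ≤ v ⬝ᵥ G *ᵥ v := by
  simpa using hG.dotProduct_mulVec_nonneg v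

theorem entry_le {G : Mat n} {K : ℝ} (hG : G.PosSemidef)
    (h : ∀ v : Fin n → ℝ, v ⬝ᵥ G *ᵥ v ≤ K * (v ⬝ᵥ v)) (i j : Fin n) : |G i j| ≤ K := by
  have hs : G.IsSymm := isHermitian_iff_isSymm.1 hG.1
  have e : ∀ k l : Fin n, (Pi.single k 1 : Fin n → ℝ) ⬝ᵥ G *ᵥ Pi.single l 1 = G k l := by
    intro k l; simp
  have hd : ∀ k, G k k ≤ K := fun k => by simpa using h (Pi.single k 1)
  have h1 := psd_nonneg hG (Pi.single j 1 - (1 : ℝ) • Pi.single i 1)
  have h2 := psd_nonneg hG (Pi.single j 1 - (-1 : ℝ) • Pi.single i 1)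
  rw [quad_expand hs, e, e, e] at h1 h2
  rw [abs_le]
  constructor <;> nlinarith [hd i, hd j]

theorem mulVec_inv {G : Mat n} (hG : G.PosDef) (v : Fin n → ℝ) : G *ᵥ (G⁻¹ *ᵥ v) = v := by
  rw [mulVec_mulVec, mul_nonsing_inv _ hG.det_pos.ne'.isUnit, one_mulVec]

theorem inv_lower {G : Mat n} {K : ℝ} (hG : G.PosDef) (hK : 0 < K)
    (h : ∀ v : Fin n → ℝ, v ⬝ᵥ G *ᵥ v ≤ K * (v ⬝ᵥ v)) (v : Fin n → ℝ) :
    K⁻¹ * (v ⬝ᵥ v) ≤ v ⬝ᵥ G⁻¹ *ᵥ v := by
  have hs : G.IsSymm := isHermitian_iff_isSymm.1 hG.1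
  have h1 := psd_nonneg hG.posSemidef (G⁻¹ *ᵥ v - K⁻¹ • v)
  rw [quad_expand hs, mulVec_inv hG, dotProduct_comm] at h1
  have h2 := mul_le_mul_of_nonneg_left (h v) (sq_nonneg K⁻¹)
  have e : K⁻¹ ^ 2 * (K * (v ⬝ᵥ v)) = K⁻¹ * (v ⬝ᵥ v) := by field_simp
  linarith

theorem inv_upper {G : Mat n} {c : ℝ} (hc : 0 < c) (hs : G.IsSymm)
    (h : ∀ v : Fin n → ℝ, c * (v ⬝ᵥ v) ≤ v ⬝ᵥ G *ᵥ v) (v : Fin n → ℝ) :
    v ⬝ᵥ G⁻¹ *ᵥ v ≤ c⁻¹ * (v ⬝ᵥ v) := by
  have hG := posDef_of_ell hc hs h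
  set w := G⁻¹ *ᵥ v with hw
  have h1 := h w
  rw [hw, mulVec_inv hG, ← hw, dotProduct_comm w v] at h1
  have h2 := dot_self_nonneg (v - c • w)
  simp only [sub_dotProduct, dotProduct_sub, smul_dotProduct, dotProduct_smul, smul_eq_mul,
    dotProduct_comm w v] at h2
  rw [← div_eq_inv_mul, le_div_iff₀ hc]
  nlinarith

theorem Ell.inv_entry {G : E n → Mat n} {c : ℝ} (h : Ell G c) (hc : 0 < c) (x : E n)
    (i j : Fin n) : |(G x)⁻¹ i j| ≤ c⁻¹ :=
  entry_le (h.posDef hc x).inv.posSemidef (inv_upper hc (h x).1 (h x).2) i j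

theorem mul_entry_le {A B : Mat n} {a b : ℝ} (hA : ∀ i j, |A i j| ≤ a) (hB : ∀ i j, |B i j| ≤ b)
    (i j : Fin n) : |(A * B) i j| ≤ n * (a * b) := by
  rw [mul_apply]
  refine (Finset.abs_sum_le_sum_abs _ _).trans ?_
  have h1 : ∀ k ∈ Finset.univ, |A i k * B k j| ≤ a * b := fun k _ => by
    rw [abs_mul]
    exact mul_le_mul (hA i k) (hB k j) (abs_nonneg _) ((abs_nonneg _).trans (hA i k))
  simpa using Finset.sum_le_card_nsmul _ _ _ h1

/-- separate bounds for the size and for the Hölder quotient -/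
def M2 (A : E n → Mat n) (a b : ℝ) : Prop :=
  (∀ x i j, |A x i j| ≤ a) ∧ ∀ x y i j, |A x i j - A y i j| ≤ b * √‖x - y‖

theorem HM.m2 {A : E n → Mat n} {a : ℝ} (h : HM A a) : M2 A a a :=
  ⟨fun x i j => (h i j).1 x, fun x y i j => (h i j).2 x y⟩

theorem M2.mul {A B : E n → Mat n} {a b a' b' : ℝ} (hA : M2 A a b) (hB : M2 B a' b') :
    M2 (fun x => A x * B x) (n * (a * a')) (n * (a * b' + b * a')) := by
  refine ⟨fun x => mul_entry_le (hA.1 x) (hB.1 x), fun x y i j => ?_⟩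
  have e : (A x * B x) i j - (A y * B y) i j =
      (A x * (B x - B y)) i j + ((A x - A y) * B y) i j := by
    simp only [Matrix.mul_sub, Matrix.sub_mul, Matrix.sub_apply]; ring
  show |(A x * B x) i j - (A y * B y) i j| ≤ _
  rw [e]
  have h1 := mul_entry_le (B := B x - B y) (hA.1 x) (hB.2 x y) i j
  have h2 := mul_entry_le (A := A x - A y) (hA.2 x y) (hB.1 y) i j
  linarith [abs_add_le ((A x * (B x - B y)) i j) (((A x - A y) * B y) i j)]

theorem Ell.m2_inv {G : E n → Mat n} {c b : ℝ} (h : Ell G c) (hc : 0 < c)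
    (hb : ∀ x y i j, |G x i j - G y i j| ≤ b * √‖x - y‖) :
    M2 (fun x => (G x)⁻¹) c⁻¹ (n ^ 2 * c⁻¹ ^ 2 * b) := by
  refine ⟨h.inv_entry hc, fun x y i j => ?_⟩
  have e := Matrix.inv_sub_inv (A := G x) (B := G y)
    (iff_of_true (h.posDef hc x).isUnit (h.posDef hc y).isUnit)
  have h1 := mul_entry_le (mul_entry_le (B := G y - G x) (h.inv_entry hc x) (hb y x))
    (h.inv_entry hc y) i j
  rw [← e, norm_sub_rev] at h1
  refine h1.trans (le_of_eq ?_); ring

theorem M2.hm {A : E n → Mat n} {a b : ℝ} (h : M2 A a b) : HM A (max a b) :=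
  fun i j => ⟨fun x => (h.1 x i j).trans (le_max_left _ _), fun x y => (h.2 x y i j).trans
    (mul_le_mul_of_nonneg_right (le_max_right _ _) (Real.sqrt_nonneg _))⟩

theorem Ell.inv {G : E n → Mat n} {c K : ℝ} (h : Ell G c) (hc : 0 < c) (hK : HM G K) :
    ∃ c' K', 0 < c' ∧ Ell (fun x => (G x)⁻¹) c' ∧ HM (fun x => (G x)⁻¹) K' := by
  have h0 : 0 < n * |K| + 1 := by positivity
  refine ⟨(n * |K| + 1)⁻¹, _, by positivity, fun x => ⟨(h x).1.inv, ?_⟩,
    (h.m2_inv hc hK.m2.2).hm⟩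
  refine inv_lower (h.posDef hc x) h0 fun v => ?_
  have h1 := quad_le (fun i j => ((hK i j).1 x).trans (le_abs_self K)) v
  have h2 := le_abs_self (v ⬝ᵥ G x *ᵥ v)
  nlinarith [dot_self_nonneg v]

theorem det_diff {G : E n → Mat n} (hd : ∀ i j, Differentiable ℝ fun x => G x i j) :
    Differentiable ℝ fun x => (G x).det := by
  simp only [det_apply']
  refine Differentiable.fun_sum fun σ _ => Differentiable.const_mul (fun x => ?_) _
  exact (HasFDerivAt.finsetProd fun i _ => (hd (σ i) i x).hasFDerivAt).differentiableAt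

theorem inv_diff {G : E n → Mat n} (hG : ∀ x, (G x).PosDef)
    (hd : ∀ i j, Differentiable ℝ fun x => G x i j) (i j : Fin n) :
    Differentiable ℝ (fun x => (G x)⁻¹ i j) ∧ ∀ a, pd a (fun x => (G x)⁻¹ i j) = fun x =>
      -∑ k, ∑ l, (G x)⁻¹ i k * pd a (fun y => G y k l) x * (G x)⁻¹ l j := by
  have h1 : ∀ i j, Differentiable ℝ (fun x => (G x)⁻¹ i j) := by
    intro i j
    have e : (fun x => (G x)⁻¹ i j) =
        fun x => ((G x).det)⁻¹ * ((G x).updateRow j (Pi.single i 1)).det := by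
      funext x
      rw [inv_def, Matrix.smul_apply, adjugate_apply, Ring.inverse_eq_inv', smul_eq_mul]
    rw [e]
    refine ((det_diff hd).inv fun x => (hG x).det_pos.ne').mul (det_diff fun k l => ?_)
    simp only [updateRow_apply]
    split_ifs
    · exact differentiable_const _
    · exact hd k l
  refine ⟨h1 i j, fun a => ?_⟩
  funext x
  set P : Mat n := Matrix.of fun k l => pd a (fun y => G y k l) x with hP
  set Q : Mat n := Matrix.of fun k l => pd a (fun y => (G y)⁻¹ k l) x with hQ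
  have hu : ∀ y, IsUnit (G y).det := fun y => (hG y).det_pos.ne'.isUnit
  have h2 : P * (G x)⁻¹ + G x * Q = 0 := by
    ext k l
    have e : (fun y => ∑ m, G y k m * (G y)⁻¹ m l) = fun _ => (1 : Mat n) k l := by
      funext y; rw [← mul_apply, mul_nonsing_inv _ (hu y)]
    have h3 := congrFun (pd_sum (i := a) (F := fun m y => G y k m * (G y)⁻¹ m l) Finset.univ
      fun m _ => (hd k m).mul (h1 m l)) x
    rw [e, pd_const] at h3
    simp only [pd_mul (hd _ _) (h1 _ _), Finset.sum_add_distrib] at h3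
    simp only [Matrix.add_apply, mul_apply, hP, hQ, of_apply, Matrix.zero_apply]
    exact h3.symm
  have h3 : Q = -((G x)⁻¹ * P * (G x)⁻¹) := by
    have h4 := congrArg (fun Z => (G x)⁻¹ * Z) h2
    simp only [Matrix.mul_add, ← Matrix.mul_assoc, nonsing_inv_mul _ (hu x), Matrix.one_mul,
      Matrix.mul_zero] at h4
    exact eq_neg_of_add_eq_zero_right h4
  have h4 := congrFun (congrFun h3 i) j
  simp only [hQ, hP, of_apply, Matrix.neg_apply, mul_apply, Finset.sum_mul] at h4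
  rw [h4, Finset.sum_comm]

theorem hasDerivAt_det {A : ℝ → Mat n} {A' : Mat n} {t : ℝ}
    (h : ∀ i j, HasDerivAt (fun s => A s i j) (A' i j) t) :
    HasDerivAt (fun s => (A s).det) (∑ k, ((A t).updateCol k fun i => A' i k).det) t := by
  have h1 := HasDerivAt.fun_sum (u := Finset.univ) fun (σ : Equiv.Perm (Fin n)) _ =>
    (HasDerivAt.fun_finsetProd (u := Finset.univ) fun i _ => h (σ i) i).const_mul
      (((Equiv.Perm.sign σ : ℤˣ) : ℤ) : ℝ)
  simp only [det_apply']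
  refine h1.congr_deriv ?_
  rw [Finset.sum_comm]
  refine Finset.sum_congr rfl fun σ _ => ?_
  rw [Finset.mul_sum]
  refine Finset.sum_congr rfl fun k _ => ?_
  congr 1
  rw [← Finset.mul_prod_erase _ _ (Finset.mem_univ k), updateCol_self, smul_eq_mul, mul_comm]
  congr 1
  refine Finset.prod_congr rfl fun i hi => ?_
  rw [updateCol_ne (Finset.ne_of_mem_erase hi)]

theorem hasDerivAt_logdet {A : ℝ → Mat n} {A' : Mat n} {t : ℝ} (hA : (A t).PosDef)
    (h : ∀ i j, HasDerivAt (fun s => A s i j) (A' i j) t) :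
    HasDerivAt (fun s => Real.log (A s).det) (∑ i, ∑ j, (A t)⁻¹ i j * A' i j) t := by
  have hd := hA.det_pos.ne'
  refine ((hasDerivAt_det h).log hd).congr_deriv ?_
  have hs : (A t)⁻¹.IsSymm := (isHermitian_iff_isSymm.1 hA.1).inv
  rw [div_eq_iff hd, Finset.sum_comm, Finset.sum_mul]
  refine Finset.sum_congr rfl fun k _ => ?_
  rw [← cramer_apply, ← det_smul_inv_mulVec_eq_cramer _ _ hd.isUnit, Pi.smul_apply, smul_eq_mul,
    mul_comm]
  congr 1
  simp only [mulVec, dotProduct]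
  exact Finset.sum_congr rfl fun i _ => by rw [hs.apply]

theorem logdet_diff {G : E n → Mat n} (hG : ∀ x, (G x).PosDef)
    (hd : ∀ i j, Differentiable ℝ fun x => G x i j) :
    Differentiable ℝ (fun x => Real.log (G x).det) ∧ ∀ a, pd a (fun x => Real.log (G x).det) =
      fun x => ∑ i, ∑ j, (G x)⁻¹ i j * pd a (fun y => G y i j) x := by
  have h1 : Differentiable ℝ (fun x => Real.log (G x).det) :=
    (det_diff hd).log fun x => (hG x).det_pos.ne'
  refine ⟨h1, fun a => ?_⟩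
  funext x
  have h2 := hasDerivAt_ee h1 x a 0
  have h3 := hasDerivAt_logdet (A := fun s : ℝ => G (x + s • ee a))
    (A' := Matrix.of fun i j => pd a (fun y => G y i j) (x + (0 : ℝ) • ee a)) (t := 0) (hG _)
    fun i j => hasDerivAt_ee (hd i j) x a 0
  simpa using h2.unique h3

/-- quadratic remainder of the logarithm of the determinant -/
noncomputable def Nf (G T : Mat n) : ℝ :=
  Real.log (G - T).det - Real.log G.det + ∑ i, ∑ j, G⁻¹ i j * T i j

theorem hasDerivAt_Nf {G T D : Mat n} {t : ℝ} (hG : G.PosDef) (hT : (G - (T + t • D)).PosDef) :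
    HasDerivAt (fun s : ℝ => Nf G (T + s • D))
      (-∑ i, ∑ j, (G⁻¹ * (T + t • D) * (G - (T + t • D))⁻¹) i j * D i j) t := by
  have h0 : ∀ i j, HasDerivAt (fun s : ℝ => (T + s • D) i j) (D i j) t := by
    intro i j
    have := ((hasDerivAt_id t).mul_const (D i j)).const_add (T i j)
    rw [one_mul] at this
    exact this
  have h1 := hasDerivAt_logdet (A := fun s : ℝ => G - (T + s • D)) (A' := -D) (t := t) hT
    fun i j => (h0 i j).const_sub (G i j)
  have h2 := HasDerivAt.fun_sum (u := Finset.univ) fun i _ =>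
    HasDerivAt.fun_sum (u := Finset.univ) fun j _ => (h0 i j).const_mul (G⁻¹ i j)
  refine ((h1.sub_const (Real.log G.det)).add h2).congr_deriv ?_
  have e := Matrix.inv_sub_inv (A := G) (B := G - (T + t • D)) (iff_of_true hG.isUnit hT.isUnit)
  rw [sub_sub_cancel_left, Matrix.mul_neg, Matrix.neg_mul] at e
  rw [← neg_neg (G⁻¹ * (T + t • D) * (G - (T + t • D))⁻¹), ← e]
  simp only [Matrix.neg_apply, Matrix.sub_apply, neg_mul, mul_neg, Finset.sum_neg_distrib, neg_neg,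
    sub_mul, Finset.sum_sub_distrib]
  ring

theorem mvt01' {φ φ' : ℝ → ℝ} {C : ℝ} (h : ∀ t, 0 ≤ t → t ≤ 1 → HasDerivAt φ (φ' t) t)
    (hb : ∀ t, 0 ≤ t → t ≤ 1 → |φ' t| ≤ C) : |φ 1 - φ 0| ≤ C :=
  norm_image_sub_le_of_norm_deriv_le_segment_01' (fun t ht => (h t ht.1 ht.2).hasDerivWithinAt)
    fun t ht => hb t ht.1 ht.2.le

theorem abs_sum_sum_le {F : Fin n → Fin n → ℝ} {b : ℝ} (h : ∀ i j, |F i j| ≤ b) :
    |∑ i, ∑ j, F i j| ≤ n ^ 2 * b := by
  refine (Finset.abs_sum_le_sum_abs _ _).trans ?_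
  have h1 : ∀ i ∈ Finset.univ, |∑ j, F i j| ≤ n * b := fun i _ =>
    (Finset.abs_sum_le_sum_abs _ _).trans
      (by simpa using Finset.sum_le_card_nsmul _ _ _ fun j (_ : j ∈ Finset.univ) => h i j)
  refine (Finset.sum_le_card_nsmul _ _ _ h1).trans (le_of_eq ?_)
  simp only [Finset.card_univ, Fintype.card_fin, nsmul_eq_mul]; ring

theorem abs_convex_le {p q t b : ℝ} (h0 : 0 ≤ t) (h1 : t ≤ 1) (hp : |p| ≤ b) (hq : |q| ≤ b) :
    |q + t * (p - q)| ≤ b := by
  rw [abs_le] at hp hq ⊢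
  constructor <;> nlinarith [hp.1, hp.2, hq.1, hq.2]

theorem Nf_est {c K : ℝ} (hc : 0 < c) (hK : 0 ≤ K) : ∃ r0 C : ℝ, 0 < r0 ∧ 0 < C ∧
    ∀ G : E n → Mat n, Ell G c → HM G K →
      (∀ T : E n → Mat n, (∀ x, (T x).IsSymm) → (∀ x i j, |T x i j| ≤ r0) →
        Ell (fun x => G x - T x) (c / 2)) ∧
      (∀ x, ContinuousOn (fun T : Mat n => Nf (G x) T) {T | T.IsSymm ∧ ∀ i j, |T i j| ≤ r0}) ∧
      ∀ (T T' : E n → Mat n) (r ρ s0 s : ℝ), 0 ≤ r → r ≤ r0 → 0 ≤ ρ → 0 ≤ s0 → 0 ≤ s →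
        (∀ x, (T x).IsSymm) → (∀ x, (T' x).IsSymm) →
        (∀ x i j, |T x i j| ≤ r) → (∀ x i j, |T' x i j| ≤ r) → HM T ρ → HM T' ρ →
        (∀ x i j, |T x i j - T' x i j| ≤ s0) → HM (fun x => T x - T' x) s →
        Hn (fun x => Nf (G x) (T x) - Nf (G x) (T' x)) (C * (r * s + ρ * s0)) := by
  set α : ℝ := (c / 2)⁻¹ with hα
  have hα0 : 0 < α := by positivity
  set A : ℝ := n ^ 2 * α ^ 2 with hA
  set B : ℝ := 2 * n ^ 4 * α ^ 3 * K + n ^ 4 * α ^ 3 + n ^ 2 * α ^ 2 with hB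
  have hA0 : 0 ≤ A := by positivity
  have hB0 : 0 ≤ B := by positivity
  set r0 : ℝ := min 1 (c / (2 * (n + 1))) with hr0
  have hr01 : r0 ≤ 1 := min_le_left _ _
  have hr0c : n * r0 ≤ c / 2 := by
    have h1 : r0 ≤ c / (2 * (n + 1)) := min_le_right _ _
    rw [le_div_iff₀ (by positivity)] at h1
    have h2 : 0 ≤ r0 := by positivity
    nlinarith
  refine ⟨r0, n ^ 2 * (A + B) + 1, by positivity, by positivity, fun G hG hGK => ?_⟩
  have part1 : ∀ T : E n → Mat n, (∀ x, (T x).IsSymm) → (∀ x i j, |T x i j| ≤ r0) →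
      Ell (fun x => G x - T x) (c / 2) := by
    intro T hs hT x
    refine ⟨(hG x).1.sub (hs x), fun v => ?_⟩
    have h1 := (hG x).2 v
    have h2 := (le_abs_self _).trans (quad_le (hT x) v)
    have h3 := mul_le_mul_of_nonneg_right hr0c (dot_self_nonneg v)
    simp only [sub_mulVec, dotProduct_sub]
    linarith
  have hc2 : 0 < c / 2 := by positivity
  refine ⟨part1, fun x => ?_, ?_⟩
  · unfold Nf
    refine ContinuousOn.add (ContinuousOn.sub ?_ continuousOn_const) (by fun_prop)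
    refine ContinuousOn.log (continuous_const.sub continuous_id).matrix_det.continuousOn ?_
    intro T hT
    exact ((part1 (fun _ => T) (fun _ => hT.1) fun _ => hT.2).posDef hc2 x).det_pos.ne'
  intro T T' r ρ s0 s hr hrr hρ hs0 hs hTs hTs' hTr hTr' hTρ hTρ' hD0 hD
  have hG2 : Ell G (c / 2) := fun x => ⟨(hG x).1, fun v => by
    nlinarith [(hG x).2 v, dot_self_nonneg v]⟩
  set D : E n → Mat n := fun x => T x - T' x with hDdef
  set S : ℝ → E n → Mat n := fun t x => T' x + t • D x with hS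
  have hSs : ∀ t x, (S t x).IsSymm := fun t x => (hTs' x).add (((hTs x).sub (hTs' x)).smul t)
  have hS2 : ∀ t, 0 ≤ t → t ≤ 1 → M2 (S t) r ρ := by
    intro t h0 h1
    refine ⟨fun x i j => abs_convex_le h0 h1 (hTr x i j) (hTr' x i j), fun x y i j => ?_⟩
    have := abs_convex_le h0 h1 ((hTρ i j).2 x y) ((hTρ' i j).2 x y)
    refine le_of_eq_of_le ?_ this
    simp only [hS, hDdef, Matrix.add_apply, Matrix.smul_apply, Matrix.sub_apply, smul_eq_mul]
    congr 1; ring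
  have hE : ∀ t, 0 ≤ t → t ≤ 1 → Ell (fun x => G x - S t x) (c / 2) := fun t h0 h1 =>
    part1 _ (hSs t) fun x i j => ((hS2 t h0 h1).1 x i j).trans hrr
  set P : ℝ → E n → Mat n := fun t x => (G x)⁻¹ * S t x * (G x - S t x)⁻¹ with hP
  have hP2 : ∀ t, 0 ≤ t → t ≤ 1 → M2 (P t) (A * r) (B * (r + ρ)) := by
    intro t h0 h1
    have h2 := ((hG2.m2_inv hc2 hGK.m2.2).mul (hS2 t h0 h1)).mul
      ((hE t h0 h1).m2_inv (b := K + ρ) hc2 fun x y i j => by
        have h3 := (hGK i j).2 x y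
        have h4 := (hS2 t h0 h1).2 x y i j
        have h5 := abs_sub (G x i j - G y i j) (S t x i j - S t y i j)
        have e : (G x - S t x) i j - (G y - S t y) i j =
            G x i j - G y i j - (S t x i j - S t y i j) := by
          simp only [Matrix.sub_apply]; ring
        show |(G x - S t x) i j - (G y - S t y) i j| ≤ _
        rw [e]; linarith)
    rw [← hα] at h2
    refine ⟨fun x i j => (h2.1 x i j).trans (le_of_eq (by rw [hA]; ring)), fun x y i j =>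
      (h2.2 x y i j).trans (mul_le_mul_of_nonneg_right ?_ (Real.sqrt_nonneg _))⟩
    have h3 : 0 ≤ (n : ℝ) ^ 4 * α ^ 3 := by positivity
    have h4 : r * ρ ≤ ρ := mul_le_of_le_one_left hρ (hrr.trans hr01)
    have h5 := mul_le_mul_of_nonneg_left h4 h3
    have h6 : 0 ≤ (n : ℝ) ^ 4 * α ^ 3 * K * ρ := by positivity
    have h7 : 0 ≤ (n : ℝ) ^ 4 * α ^ 3 * r := by positivity
    have h8 : 0 ≤ (n : ℝ) ^ 2 * α ^ 2 * r := by positivity
    rw [hB]; nlinarith
  have hder : ∀ x t, 0 ≤ t → t ≤ 1 →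
      HasDerivAt (fun t : ℝ => Nf (G x) (S t x)) (-∑ i, ∑ j, P t x i j * D x i j) t :=
    fun x t h0 h1 => hasDerivAt_Nf (hG.posDef hc x) ((hE t h0 h1).posDef hc2 x)
  have e1 : ∀ x, S 1 x = T x := fun x => by simp [hS, hDdef]
  have e0 : ∀ x, S 0 x = T' x := fun x => by simp [hS]
  have hrs : 0 ≤ r * s := by positivity
  have hρs : 0 ≤ ρ * s0 := by positivity
  have hn2 : (0 : ℝ) ≤ n ^ 2 := by positivity
  refine ⟨fun x => ?_, fun x y => ?_⟩
  · have h1 := mvt01' (hder x) (C := n ^ 2 * (A * r * s)) fun t h0 h1 => by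
      rw [abs_neg]
      refine abs_sum_sum_le fun i j => ?_
      rw [abs_mul]
      exact mul_le_mul ((hP2 t h0 h1).1 x i j) ((hD i j).1 x) (abs_nonneg _) (by positivity)
    rw [e1, e0] at h1
    refine h1.trans ?_
    have h2 : A * r * s ≤ (A + B) * (r * s + ρ * s0) := by nlinarith
    nlinarith [mul_le_mul_of_nonneg_left h2 hn2]
  · have hq := Real.sqrt_nonneg ‖x - y‖
    have h1 := mvt01' (fun t h0 h1 => (hder x t h0 h1).sub (hder y t h0 h1))
      (C := n ^ 2 * ((A + B) * (r * s + ρ * s0) * √‖x - y‖)) fun t h0 h1 => by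
      rw [neg_sub_neg, abs_sub_comm, ← Finset.sum_sub_distrib]
      simp only [← Finset.sum_sub_distrib]
      refine abs_sum_sum_le fun i j => ?_
      have e : P t x i j * D x i j - P t y i j * D y i j =
          P t x i j * (D x i j - D y i j) + (P t x i j - P t y i j) * D y i j := by ring
      rw [e]
      refine (abs_add_le _ _).trans ?_
      rw [abs_mul, abs_mul]
      have h2 := mul_le_mul ((hP2 t h0 h1).1 x i j) ((hD i j).2 x y) (abs_nonneg _)
        (by positivity)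
      have h3 := mul_le_mul_of_nonneg_right ((hP2 t h0 h1).2 x y i j) (abs_nonneg (D y i j))
      have h4 : (r + ρ) * |D y i j| ≤ r * s + ρ * s0 := by
        have h5 := mul_le_mul_of_nonneg_left ((hD i j).1 y) hr
        have h6 := mul_le_mul_of_nonneg_left (hD0 y i j) hρ
        have e' : D y i j = T y i j - T' y i j := rfl
        rw [← e'] at h6
        linarith
      have h5 := mul_le_mul_of_nonneg_left h4 (mul_nonneg hB0 hq)
      have h6 : 0 ≤ A * (ρ * s0) * √‖x - y‖ := by positivity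
      nlinarith
    simp only [Pi.sub_apply, e1, e0] at h1
    have e : Nf (G x) (T x) - Nf (G x) (T' x) - (Nf (G y) (T y) - Nf (G y) (T' y)) =
        Nf (G x) (T x) - Nf (G y) (T y) - (Nf (G x) (T' x) - Nf (G y) (T' y)) := by ring
    show |Nf (G x) (T x) - Nf (G x) (T' x) - (Nf (G y) (T y) - Nf (G y) (T' y))| ≤ _
    rw [e]
    refine h1.trans ?_
    have h2 : 0 ≤ (r * s + ρ * s0) * √‖x - y‖ := by positivity
    nlinarith

end Vale.Agent.P227
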