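import Vale.Agent.P227.Step

/-! The covariance path along the flow of the drift and the basic comparison lemma. -/

namespace Vale.Agent.P227

open Matrix MeasureTheory Filter Topology Set

variable {n : ℕ} {A : E n → Mat n} {w : E n → ℝ} {c K κ M ρ r : ℝ} {z : E n}

noncomputable def sc (ρ : ℝ) : ℝ := √(1 + ρ ^ 4)

lemma one_le_sc (ρ : ℝ) : 1 ≤ sc ρ := Real.one_le_sqrt.2 (by nlinarith [sq_nonneg (ρ ^ 2)])

lemma sc_pos (ρ : ℝ) : 0 < sc ρ := one_pos.trans_le (one_le_sc ρ)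

lemma sc_sq (ρ : ℝ) : sc ρ ^ 2 = 1 + ρ ^ 4 := Real.sq_sqrt (by positivity)

lemma sc_zero : sc 0 = 1 := by simp [sc]

@[fun_prop] lemma continuous_sc : Continuous sc := by unfold sc; fun_prop

lemma sc_deriv (ρ : ℝ) : HasDerivAt sc (2 * ρ ^ 3 / sc ρ) ρ := by
  refine (((hasDerivAt_pow 4 ρ).const_add 1).sqrt (by positivity)).congr_deriv ?_
  have := sc_pos ρ
  simp only [sc] at this ⊢
  field_simp
  norm_num

noncomputable def Sg (A : E n → Mat n) (z : E n) (ρ : ℝ) : Mat n :=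
  Matrix.of fun i j => ∫ r in (0 : ℝ)..ρ, 2 * (2 * r ^ 3) * A ((sc r)⁻¹ • z) i j

lemma Sg_zero : Sg A z 0 = 0 := by ext i j; simp [Sg]

lemma Sg_deriv (hK : HM A K) (z : E n) (ρ : ℝ) (i j : Fin n) :
    HasDerivAt (fun r => Sg A z r i j) (2 * (2 * ρ ^ 3) * A ((sc ρ)⁻¹ • z) i j) ρ := by
  have h := (hK i j).continuous
  have h2 : Continuous fun r => (sc r)⁻¹ := continuous_sc.inv₀ fun r => (sc_pos r).ne'
  exact (Continuous.integral_hasStrictDerivAt (by fun_prop) 0 ρ).hasDerivAt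

lemma quad_deriv (hK : HM A K) (z : E n) (v : Fin n → ℝ) (ρ : ℝ) :
    HasDerivAt (fun r => v ⬝ᵥ Sg A z r *ᵥ v) (4 * ρ ^ 3 * (v ⬝ᵥ A ((sc ρ)⁻¹ • z) *ᵥ v)) ρ := by
  simp only [dotProduct, mulVec]
  refine (HasDerivAt.fun_sum fun i _ => (HasDerivAt.fun_sum fun j _ =>
    (Sg_deriv hK z ρ i j).mul_const (v j)).const_mul (v i)).congr_deriv ?_
  simp only [Finset.mul_sum]
  exact Finset.sum_congr rfl fun i _ => Finset.sum_congr rfl fun j _ => by ring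

lemma mono_aux {f f' : ℝ → ℝ} (h : ∀ x, HasDerivAt f (f' x) x) (h0 : ∀ x, 0 ≤ x → 0 ≤ f' x)
    (hρ : 0 ≤ ρ) (hr : ρ ≤ r) : f ρ ≤ f r :=
  monotoneOn_of_hasDerivWithinAt_nonneg (convex_Ici 0) (fun x _ => (h x).continuousAt.continuousWithinAt)
    (fun x _ => (h x).hasDerivWithinAt) (fun x hx => h0 x (interior_subset hx)) hρ (hρ.trans hr) hr

lemma Sg_lower (hA : Ell A c) (hK : HM A K) (z : E n) (hρ : 0 ≤ ρ) (hr : ρ ≤ r) (v : Fin n → ℝ) :
    c * (r ^ 4 - ρ ^ 4) * (v ⬝ᵥ v) ≤ v ⬝ᵥ (Sg A z r - Sg A z ρ) *ᵥ v := by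
  have := mono_aux (fun x => (quad_deriv hK z v x).fun_sub
    ((hasDerivAt_pow 4 x).mul_const (c * (v ⬝ᵥ v)))) (fun x hx => by
      have := mul_le_mul_of_nonneg_left ((hA ((sc x)⁻¹ • z)).2 v) (pow_nonneg hx 3)
      norm_num
      linarith) hρ hr
  rw [sub_mulVec, dotProduct_sub]
  linarith

lemma dot_nonneg (v : Fin n → ℝ) : 0 ≤ v ⬝ᵥ v := Finset.sum_nonneg fun _ _ => mul_self_nonneg _

lemma Sg_upper (hK : HM A K) (z : E n) (hr : 0 ≤ r) (v : Fin n → ℝ) :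
    v ⬝ᵥ Sg A z r *ᵥ v ≤ ((1 + n * K) * r ^ 2) ^ 2 * (v ⬝ᵥ v) := by
  have := mono_aux (fun x => ((hasDerivAt_pow 4 x).mul_const (n * K * (v ⬝ᵥ v))).fun_sub
    (quad_deriv hK z v x)) (fun x hx => by
      have := mul_le_mul_of_nonneg_left ((le_abs_self _).trans
        (quad_le (fun i j => (hK i j).1 ((sc x)⁻¹ • z)) v)) (pow_nonneg hx 3)
      norm_num
      linarith) le_rfl hr
  have h := dot_nonneg v
  have h2 : n * K ≤ (1 + n * K) ^ 2 := by nlinarith [sq_nonneg (n * K + 1 / 2)]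
  have h3 := mul_le_mul_of_nonneg_right h2 (mul_nonneg (pow_nonneg hr 4) h)
  simp only [Sg_zero, zero_mulVec, dotProduct_zero] at this
  nlinarith

lemma Sg_psd (hc : 0 < c) (hA : Ell A c) (hK : HM A K) (z : E n) (hρ : 0 ≤ ρ) (hr : ρ ≤ r) :
    (Sg A z r - Sg A z ρ).PosSemidef := by
  refine PosSemidef.of_dotProduct_mulVec_nonneg ?_ fun v => le_trans ?_ (Sg_lower hA hK z hρ hr v)
  · ext i j
    simp [Sg, fun x => ((hA x).1.apply i j)]
  · exact mul_nonneg (mul_nonneg hc.le (sub_nonneg.2 (by gcongr))) (dot_nonneg v)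

lemma Sg_psd0 (hc : 0 < c) (hA : Ell A c) (hK : HM A K) (z : E n) (hr : 0 ≤ r) :
    (Sg A z r).PosSemidef := by simpa [Sg_zero] using Sg_psd hc hA hK z le_rfl hr

lemma Sg_lower0 (hc : 0 < c) (hA : Ell A c) (hK : HM A K) (z : E n) (hr : 0 ≤ r) (v : Fin n → ℝ) :
    (√c * r ^ 2) ^ 2 * (v ⬝ᵥ v) ≤ v ⬝ᵥ Sg A z r *ᵥ v := by
  have := Sg_lower hA hK z le_rfl hr v
  rw [mul_pow, Real.sq_sqrt hc.le, ← pow_mul]
  simpa [Sg_zero] using this

/-- Gaussian average along the path -/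
noncomputable def PP (A : E n → Mat n) (z : E n) (F : E n → ℝ) (ρ : ℝ) : E n → ℝ :=
  Ps F (Sg A z ρ) (sc ρ)

lemma PP_cont (hc : 0 < c) (hA : Ell A c) (hK : HM A K) (z x : E n) {F : E n → ℝ}
    (hF : Continuous F) (hp : PG F) (κ : ℝ) :
    ContinuousOn (fun ρ => sc ρ ^ κ * PP A z F ρ x) (Ici 0) := by
  refine (continuous_sc.rpow_const fun r => Or.inl (sc_pos r).ne').continuousOn.mul ?_
  rw [continuousOn_iff_continuous_domRestrict]
  exact continuous_Ps (X := Ici (0 : ℝ)) hF hp (fun r => Sg_psd0 hc hA hK z r.2)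
    (continuous_matrix fun i j => (continuous_iff_continuousAt.2 fun r =>
      (Sg_deriv hK z r i j).continuousAt).comp continuous_subtype_val)
    (fun r => one_le_sc r) (by fun_prop) continuous_const

/-- the averaged Hessian -/
noncomputable def tau (A : E n → Mat n) (z : E n) (κ : ℝ) (w : E n → ℝ) (i j : Fin n) (x : E n)
    (ρ : ℝ) : ℝ := sc ρ ^ (κ - 2) * PP A z (fun y => hs w y i j) ρ x

lemma tau_zero (i j : Fin n) (x : E n) : tau A z κ w i j x 0 = hs w x i j := by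
  simp [tau, PP, Ps, Sg_zero, sc_zero, sq]

/-- the derivative of the averaged second difference -/
noncomputable def dE (A : E n → Mat n) (z : E n) (κ : ℝ) (w : E n → ℝ) (i j : Fin n) (x : E n)
    (t ρ : ℝ) : ℝ := 2 * ρ ^ 3 * sc ρ ^ (κ - 2) *
  d2 (PP A z (Lop (fun _ => A ((sc ρ)⁻¹ • z)) κ w) ρ) x (t • ee i) (t • ee j)

lemma rpow_sc_le (hκ : κ ≤ 1) (ρ : ℝ) : sc ρ ^ (κ - 2) ≤ (sc ρ)⁻¹ := by
  rw [← Real.rpow_neg_one]
  exact Real.rpow_le_rpow_of_exponent_le (one_le_sc ρ) (by linarith)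

lemma rpow_sc_le' (hκ : κ ≤ 1) (ρ : ℝ) : sc ρ ^ (κ - 2) ≤ 1 :=
  (rpow_sc_le hκ ρ).trans (inv_le_one_of_one_le₀ (one_le_sc ρ))

lemma eta_tau (hκ : κ ≤ 1) (hw : C2 w) (hM : HM (hs w) M) (i j : Fin n) (x : E n) {t : ℝ}
    (ht : 0 ≤ t) (ρ : ℝ) : |sc ρ ^ κ * d2 (PP A z w ρ) x (t • ee i) (t • ee j)
      - t ^ 2 * tau A z κ w i j x ρ| ≤ 2 * n ^ 2 * M * t ^ 2 * √t := by
  have hp := sc_pos ρ
  have hi := inv_pos.2 hp
  have hM0 := (hM i j).nonneg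
  have hc := hw.1.continuous
  have k := Ps_abs_le (fun y => d2_taylor hw hM y i j (mul_nonneg hi.le ht)) (Sg A z ρ) (sc ρ) x
  have I := HI_Ps hc (hw.pg hM) (Sg A z ρ) (sc ρ)
  have e : ∀ u y, (sc ρ)⁻¹ • (x + sq (Sg A z ρ) y) + ((sc ρ)⁻¹ * t) • u
      = (sc ρ)⁻¹ • (x + t • u + sq (Sg A z ρ) y) := fun u y => by module
  have e2 : ∀ y, (sc ρ)⁻¹ • (x + t • ee i + sq (Sg A z ρ) y) + ((sc ρ)⁻¹ * t) • ee j
      = (sc ρ)⁻¹ • (x + t • ee i + t • ee j + sq (Sg A z ρ) y) := fun y => by module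
  simp only [Ps, d2, e, e2] at k
  rw [(((((I _).sub (I _)).sub (I _)).add (I _)).sub ((HI_Ps (hM i j).continuous
    (PG.of_bdd (hM i j).1) (Sg A z ρ) (sc ρ) x).const_mul _)).2] at k
  have e3 : sc ρ ^ κ = sc ρ ^ (κ - 2) * sc ρ ^ 2 := by
    rw [Real.rpow_sub hp, Real.rpow_two]; field_simp
  have k2 := amul (le_refl |sc ρ ^ κ|) k
  rw [abs_of_pos (Real.rpow_pos_of_pos hp κ), e3] at k2
  refine le_trans (le_of_eq (congrArg _ ?_)) (k2.trans ?_)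
  · simp only [tau, PP, d2, e3]
    field_simp
  · have h1 := rpow_sc_le' hκ ρ
    have h2 : √((sc ρ)⁻¹ * t) ≤ √t := Real.sqrt_le_sqrt
      (mul_le_of_le_one_left ht (inv_le_one_of_one_le₀ (one_le_sc ρ)))
    calc _ = sc ρ ^ (κ - 2) * (2 * n ^ 2 * M * t ^ 2 * √((sc ρ)⁻¹ * t)) := by field_simp
      _ ≤ 1 * (2 * n ^ 2 * M * t ^ 2 * √t) := by gcongr
      _ = _ := one_mul _

lemma fence (hc : 0 < c) (hA : Ell A c) (hK : HM A K) (hκ : κ ≤ 1) (hw : C2 w) (hM : HM (hs w) M)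
    (z x1 x2 : E n) (e : ℝ) (i j : Fin n) {a b t0 : ℝ} (ha : 0 ≤ a) (hab : a ≤ b) (ht0 : 0 < t0)
    {B B' : ℝ → ℝ} (hB : ∀ ρ ∈ Icc a b, HasDerivAt B (B' ρ) ρ)
    (h : ∀ t, 0 < t → t ≤ t0 → ∀ ρ ∈ Ico a b,
      |dE A z κ w i j x1 t ρ - e * dE A z κ w i j x2 t ρ| ≤ t ^ 2 * B' ρ) :
    |(tau A z κ w i j x1 b - e * tau A z κ w i j x2 b)
      - (tau A z κ w i j x1 a - e * tau A z κ w i j x2 a)| ≤ B b - B a := by
  have hM0 := (hM i j).nonneg
  set η : E n → ℝ → ℝ → ℝ := fun x t ρ => sc ρ ^ κ * d2 (PP A z w ρ) x (t • ee i) (t • ee j)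
    with hη
  have cη : ∀ x t, ContinuousOn (η x t) (Icc a b) := fun x t => by
    have := fun x => (PP_cont hc hA hK z x hw.1.continuous (hw.pg hM) κ).mono
      (show Icc a b ⊆ Ici 0 from fun r hr => ha.trans hr.1)
    simp only [hη, d2, mul_add, mul_sub]
    exact (((this _).sub (this _)).sub (this _)).add (this _)
  have dη : ∀ x t, ∀ ρ ∈ Ico a b, HasDerivWithinAt (η x t) (dE A z κ w i j x t ρ) (Ici ρ) ρ :=
    fun x t ρ hρ => by
      have := fun x => hasDeriv_eta hw hM hM0 κ x (Sg_psd0 hc hA hK z (ha.trans hρ.1))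
        (fun r hr => Sg_psd hc hA hK z (ha.trans hρ.1) hr) (fun r _ => one_le_sc r)
        (sc_deriv ρ).hasDerivWithinAt fun i j => (Sg_deriv hK z ρ i j).hasDerivWithinAt
      simp only [hη, dE, d2, mul_add, mul_sub]
      exact (((this _).fun_sub (this _)).fun_sub (this _)).fun_add (this _)
  have lim : Tendsto (fun t : ℝ => B b - B a + 4 * (1 + |e|) * n ^ 2 * M * √t) (𝓝[>] 0)
      (𝓝 (B b - B a)) := by
    have : Continuous fun t : ℝ => B b - B a + 4 * (1 + |e|) * n ^ 2 * M * √t := by fun_prop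
    simpa using (this.tendsto 0).mono_left nhdsWithin_le_nhds
  refine ge_of_tendsto lim ?_
  filter_upwards [Ioc_mem_nhdsGT ht0] with t ht
  have k := image_norm_le_of_norm_deriv_right_le_deriv_boundary'
    (f := fun ρ => η x1 t ρ - e * η x2 t ρ - (η x1 t a - e * η x2 t a))
    (B := fun ρ => t ^ 2 * (B ρ - B a))
    (((cη x1 t).sub (continuousOn_const.mul (cη x2 t))).sub continuousOn_const)
    (fun ρ hρ => ((dη x1 t ρ hρ).fun_sub ((dη x2 t ρ hρ).const_mul e)).sub_const _) (by simp)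
    (fun ρ hρ => (((hB ρ hρ).sub_const _).const_mul _).continuousAt.continuousWithinAt)
    (fun ρ hρ => (((hB ρ (Ico_subset_Icc_self hρ)).sub_const _).const_mul _).hasDerivWithinAt)
    (h t ht.1 ht.2) (right_mem_Icc.2 hab)
  have q := fun x ρ => eta_tau (A := A) (z := z) hκ hw hM i j x ht.1.le ρ
  have k2 := aadd (aadd k (aadd (amul (le_refl |(-1 : ℝ)|) (q x1 b)) (amul (le_refl |e|) (q x2 b))))
    (aadd (q x1 a) (amul (le_refl |(-e)|) (q x2 a)))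
  have t2 := pow_pos ht.1 2
  refine le_of_mul_le_mul_left ?_ t2
  rw [← abs_of_pos t2, ← abs_mul, abs_of_pos t2]
  refine le_trans (le_of_eq (congrArg _ ?_)) (k2.trans (le_of_eq ?_))
  · simp only [hη]; ring
  · simp only [abs_neg, abs_one]; ring

end Vale.Agent.P227
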