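import Vale.Agent.P227.Base
import Vale.Agent.P227.Est

/-! Schauder estimates. -/

namespace Vale.Agent.P227

open Matrix Filter Topology Set

variable {n : ℕ}

section
variable {A : E n → Mat n} {w : E n → ℝ} {c K κ M M0 N : ℝ}

lemma lim0 {f : ℝ → ℝ} {b C : ℝ} (hf : ContinuousOn f (Ici 0)) (hb : 0 < b)
    (h : ∀ a, 0 < a → a ≤ b → |f a| ≤ C) : |f 0| ≤ C := by
  refine le_of_tendsto ((hf 0 self_mem_Ici).mono Ioi_subset_Ici_self).tendsto.abs ?_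
  filter_upwards [Ioc_mem_nhdsGT hb] with a ha using h a ha.1 ha.2

lemma tau_cont (hc : 0 < c) (hA : Ell A c) (hK : HM A K) (hM : HM (hs w) M) (z x : E n)
    (i j : Fin n) : ContinuousOn (tau A z κ w i j x) (Ici 0) :=
  PP_cont hc hA hK z x (hM i j).continuous (PG.of_bdd (hM i j).1) _

lemma sup_est (hc : 0 < c) (hA : Ell A c) (hK : HM A K) (hκ : κ ≤ 1) (hw : C2 w)
    (hM : HM (hs w) M) (hg : Yn (Lop A κ w) N) (h0 : ∀ x i j, |hs w x i j| ≤ M0) (z : E n)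
    {b Λ : ℝ} (hb : 0 < b) (hΛ0 : 0 ≤ Λ) (hΛ : ∀ ρ, 0 ≤ ρ → ρ ≤ b → ∀ h i j,
      |A ((sc ρ)⁻¹ • z + h) i j - A ((sc ρ)⁻¹ • z) i j| ≤ Λ * md ‖h‖) (i j : Fin n) :
    |hs w z i j| ≤ sc b ^ (κ - 2) * M0
      + 3 * (8 * Ic n * (1 + n * K) ^ 2 / c + 2) * (N + n ^ 2 * (Λ * M0)) * (b / (1 + b)) := by
  obtain ⟨hN, g1, g2, he, hg, c2, p2, h2⟩ := hg
  have hM0 : 0 ≤ M0 := (abs_nonneg _).trans (h0 z i j)
  have hI := one_le_Ic (n := n)
  set Q := N + n ^ 2 * (Λ * M0) with hQ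
  set C := 3 * (8 * Ic n * (1 + n * K) ^ 2 / c + 2) * Q with hC
  have hC0 : 0 ≤ C := by positivity
  rw [← tau_zero (A := A) (z := z) (κ := κ)]
  refine lim0 (tau_cont hc hA hK hM z z i j) hb fun a ha hab => ?_
  have k := fence hc hA hK hκ hw hM z z z 0 i j ha.le hab (t0 := √c * a ^ 2) (by positivity)
    (B := fun ρ => -C * (1 + ρ)⁻¹) (B' := fun ρ => C / (1 + ρ) ^ 2) (fun ρ hρ => by
      refine ((((hasDerivAt_id ρ).const_add 1).fun_inv (by
        simp only [id]; linarith [hρ.1])).const_mul (-C)).congr_deriv ?_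
      simp only [id]; ring) fun t ht ht' ρ hρ => by
    have hρ0 := ha.trans_le hρ.1
    rw [zero_mul, sub_zero]
    refine (est2 hc hA hK hM he hg c2 p2 h2 hN (Q := Q) (le_add_of_nonneg_right (by positivity))
      i j hρ0 ht.le (ht'.trans (by gcongr; exact hρ.1)) fun h => by
        simpa using F1_loc (L := 0) hM hg h0 (hΛ ρ hρ0.le hρ.2.le) (fun _ _ => by simp) h).trans ?_
    have e : sc ρ ^ (κ - 2) ≤ 3 / (1 + ρ) ^ 2 := by
      refine (rpow_sc_le hκ ρ).trans ?_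
      rw [inv_eq_one_div, div_le_div_iff₀ (sc_pos ρ) (by positivity)]
      refine (sq_le_sq₀ (by positivity) (by linarith [sc_pos ρ])).1 ?_
      rw [mul_pow 3, sc_sq]
      nlinarith [sq_nonneg (ρ ^ 2 - 1), sq_nonneg (ρ - 1), sq_nonneg (ρ ^ 2 - ρ)]
    calc _ ≤ t ^ 2 * ((8 * Ic n * (1 + n * K) ^ 2 / c + 2) * Q * (3 / (1 + ρ) ^ 2)) := by gcongr
      _ = _ := by rw [hC]; ring
  have k2 : |tau A z κ w i j z b| ≤ sc b ^ (κ - 2) * M0 :=
    amul (abs_of_pos (Real.rpow_pos_of_pos (sc_pos b) _)).le (Ps_abs_le (fun y => h0 y i j) _ _ _)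
  have k3 : C * (1 + a)⁻¹ ≤ C := mul_le_of_le_one_right hC0 (inv_le_one_of_one_le₀ (by linarith))
  have k4 : C * (b / (1 + b)) = C - C * (1 + b)⁻¹ := by field_simp; ring
  simp only [zero_mul, sub_zero] at k
  rw [abs_le] at k k2 ⊢
  constructor <;> linarith [k.1, k.2, k2.1, k2.2]

lemma hol_est (n : ℕ) (hc : 0 < c) (hK0 : 0 ≤ K) : ∃ C : ℝ, 0 < C ∧
    ∀ (A : E n → Mat n) (w : E n → ℝ) (κ N M M0 ε : ℝ) (z d : E n), Ell A c → HM A K → κ ≤ 1 →
      C2 w → HM (hs w) M → Yn (Lop A κ w) N → (∀ x i j, |hs w x i j| ≤ M0) → 0 < ε → ε ≤ 1 →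
      ‖d‖ = √c * ε ^ 2 → ∀ i j,
        |hs w (z + d) i j - hs w z i j| ≤ ε * (C * (N + M0) + C * √‖d‖ * M) := by
  have hI := one_le_Ic (n := n)
  set C1 := 8 * Ic n * (1 + n * K) ^ 2 / c + 2 with hC1
  set C3 := 32 * Ic n * (1 + n * K) ^ 2 / c + 2 * Ic n with hC3
  have p1 : 0 < C1 := by positivity
  have p3 : 0 < C3 := by positivity
  have hc' := Real.sqrt_pos.2 hc
  refine ⟨Ic n + (C3 + 2 * C1) * (1 + n ^ 2 * K), by positivity,
    fun A w κ N M M0 ε z d hA hK hκ hw hM hg h0 hε hε1 hd i j => ?_⟩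
  obtain ⟨hN, g1, g2, he, hg, c2, p2, h2⟩ := hg
  have hM0 : 0 ≤ M0 := (abs_nonneg _).trans (h0 z i j)
  have hM1 := (hM i j).nonneg
  set Q := N + n ^ 2 * (K * M0) with hQ
  set R := n ^ 2 * (K * √‖d‖ * M) with hR
  have hNQ : N ≤ Q := le_add_of_nonneg_right (by positivity)
  have hQ0 := hN.trans hNQ
  have hR0 : 0 ≤ R := by positivity
  have mo : ∀ p h i j, |A (p + h) i j - A p i j| ≤ K * md ‖h‖ := fun p h i j => by
    simpa using (hK i j).mo (p + h) p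
  have l0 : ∀ p h, |F1 A g1 w p (p + h) - F1 A g1 w p p| ≤ Q * md ‖h‖ := fun p h => by
    simpa using F1_loc (L := 0) hM hg h0 (mo p) (fun _ _ => by simp) h
  have k1 : |tau A z κ w i j (z + d) 1 - 1 * tau A z κ w i j z 1| ≤ ε * (Ic n * M0) := by
    have := amul ((abs_of_pos (Real.rpow_pos_of_pos (sc_pos 1) (κ - 2))).trans_le (rpow_sc_le' hκ 1))
      (kern1 (s := sc 1) (x := z) (d := d) (hM i j).continuous (Sg_psd0 hc hA hK z zero_le_one)
        (by positivity) (Sg_lower0 hc hA hK z zero_le_one) (fun y => h0 y i j)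
        (by rw [hd]; gcongr))
    refine le_trans (le_of_eq (congrArg _ (by simp only [tau, PP]; ring))) (this.trans ?_)
    calc _ = ε * (ε * (Ic n * M0)) := by rw [hd]; field_simp
      _ ≤ _ := mul_le_of_le_one_left (by positivity) hε1
  have k2 := fence hc hA hK hκ hw hM z (z + d) z 1 i j hε.le hε1 (t0 := √c * ε ^ 2) (by positivity)
    (B := fun ρ => -(C3 * Q * ‖d‖ / √c) * ρ⁻¹) (B' := fun ρ => C3 * Q * ‖d‖ / √c / ρ ^ 2)
    (fun ρ hρ => by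
      refine ((hasDerivAt_inv (hε.trans_le hρ.1).ne').const_mul _).congr_deriv ?_
      ring) fun t ht ht' ρ hρ => by
    have : √c * ε ^ 2 ≤ √c * ρ ^ 2 := by gcongr; exact hρ.1
    exact est3 hc hA hK hκ hM he hg c2 p2 h2 hN hNQ i j (hε.trans_le hρ.1) hρ.2.le ht.le
      (ht'.trans this) (hd.trans_le this) (l0 _)
  have k2' : -(C3 * Q * ‖d‖ / √c) * (1 : ℝ)⁻¹ - -(C3 * Q * ‖d‖ / √c) * ε⁻¹ ≤ ε * (C3 * Q) := by
    have : 0 ≤ C3 * Q * ‖d‖ / √c := by positivity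
    have e : C3 * Q * ‖d‖ / √c * ε⁻¹ = ε * (C3 * Q) := by rw [hd]; field_simp
    rw [inv_one]
    linarith
  rw [← tau_zero (A := A) (z := z) (κ := κ), ← tau_zero (A := A) (z := z) (κ := κ)]
  refine lim0 ((tau_cont hc hA hK hM z (z + d) i j).sub (tau_cont hc hA hK hM z z i j)) hε
    fun a ha hab => ?_
  have k3 := fence hc hA hK hκ hw hM z (z + d) z 1 i j ha.le hab (t0 := √c * a ^ 2) (by positivity)
    (B := fun ρ => C1 * (2 * Q + R) * ρ) (B' := fun _ => C1 * (2 * Q + R))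
    (fun ρ _ => by simpa using (hasDerivAt_id ρ).const_mul (C1 * (2 * Q + R)))
    fun t ht ht' ρ hρ => by
    have hρ0 := ha.trans_le hρ.1
    have tt : t ≤ √c * ρ ^ 2 := ht'.trans (by gcongr; exact hρ.1)
    have a1 := est2 (z := z) hc hA hK hM he hg c2 p2 h2 hN hNQ i j hρ0 ht.le tt (l0 _)
    have a2 := est2 (z := z) (x := z + d) (Q := Q + R) hc hA hK hM he hg c2 p2 h2 hN (by linarith)
      i j hρ0 ht.le tt fun h => (F1_loc (L := K * √‖d‖) hM hg h0 (mo _) (fun i j => by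
        refine ((hK i j).2 _ _).trans ?_
        gcongr
        rw [← smul_sub, sub_add_cancel_left, norm_smul, norm_neg, Real.norm_eq_abs,
          abs_of_pos (inv_pos.2 (sc_pos ρ))]
        exact mul_le_of_le_one_left (norm_nonneg _) (inv_le_one_of_one_le₀ (one_le_sc ρ))) h).trans
          (le_of_eq (by rw [hQ, hR]; ring))
    have a3 := rpow_sc_le' hκ ρ
    rw [one_mul]
    calc _ ≤ t ^ 2 * (C1 * (Q + R) * sc ρ ^ (κ - 2)) + t ^ 2 * (C1 * Q * sc ρ ^ (κ - 2)) :=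
          (abs_sub _ _).trans (add_le_add a2 a1)
      _ ≤ t ^ 2 * (C1 * (Q + R) * 1) + t ^ 2 * (C1 * Q * 1) := by gcongr
      _ = _ := by ring
  have k3' : 0 ≤ C1 * (2 * Q + R) * a := by positivity
  have k4 : ε * (Ic n * M0) + ε * (C3 * Q) + C1 * (2 * Q + R) * ε
      ≤ ε * ((Ic n + (C3 + 2 * C1) * (1 + n ^ 2 * K)) * (N + M0)
        + (Ic n + (C3 + 2 * C1) * (1 + n ^ 2 * K)) * √‖d‖ * M) := by
    have b1 : Q ≤ (1 + n ^ 2 * K) * (N + M0) := by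
      rw [hQ]; nlinarith [mul_nonneg (mul_nonneg (sq_nonneg (n : ℝ)) hK0) hN]
    have b2 : C1 * (n ^ 2 * K) ≤ Ic n + (C3 + 2 * C1) * (1 + n ^ 2 * K) := by
      have : 0 ≤ (n : ℝ) ^ 2 * K := by positivity
      nlinarith
    calc _ = ε * (Ic n * M0 + (C3 + 2 * C1) * Q + C1 * (n ^ 2 * K) * √‖d‖ * M) := by rw [hR]; ring
      _ ≤ ε * (Ic n * (N + M0) + (C3 + 2 * C1) * ((1 + n ^ 2 * K) * (N + M0))
        + (Ic n + (C3 + 2 * C1) * (1 + n ^ 2 * K)) * √‖d‖ * M) := by gcongr; linarith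
      _ = _ := by ring
  simp only [one_mul, Pi.sub_apply] at k1 k2 k3 ⊢
  rw [abs_le] at k1 k2 k3 ⊢
  constructor <;> linarith [k1.1, k1.2, k2.1, k2.2, k3.1, k3.2]

end

theorem schauder_hol (n : ℕ) {c K : ℝ} (hc : 0 < c) (hK : 0 ≤ K) : ∃ C : ℝ, 0 < C ∧
    ∀ (A : E n → Mat n) (w : E n → ℝ) (κ N M0 : ℝ), Ell A c → HM A K → κ ≤ 1 → C2 w →
      (∃ M, HM (hs w) M) → Yn (Lop A κ w) N → 0 ≤ M0 → (∀ x i j, |hs w x i j| ≤ M0) →
      HM (hs w) (C * (N + M0)) := by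
  obtain ⟨C, hC, h⟩ := hol_est n hc hK
  have hν : 0 < √√c := by positivity
  refine ⟨2 * (1 + C / √√c + 2 * (1 + 2 * C) / √√c), by positivity,
    fun A w κ N M0 hA hAK hκ hw hM hg hM0 h0 => ?_⟩
  have hN := hg.1
  rw [mul_assoc]
  refine HM.absorb hM (by positivity) fun M hM1 hM i j => ⟨fun x => (h0 x i j).trans ?_, fun x z => ?_⟩
  · have : 0 ≤ (C / √√c + 2 * (1 + 2 * C) / √√c) * (N + M0) := by positivity
    nlinarith
  obtain ⟨d, rfl⟩ : ∃ d, x = z + d := ⟨x - z, by simp⟩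
  rw [add_sub_cancel_left]
  rcases eq_or_ne d 0 with rfl | hd
  · simp
  have hδ : 0 < √‖d‖ := by positivity
  set ε := √‖d‖ / √√c with hε
  have e : √‖d‖ = ε * √√c := by rw [hε]; field_simp
  have hε0 : 0 < ε := by positivity
  rcases le_total (ε * (1 + 2 * C)) 1 with h1 | h1
  · refine (h A w κ N M M0 ε z d hA hAK hκ hw hM hg h0 hε0 (by nlinarith) (by
      rw [hε, div_pow, Real.sq_sqrt (norm_nonneg _), Real.sq_sqrt (Real.sqrt_nonneg _)]
      field_simp) i j).trans ?_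
    calc _ = (C / √√c * (N + M0) + ε * C * M) * √‖d‖ := by rw [e]; field_simp
      _ ≤ ((1 + C / √√c + 2 * (1 + 2 * C) / √√c) * (N + M0) + 1 / 2 * M) * √‖d‖ := by
          have : 0 ≤ 2 * (1 + 2 * C) / √√c := by positivity
          gcongr <;> nlinarith
      _ = _ := by ring
  · calc _ ≤ M0 + M0 := (abs_sub _ _).trans (add_le_add (h0 _ i j) (h0 _ i j))
      _ ≤ 2 * M0 * (ε * (1 + 2 * C)) := by nlinarith
      _ = (2 * (1 + 2 * C) / √√c * M0 + 0) * √‖d‖ := by rw [e]; field_simp; ring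
      _ ≤ _ := by
          have : 0 ≤ C / √√c := by positivity
          gcongr <;> linarith

theorem schauder_neg (n : ℕ) {c K : ℝ} (hc : 0 < c) (hK : 0 ≤ K) : ∃ lam C : ℝ, 0 < lam ∧ 0 < C ∧
    ∀ (A : E n → Mat n) (w : E n → ℝ) (κ N : ℝ), Ell A c → HM A K → κ ≤ -lam → C2 w →
      (∃ M, HM (hs w) M) → Yn (Lop A κ w) N → HM (hs w) (C * N) := by
  obtain ⟨C, hC, h⟩ := schauder_hol n hc hK
  have hI := one_le_Ic (n := n)
  set C1 := 3 * (8 * Ic n * (1 + n * K) ^ 2 / c + 2) with hC1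
  have p1 : 0 < C1 := by positivity
  set b := 1 / (4 * (1 + C1 * (n ^ 2 * K))) with hb
  have b0 : 0 < b := by positivity
  have s1 : 1 < sc b := by rw [sc, Real.lt_sqrt zero_le_one]; nlinarith [pow_pos b0 4]
  obtain ⟨lam, hl⟩ := (((tendsto_rpow_atBot_of_base_gt_one _ s1).eventually
    (ge_mem_nhds (by norm_num : (0 : ℝ) < 1 / 4))).and (eventually_lt_atBot 0)).exists
  refine ⟨-lam, C * (1 + 2 * C1), by linarith, by positivity, fun A w κ N hA hAK hκ hw hM hg => ?_⟩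
  have hN := hg.1
  obtain ⟨M, hM'⟩ := id hM
  have key : ∀ M0, 0 ≤ M0 → (∀ x i j, |hs w x i j| ≤ M0) →
      ∀ x i j, |hs w x i j| ≤ C1 * N + M0 / 2 := fun M0 hM0 h0 x i j => by
    refine (sup_est hc hA hAK (by linarith) hw hM' hg h0 x b0 hK
      (fun ρ _ _ h i j => by simpa using (hAK i j).mo ((sc ρ)⁻¹ • x + h) ((sc ρ)⁻¹ • x)) i j).trans ?_
    have a1 : sc b ^ (κ - 2) ≤ 1 / 4 :=
      (Real.rpow_le_rpow_of_exponent_le s1.le (by linarith)).trans hl.1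
    have a2 : b / (1 + b) ≤ b := div_le_self b0.le (by linarith)
    have a3 : b / (1 + b) ≤ 1 := (div_le_one (by linarith)).2 (by linarith)
    have a4 : C1 * (n ^ 2 * K) * b ≤ 1 / 4 := by
      rw [hb, mul_one_div, div_le_div_iff₀ (by positivity) (by norm_num)]; linarith
    calc _ = sc b ^ (κ - 2) * M0 + C1 * N * (b / (1 + b))
          + C1 * (n ^ 2 * K) * (b / (1 + b)) * M0 := by ring
      _ ≤ 1 / 4 * M0 + C1 * N * 1 + C1 * (n ^ 2 * K) * b * M0 := by gcongr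
      _ ≤ _ := by nlinarith
  have bd : ∀ x i j, |hs w x i j| ≤ 2 * C1 * N := fun x i j => by
    have hb : BddAbove (range fun p : E n × Fin n × Fin n => |hs w p.1 p.2.1 p.2.2|) :=
      ⟨M, forall_mem_range.2 fun p => (hM' _ _).1 _⟩
    have l := fun x i j => le_ciSup hb (x, i, j)
    have : Nonempty (E n × Fin n × Fin n) := ⟨(x, i, j)⟩
    have := ciSup_le fun p : E n × Fin n × Fin n =>
      key _ ((abs_nonneg _).trans (l x i j)) l p.1 p.2.1 p.2.2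
    linarith [l x i j]
  exact (h A w κ N _ hA hAK (by linarith) hw hM hg (by positivity) bd).mono (le_of_eq (by ring))

theorem schauder_far (n : ℕ) {c K : ℝ} (hc : 0 < c) (hK : 0 ≤ K) : ∃ C : ℝ, 0 < C ∧
    ∀ ε : ℝ, 0 < ε → ∃ η q : ℝ, 0 < η ∧ 0 < q ∧
    ∀ (A : E n → Mat n) (w : E n → ℝ) (κ N M0 : ℝ) (z : E n), Ell A c → HM A K → κ ≤ 1 → C2 w →
      (∃ M, HM (hs w) M) → Yn (Lop A κ w) N → 0 ≤ M0 → (∀ x i j, |hs w x i j| ≤ M0) →
      (∀ s : ℝ, q ≤ s → s ≤ 1 → ∀ h i j, |A (s • z + h) i j - A (s • z) i j| ≤ η * md ‖h‖) →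
      ∀ i j, |hs w z i j| ≤ C * N + ε * M0 := by
  have hI := one_le_Ic (n := n)
  set C1 := 3 * (8 * Ic n * (1 + n * K) ^ 2 / c + 2) with hC1
  have p1 : 0 < C1 := by positivity
  refine ⟨C1, p1, fun ε hε => ⟨ε / (2 * (1 + C1 * n ^ 2)), (sc √(2 / ε))⁻¹, by positivity,
    inv_pos.2 (sc_pos _), fun A w κ N M0 z hA hAK hκ hw ⟨M, hM⟩ hg hM0 h0 hl i j => ?_⟩⟩
  have hN := hg.1
  set b := √(2 / ε) with hb
  have b0 : 0 < b := by positivity
  refine (sup_est hc hA hAK hκ hw hM hg h0 z b0 (by positivity) (fun ρ h1 h2 => hl _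
    (inv_anti₀ (sc_pos _) (by unfold sc; gcongr)) (inv_le_one_of_one_le₀ (one_le_sc ρ))) i j).trans ?_
  have a1 : sc b ^ (κ - 2) ≤ ε / 2 := by
    refine (rpow_sc_le hκ b).trans ?_
    rw [← inv_div]
    refine inv_anti₀ (by positivity) (Real.le_sqrt_of_sq_le ?_)
    rw [show 4 = 2 * 2 from rfl, pow_mul, hb, Real.sq_sqrt (by positivity)]
    linarith
  have a3 : b / (1 + b) ≤ 1 := (div_le_one (by linarith)).2 (by linarith)
  have a4 : C1 * n ^ 2 * (ε / (2 * (1 + C1 * n ^ 2))) ≤ ε / 2 := by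
    rw [mul_div_assoc', div_le_div_iff₀ (by positivity) (by norm_num)]; nlinarith
  calc _ ≤ ε / 2 * M0 + C1 * (N + n ^ 2 * (ε / (2 * (1 + C1 * n ^ 2)) * M0)) * 1 := by gcongr
    _ = ε / 2 * M0 + C1 * N + C1 * n ^ 2 * (ε / (2 * (1 + C1 * n ^ 2))) * M0 := by ring
    _ ≤ _ := by nlinarith

end Vale.Agent.P227
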