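import Vale.Agent.P227.Gauss
import Vale.Agent.P227.LogDet

/-! The derivative of Gaussian averages along a covariance path. -/

namespace Vale.Agent.P227

open Matrix MeasureTheory ProbabilityTheory Filter Topology Real Set Asymptotics
open scoped RealInnerProductSpace MatrixOrder

variable {n : ℕ}

lemma mg_eq (S : Mat n) : multivariateGaussian 0 S = (γ n).map (sq S) := by
  simp [multivariateGaussian, sq]

lemma conv {G : E n → ℝ} {S D : Mat n} (hS : S.PosSemidef) (hD : D.PosSemidef)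
    (hG : Continuous G) (hi : Integrable (fun z => G (sq (S + D) z)) (γ n)) :
    ∫ z, G (sq (S + D) z) ∂γ n = ∫ z, ∫ z', G (sq S z + sq D z') ∂γ n ∂γ n := by
  have e : multivariateGaussian (0 : E n) (S + D)
      = multivariateGaussian 0 S ∗ multivariateGaussian 0 D := by
    apply Measure.ext_of_charFun
    ext t
    rw [charFun_conv, charFun_multivariateGaussian hS, charFun_multivariateGaussian hD,
      charFun_multivariateGaussian (hS.add hD), ← Complex.exp_add, add_mulVec, dotProduct_add]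
    congr 1
    simp
    ring
  have h1 : Integrable G (multivariateGaussian 0 (S + D)) := by
    rw [mg_eq, integrable_map_measure hG.aestronglyMeasurable (by fun_prop)]
    exact hi
  have h2 := integral_conv (e ▸ h1)
  rw [← e, mg_eq, mg_eq, mg_eq, integral_map (by fun_prop) hG.aestronglyMeasurable,
    integral_map (by fun_prop)] at h2
  · rw [h2]
    congr 1
    ext z
    rw [integral_map (by fun_prop) (by fun_prop)]
  · exact (hG.comp continuous_add).stronglyMeasurable.integral_prod_right'.aestronglyMeasurable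

/-- integrable with given integral -/
def HI (f : E n → ℝ) (a : ℝ) : Prop := Integrable f (γ n) ∧ ∫ z, f z ∂γ n = a

section
variable {f g : E n → ℝ} {a b : ℝ}
lemma HI.mk (h : Integrable f (γ n)) : HI f (∫ z, f z ∂γ n) := ⟨h, rfl⟩
lemma HI.const (a : ℝ) : HI (fun _ : E n => a) a := ⟨integrable_const a, by simp⟩
lemma HI.add (h : HI f a) (h' : HI g b) : HI (fun z => f z + g z) (a + b) :=
  ⟨h.1.add h'.1, by rw [integral_add h.1 h'.1, h.2, h'.2]⟩
lemma HI.sub (h : HI f a) (h' : HI g b) : HI (fun z => f z - g z) (a - b) :=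
  ⟨h.1.sub h'.1, by rw [integral_sub h.1 h'.1, h.2, h'.2]⟩
lemma HI.const_mul (h : HI f a) (b : ℝ) : HI (fun z => b * f z) (b * a) :=
  ⟨h.1.const_mul b, by rw [integral_const_mul, h.2]⟩
lemma HI.mul_const (h : HI f a) (b : ℝ) : HI (fun z => f z * b) (a * b) :=
  ⟨h.1.mul_const b, by rw [integral_mul_const, h.2]⟩
lemma HI.div_const (h : HI f a) (b : ℝ) : HI (fun z => f z / b) (a / b) :=
  ⟨h.1.div_const b, by rw [integral_div, h.2]⟩
lemma HI.sum {F : Fin n → E n → ℝ} {A : Fin n → ℝ} (h : ∀ i, HI (F i) (A i)) :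
    HI (fun z => ∑ i, F i z) (∑ i, A i) :=
  ⟨integrable_finsetSum _ fun i _ => (h i).1, by
    rw [integral_finsetSum _ fun i _ => (h i).1]; exact Finset.sum_congr rfl fun i _ => (h i).2⟩
end

lemma coord_bd (D : Mat n) (i : Fin n) (z : E n) : |sq D z i| ≤ ‖sq D‖ * Xi z ^ 1 := by
  refine (abs_coord_le _ _).trans (((sq D).le_opNorm z).trans ?_)
  have := lin_le_Xi z
  gcongr
  linarith

lemma int_m1 (D : Mat n) (i : Fin n) : Integrable (fun z => sq D z i) (γ n) :=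
  int_of_le (by fun_prop) (coord_bd D i)

lemma int_m2 (D : Mat n) (i j : Fin n) : Integrable (fun z => sq D z i * sq D z j) (γ n) :=
  int_of_le (B := ‖sq D‖ ^ 2) (k := 2) (by fun_prop) fun z =>
    (amul (coord_bd D i z) (coord_bd D j z)).trans (le_of_eq (by ring))

lemma m1 (D : Mat n) (i : Fin n) : ∫ z, sq D z i ∂γ n = 0 :=
  integral_strongDual_stdGaussian ((EuclideanSpace.proj i).comp (sq D))

lemma m2 {D : Mat n} (hD : D.PosSemidef) (i j : Fin n) :
    ∫ z, sq D z i * sq D z j ∂γ n = D i j := by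
  have h := covariance_eval_multivariateGaussian (μ := (0 : E n)) hD i j
  have h0 : ∀ i, ∫ x : E n, x i ∂(γ n).map (sq D) = 0 := fun i => by
    rw [integral_map (by fun_prop) (by fun_prop), m1]
  rw [covariance, mg_eq, h0, h0, integral_map (by fun_prop) (by fun_prop)] at h
  simpa using h

lemma step_inner {w : E n → ℝ} {M α β ε : ℝ} {D : Mat n} (hw : C2 w) (hM : HM (hs w) M)
    (hM0 : 0 ≤ M) (hD : D.PosSemidef) (h0 : 0 ≤ ε) (h1 : ε ≤ 1) (hα : |α - 1| ≤ ε ^ 4)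
    (hb : ∀ i j, |D i j| ≤ ε ^ 4) (hβ : 0 ≤ β) (hβ1 : β ≤ 1) (X : E n) :
    |(∫ z, w (α • X + β • sq D z) ∂γ n) - w X -
        ((α - 1) * eu w X + ∑ i, ∑ j, β ^ 2 * D i j / 2 * hs w X i j)|
      ≤ n ^ 2 * M * ((1 + n) ^ 3 * Ic n + 1) * ε ^ 5 * (1 + ‖X‖) ^ 3 := by
  obtain ⟨C, -, hC⟩ := hw.growth fun x i j => (hM i j).1 x
  have hX := norm_nonneg X
  set d : E n → E n := fun z => (α - 1) • X + β • sq D z with hd
  have i0 : Integrable (fun z => w (X + d z)) (γ n) := by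
    have := int_aff hw.1.continuous ⟨C, 2, fun x => (hC x).1⟩ (α • X) (β • sq D)
      (K := fun _ => 1) continuous_const (B := 1) (j := 0) (by simp)
    refine this.congr (Eventually.of_forall fun z => ?_)
    simp only [hd, mul_one, _root_.smul_apply]
    congr 1
    module
  have di : ∀ i z, d z i = (α - 1) * X i + β * sq D z i := fun i z => by simp [hd]
  have e1 : ∀ i, HI (fun z => d z i) ((α - 1) * X i + β * 0) := fun i => by
    simp only [di]; exact (HI.const _).add (HI.const_mul ⟨int_m1 D i, m1 D i⟩ _)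
  have dij : ∀ i j z, d z i * d z j = (α - 1) ^ 2 * (X i * X j) + ((α - 1) * X i * β * sq D z j
      + (α - 1) * X j * β * sq D z i + β ^ 2 * (sq D z i * sq D z j)) := fun i j z => by
    rw [di, di]; ring
  have e2 : ∀ i j, HI (fun z => d z i * d z j) ((α - 1) ^ 2 * (X i * X j) +
      ((α - 1) * X i * β * 0 + (α - 1) * X j * β * 0 + β ^ 2 * D i j)) := fun i j => by
    simp only [dij]
    exact (HI.const _).add (((HI.const_mul ⟨int_m1 D j, m1 D j⟩ _).add
      (HI.const_mul ⟨int_m1 D i, m1 D i⟩ _)).add (HI.const_mul ⟨int_m2 D i j, m2 hD i j⟩ _))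
  have e : (∫ z, w (α • X + β • sq D z) ∂γ n) - w X -
        ((α - 1) * eu w X + ∑ i, ∑ j, β ^ 2 * D i j / 2 * hs w X i j)
      = (∫ z, w (X + d z) - w X - ∑ i, d z i * pd i w X
          - (∑ i, ∑ j, d z i * d z j * hs w X i j) / 2 ∂γ n)
        + (α - 1) ^ 2 / 2 * ∑ i, ∑ j, X i * X j * hs w X i j := by
    rw [((((HI.mk i0).sub (HI.const (w X))).sub (HI.sum fun i => (e1 i).mul_const (pd i w X))).sub
      ((HI.sum fun i => HI.sum fun j => (e2 i j).mul_const (hs w X i j)).div_const 2)).2]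
    have : ∀ z, α • X + β • sq D z = X + d z := fun z => by simp only [hd]; module
    have s1 : ∑ i, ((α - 1) * X i + β * 0) * pd i w X = (α - 1) * eu w X := by
      rw [eu, Finset.mul_sum]; exact Finset.sum_congr rfl fun i _ => by ring
    have s2 : (∑ i, ∑ j, ((α - 1) ^ 2 * (X i * X j) + ((α - 1) * X i * β * 0
        + (α - 1) * X j * β * 0 + β ^ 2 * D i j)) * hs w X i j) / 2
        = (α - 1) ^ 2 / 2 * ∑ i, ∑ j, X i * X j * hs w X i j
          + ∑ i, ∑ j, β ^ 2 * D i j / 2 * hs w X i j := by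
      simp only [Finset.mul_sum, Finset.sum_div, ← Finset.sum_add_distrib]
      exact Finset.sum_congr rfl fun i _ => Finset.sum_congr rfl fun j _ => by ring
    simp only [this]
    rw [s1, s2]
    ring
  have hd1 : ∀ z, ‖d z‖ ≤ ε ^ 2 * ((1 + n) * (1 + ‖X‖) * Xi z) := fun z => by
    have a1 : ‖sq D z‖ ≤ (1 + n) * ε ^ 2 * ‖z‖ := sq_le hD (by positivity) (fun v => by
      refine (le_abs_self _).trans ((quad_le hb v).trans ?_)
      have : 0 ≤ v ⬝ᵥ v := Finset.sum_nonneg fun i _ => mul_self_nonneg _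
      rw [mul_pow, ← pow_mul]
      gcongr
      nlinarith [(Nat.cast_nonneg n : (0 : ℝ) ≤ n)]) z
    have a2 : ε ^ 4 ≤ ε ^ 2 := pow_le_pow_of_le_one h0 h1 (by omega)
    have a3 := lin_le_Xi z
    have hz := norm_nonneg z
    have hn : (0 : ℝ) ≤ n := Nat.cast_nonneg n
    calc ‖d z‖ ≤ |α - 1| * ‖X‖ + β * ‖sq D z‖ := by
          refine (norm_add_le _ _).trans (le_of_eq ?_)
          rw [norm_smul, norm_smul, Real.norm_eq_abs, Real.norm_eq_abs, abs_of_nonneg hβ]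
      _ ≤ ε ^ 2 * ‖X‖ + 1 * ((1 + n) * ε ^ 2 * ‖z‖) := by gcongr; exact hα.trans a2
      _ = ε ^ 2 * (‖X‖ + (1 + n) * ‖z‖) := by ring
      _ ≤ ε ^ 2 * ((1 + n) * (1 + ‖X‖) * (1 + ‖z‖)) := by
          gcongr; nlinarith [mul_nonneg hX hz, mul_nonneg hn hX, mul_nonneg hn (mul_nonneg hX hz)]
      _ ≤ _ := by gcongr
  have r1 := abs_int_le (B := n ^ 2 * M * (1 + n) ^ 3 * ε ^ 5 * (1 + ‖X‖) ^ 3) (k := 3)
    (by positivity) (by omega) fun z => (taylor2 hw hM X (d z)).trans (by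
      set Y := (1 + n) * (1 + ‖X‖) * Xi z with hY
      have hY1 : 1 ≤ Y := one_le_mul_of_one_le_of_one_le
        (one_le_mul_of_one_le_of_one_le (by simp) (by linarith)) (one_le_Xi z)
      have b1 : √‖d z‖ ≤ ε * Y := by
        rw [Real.sqrt_le_left (by positivity), mul_pow]
        exact (hd1 z).trans (by gcongr; nlinarith)
      calc _ ≤ n ^ 2 * M * (ε ^ 2 * Y) ^ 2 * (ε * Y) := by gcongr; exact hd1 z
        _ = _ := by rw [hY]; ring)
  have r2 : |(α - 1) ^ 2 / 2 * ∑ i, ∑ j, X i * X j * hs w X i j|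
      ≤ n ^ 2 * M * ε ^ 5 * (1 + ‖X‖) ^ 3 := by
    have b1 : |(α - 1) ^ 2 / 2| ≤ ε ^ 5 := by
      rw [abs_of_nonneg (by positivity), ← sq_abs]
      have := pow_le_pow_left₀ (abs_nonneg _) hα 2
      have b : (ε ^ 4) ^ 2 ≤ ε ^ 5 := by
        rw [← pow_mul]; exact pow_le_pow_of_le_one h0 h1 (by omega)
      linarith [sq_nonneg |α - 1|]
    have b2 : |∑ i, ∑ j, X i * X j * hs w X i j| ≤ ∑ _i : Fin n, ∑ _j : Fin n, ‖X‖ * ‖X‖ * M :=
      (Finset.abs_sum_le_sum_abs _ _).trans (Finset.sum_le_sum fun i _ =>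
        (Finset.abs_sum_le_sum_abs _ _).trans (Finset.sum_le_sum fun j _ =>
          amul (amul (abs_coord_le X i) (abs_coord_le X j)) ((hM i j).1 X)))
    refine (amul b1 b2).trans ?_
    have b3 : ‖X‖ * ‖X‖ ≤ (1 + ‖X‖) ^ 3 := by nlinarith [mul_nonneg hX hX]
    calc _ = n ^ 2 * M * ε ^ 5 * (‖X‖ * ‖X‖) := by simp; ring
      _ ≤ _ := by gcongr
  rw [e]
  exact (aadd r1 r2).trans (le_of_eq (by ring))

lemma HI_Ps {F : E n → ℝ} (hF : Continuous F) (h : PG F) (S : Mat n) (s : ℝ) (x : E n) :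
    HI (fun z => F (s⁻¹ • (x + sq S z))) (Ps F S s x) := HI.mk (int_Ps' hF h S s x)

section
variable {w : E n → ℝ} {M : ℝ}

lemma C2.pg (hw : C2 w) (hM : HM (hs w) M) : PG w := by
  obtain ⟨C, -, hC⟩ := hw.growth fun x i j => (hM i j).1 x
  exact ⟨C, 2, fun x => (hC x).1⟩

lemma C2.pg_eu (hw : C2 w) (hM : HM (hs w) M) : Continuous (eu w) ∧ PG (eu w) := by
  obtain ⟨C, h0, hC⟩ := hw.growth fun x i j => (hM i j).1 x
  refine ⟨continuous_finsetSum _ fun i _ => (differentiable_coord i).continuous.mul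
    (hw.2 i).continuous, n * C, 2, fun x => ?_⟩
  refine (Finset.abs_sum_le_sum_abs _ _).trans ((Finset.sum_le_sum fun i _ =>
    amul (abs_coord_le x i) ((hC x).2 i)).trans ?_)
  have := norm_nonneg x
  calc _ = n * C * (‖x‖ * (1 + ‖x‖)) := by simp; ring
    _ ≤ _ := by gcongr; nlinarith

lemma step (hw : C2 w) (hM : HM (hs w) M) (hM0 : 0 ≤ M) {S : Mat n} (hS : S.PosSemidef)
    {s : ℝ} (hs0 : 0 < s) (x : E n) : ∃ C : ℝ, ∀ (D : Mat n) (s' ε : ℝ), D.PosSemidef → 1 ≤ s' →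
      0 ≤ ε → ε ≤ 1 → |s / s' - 1| ≤ ε ^ 4 → (∀ i j, |D i j| ≤ ε ^ 4) →
      |Ps w (S + D) s' x - Ps w S s x - ((s / s' - 1) * Ps (eu w) S s x
        + ∑ i, ∑ j, s'⁻¹ ^ 2 * D i j / 2 * Ps (fun y => hs w y i j) S s x)| ≤ C * ε ^ 5 := by
  have c3 : Continuous fun y : E n => (1 + ‖y‖) ^ 3 := by fun_prop
  have p3 : PG fun y : E n => (1 + ‖y‖) ^ 3 := ⟨1, 3, fun y => by
    rw [abs_of_nonneg (by positivity), one_mul]⟩
  refine ⟨n ^ 2 * M * ((1 + n) ^ 3 * Ic n + 1) * Ps (fun y => (1 + ‖y‖) ^ 3) S s x,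
    fun D s' ε hD h1 e0 e1 hα hb => ?_⟩
  have hs' : 0 < s' := by linarith
  have hc := hw.1.continuous
  have hi := int_Ps' hc (hw.pg hM) (S + D) s' x
  have e : ∀ z z', s'⁻¹ • (x + (sq S z + sq D z'))
      = (s / s') • s⁻¹ • (x + sq S z) + s'⁻¹ • sq D z' := fun z z' => by
    rw [smul_smul, show s / s' * s⁻¹ = s'⁻¹ by field_simp]; module
  have e2 := conv (G := fun ξ => w (s'⁻¹ • (x + ξ))) hS hD (by fun_prop) hi
  simp only [e] at e2
  have b := fun z => step_inner hw hM hM0 hD e0 e1 hα hb (inv_pos.2 hs').le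
    (inv_le_one_of_one_le₀ h1) (s⁻¹ • (x + sq S z))
  have I3 := (HI_Ps c3 p3 S s x).const_mul (n ^ 2 * M * ((1 + n) ^ 3 * Ic n + 1) * ε ^ 5)
  have I2 := (HI_Ps hc (hw.pg hM) S s x).add (((HI_Ps (hw.pg_eu hM).1 (hw.pg_eu hM).2 S s
    x).const_mul (s / s' - 1)).add (HI.sum fun i => HI.sum fun j =>
      (HI_Ps (hM i j).continuous (PG.of_bdd (hM i j).1) S s x).const_mul (s'⁻¹ ^ 2 * D i j / 2)))
  have m : StronglyMeasurable fun z => ∫ z', w ((s / s') • s⁻¹ • (x + sq S z) + s'⁻¹ • sq D z')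
      ∂γ n := (Continuous.stronglyMeasurable (f := fun p : E n × E n =>
        w ((s / s') • s⁻¹ • (x + sq S p.1) + s'⁻¹ • sq D p.2)) (by fun_prop)).integral_prod_right'
  have I1 : Integrable (fun z => (∫ z', w ((s / s') • s⁻¹ • (x + sq S z) + s'⁻¹ • sq D z') ∂γ n)
      - (w (s⁻¹ • (x + sq S z)) + ((s / s' - 1) * eu w (s⁻¹ • (x + sq S z)) + ∑ i, ∑ j,
        s'⁻¹ ^ 2 * D i j / 2 * hs w (s⁻¹ • (x + sq S z)) i j))) (γ n) :=
    I3.1.mono' (m.aestronglyMeasurable.sub I2.1.1) (Eventually.of_forall fun z => by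
      rw [← sub_sub]; exact b z)
  have I0 := (HI.mk I1).add I2
  simp only [sub_add_cancel] at I0
  simp only [sub_sub, ← Real.norm_eq_abs] at b
  have k := norm_integral_le_of_norm_le I3.1 (Eventually.of_forall b)
  rw [I3.2, Real.norm_eq_abs] at k
  rw [Ps, e2, I0.2]
  exact le_trans (le_of_eq (congrArg _ (by ring))) (k.trans (le_of_eq (by ring)))

lemma hasDeriv_Ps (hw : C2 w) (hM : HM (hs w) M) (hM0 : 0 ≤ M) {S : ℝ → Mat n} {S' : Mat n}
    {s : ℝ → ℝ} {s' ρ : ℝ} (x : E n) (hS : (S ρ).PosSemidef)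
    (hD : ∀ r, ρ ≤ r → (S r - S ρ).PosSemidef) (h1 : ∀ r, ρ ≤ r → 1 ≤ s r)
    (ds : HasDerivWithinAt s s' (Ici ρ) ρ)
    (dS : ∀ i j, HasDerivWithinAt (fun r => S r i j) (S' i j) (Ici ρ) ρ) :
    HasDerivWithinAt (fun r => Ps w (S r) (s r) x) (-(s' / s ρ) * Ps (eu w) (S ρ) (s ρ) x
      + ∑ i, ∑ j, (s ρ)⁻¹ ^ 2 * S' i j / 2 * Ps (fun y => hs w y i j) (S ρ) (s ρ) x) (Ici ρ) ρ := by
  have hp : 0 < s ρ := by linarith [h1 ρ le_rfl]
  obtain ⟨C, hC⟩ := step hw hM hM0 hS hp x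
  have da : HasDerivWithinAt (fun r => s ρ / s r - 1) (-(s' / s ρ)) (Ici ρ) ρ := by
    refine (((hasDerivWithinAt_const ρ _ (s ρ)).fun_div ds hp.ne').sub_const 1).congr_deriv ?_
    field_simp
    ring
  have dD : ∀ i j, HasDerivWithinAt (fun r => (S r - S ρ) i j) (S' i j) (Ici ρ) ρ := fun i j =>
    (dS i j).sub_const _
  have db : ∀ i j, HasDerivWithinAt (fun r => (s r)⁻¹ ^ 2 * (S r - S ρ) i j / 2)
      ((s ρ)⁻¹ ^ 2 * S' i j / 2) (Ici ρ) ρ := fun i j => by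
    refine ((((ds.fun_inv hp.ne').fun_pow 2).fun_mul (dD i j)).div_const 2).congr_deriv ?_
    simp
  have dm := ((da.mul_const (Ps (eu w) (S ρ) (s ρ) x)).fun_add (HasDerivWithinAt.fun_sum
    (u := Finset.univ) fun i _ => HasDerivWithinAt.fun_sum (u := Finset.univ) fun j _ =>
      (db i j).mul_const (Ps (fun y => hs w y i j) (S ρ) (s ρ) x))).const_add (Ps w (S ρ) (s ρ) x)
  set δ : ℝ → ℝ := fun r => |s ρ / s r - 1| + ∑ i, ∑ j, |(S r - S ρ) i j| with hδ
  have δ0 : ∀ r, 0 ≤ δ r := fun r => by positivity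
  have O1 : δ =O[𝓝[Ici ρ] ρ] fun r => r - ρ := by
    refine IsBigO.add ?_ (IsBigO.fun_sum fun i _ => IsBigO.fun_sum fun j _ => ?_)
    · simpa [hp.ne'] using da.hasFDerivWithinAt.isBigO_sub.abs_left
    · simpa using (dD i j).hasFDerivWithinAt.isBigO_sub.abs_left
  have t0 : Tendsto δ (𝓝[Ici ρ] ρ) (𝓝 0) := O1.trans_tendsto (by
    have : Tendsto (fun r => r - ρ) (𝓝 ρ) (𝓝 (ρ - ρ)) := tendsto_id.sub_const ρ
    simpa using this.mono_left nhdsWithin_le_nhds)
  have t1 : Tendsto (fun r => √√(δ r)) (𝓝[Ici ρ] ρ) (𝓝 0) := by simpa using t0.sqrt.sqrt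
  have e4 : ∀ r, √√(δ r) ^ 4 = δ r := fun r => by
    rw [show 4 = 2 * 2 from rfl, pow_mul, Real.sq_sqrt (Real.sqrt_nonneg _), Real.sq_sqrt (δ0 r)]
  have dR : HasDerivWithinAt (fun r => Ps w (S r) (s r) x - (Ps w (S ρ) (s ρ) x +
      ((s ρ / s r - 1) * Ps (eu w) (S ρ) (s ρ) x + ∑ i, ∑ j, (s r)⁻¹ ^ 2 * (S r - S ρ) i j / 2 *
        Ps (fun y => hs w y i j) (S ρ) (s ρ) x))) 0 (Ici ρ) ρ := by
    rw [hasDerivWithinAt_iff_isLittleO]
    have o := ((isLittleO_one_iff ℝ).2 t1).mul_isBigO O1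
    simp only [one_mul] at o
    refine IsBigO.trans_isLittleO (IsBigO.of_bound C ?_) o
    filter_upwards [self_mem_nhdsWithin, t1.eventually (ge_mem_nhds one_pos)] with r hr h2
    have k := hC _ (s r) _ (hD r hr) (h1 r hr) (Real.sqrt_nonneg _) h2
      (by rw [e4]; exact le_add_of_nonneg_right (by positivity)) fun i j => by
        rw [e4]
        exact le_add_of_nonneg_of_le (abs_nonneg _) ((Finset.single_le_sum
          (f := fun j => |(S r - S ρ) i j|) (fun _ _ => abs_nonneg _) (Finset.mem_univ j)).trans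
          (Finset.single_le_sum (f := fun i => ∑ j, |(S r - S ρ) i j|)
            (fun _ _ => by positivity) (Finset.mem_univ i)))
    rw [add_sub_cancel, pow_succ' _ 4, e4] at k
    rw [Real.norm_eq_abs, Real.norm_eq_abs, abs_of_nonneg (mul_nonneg (Real.sqrt_nonneg _) (δ0 r))]
    refine le_trans (le_of_eq (congrArg _ ?_)) k
    simp [hp.ne']
    ring
  simpa using dR.fun_add dm

lemma hasDeriv_eta (hw : C2 w) (hM : HM (hs w) M) (hM0 : 0 ≤ M) {S : ℝ → Mat n} {A : Mat n}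
    {s : ℝ → ℝ} {ω ρ : ℝ} (κ : ℝ) (x : E n) (hS : (S ρ).PosSemidef)
    (hD : ∀ r, ρ ≤ r → (S r - S ρ).PosSemidef) (h1 : ∀ r, ρ ≤ r → 1 ≤ s r)
    (ds : HasDerivWithinAt s (ω / s ρ) (Ici ρ) ρ)
    (dS : ∀ i j, HasDerivWithinAt (fun r => S r i j) (2 * ω * A i j) (Ici ρ) ρ) :
    HasDerivWithinAt (fun r => s r ^ κ * Ps w (S r) (s r) x)
      (ω * s ρ ^ (κ - 2) * Ps (Lop (fun _ => A) κ w) (S ρ) (s ρ) x) (Ici ρ) ρ := by
  have hp : 0 < s ρ := by linarith [h1 ρ le_rfl]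
  refine ((ds.rpow_const (p := κ) (Or.inl hp.ne')).fun_mul
    (hasDeriv_Ps (S' := (2 * ω) • A) hw hM hM0 x hS hD h1 ds dS)).congr_deriv ?_
  have I := ((HI.sum fun i => HI.sum fun j => (HI_Ps (hM i j).continuous (PG.of_bdd (hM i j).1)
    (S ρ) (s ρ) x).const_mul (A i j)).sub (HI_Ps (hw.pg_eu hM).1 (hw.pg_eu hM).2 (S ρ) (s ρ) x)).add
      ((HI_Ps hw.1.continuous (hw.pg hM) (S ρ) (s ρ) x).const_mul κ)
  have e : ∑ i, ∑ j, (s ρ)⁻¹ ^ 2 * ((2 * ω) • A) i j / 2 * Ps (fun y => hs w y i j) (S ρ) (s ρ) x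
      = (s ρ)⁻¹ ^ 2 * ω * ∑ i, ∑ j, A i j * Ps (fun y => hs w y i j) (S ρ) (s ρ) x := by
    simp only [Finset.mul_sum, Matrix.smul_apply, smul_eq_mul]
    exact Finset.sum_congr rfl fun i _ => Finset.sum_congr rfl fun j _ => by ring
  rw [e, show Ps (Lop (fun _ => A) κ w) (S ρ) (s ρ) x = _ from I.2, Real.rpow_sub hp,
    Real.rpow_sub hp, Real.rpow_two, Real.rpow_one]
  field_simp
  ring

end

open scoped Matrix.Norms.L2Operator in
lemma cont_sqrt : ContinuousOn (fun S : Mat n => CFC.sqrt S) {S | 0 ≤ S} := CFC.continuousOn_sqrt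

lemma continuous_Ps {X : Type} [TopologicalSpace X] [FirstCountableTopology X] {F : E n → ℝ}
    (hF : Continuous F) (hp : PG F) {S : X → Mat n} {s : X → ℝ} {x : X → E n} (hS : ∀ r, (S r).PosSemidef) (cS : Continuous S) (h1 : ∀ r, 1 ≤ s r)
    (cs : Continuous s) (cx : Continuous x) : Continuous fun r => Ps F (S r) (s r) (x r) := by
  have c1 : Continuous fun r => CFC.sqrt (S r) :=
    cont_sqrt.comp_continuous cS fun r => (hS r).nonneg
  have c2 : Continuous fun r => sq (S r) :=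
    (LinearMap.continuous_of_finiteDimensional
      (toEuclideanCLM (𝕜 := ℝ) (n := Fin n)).toAlgEquiv.toLinearMap).comp c1
  have c3 : Continuous fun r => (s r)⁻¹ := cs.inv₀ fun r => by linarith [h1 r]
  obtain ⟨C, k, hC, h⟩ := hp.bound
  rw [continuous_iff_continuousAt]
  intro r
  refine continuousAt_of_dominated (bound := fun z =>
    C * (1 + (‖x r‖ + 1) + (‖sq (S r)‖ + 1)) ^ k * Xi z ^ k)
    (Eventually.of_forall fun r => Continuous.aestronglyMeasurable (by fun_prop)) ?_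
    ((int_Xi k).const_mul _) (Eventually.of_forall fun z => Continuous.continuousAt (by fun_prop))
  filter_upwards [cx.norm.continuousAt.eventually (ge_mem_nhds (lt_add_one ‖x r‖)),
    c2.norm.continuousAt.eventually (ge_mem_nhds (lt_add_one ‖sq (S r)‖))] with t h2 h3
  refine Eventually.of_forall fun z => ?_
  have hi : ‖(s t)⁻¹‖ ≤ 1 := by
    rw [Real.norm_eq_abs, abs_of_pos (inv_pos.2 (by linarith [h1 t]))]
    exact inv_le_one_of_one_le₀ (h1 t)
  rw [smul_add]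
  refine h _ _ z _ _ (by positivity) ?_ ?_
  · rw [norm_smul]; exact (mul_le_of_le_one_left (norm_nonneg _) hi).trans h2
  · rw [norm_smul]
    exact (mul_le_of_le_one_left (norm_nonneg _) hi).trans
      (((sq (S t)).le_opNorm z).trans (by gcongr))

end Vale.Agent.P227
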